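import Vale.Agent.P022.H472.Lit2
import Vale.Agent.P022.H346.FAlg
import Vale.Agent.P022.H161.COp
import Vale.Agent.P022.H20.GalDef

/-! # P022 route D, block G: the pseudo-character attached to a quotient of the Hecke ring
(all weights at least two, both parities, odd level): definitions and statements -/

set_option linter.all false

open scoped MatrixGroups ModularForm NumberField
open UpperHalfPlane CongruenceSubgroup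

noncomputable section

namespace Vale.Agent.P022D.G

open Vale.Agent.P022 Vale.Agent.P022.H161.CLat Vale.Agent.P022.H161.COp

/-- words in the letters `T_ℓ`, `ℓ S_ℓ` -/
abbrev Wd (N : ℕ) : Type := FreeAlgebra ℤ (Gen N)

/-- the letter `T_ℓ` -/
def wT {N : ℕ} (ℓ : PA N) : Wd N := FreeAlgebra.ι ℤ (Sum.inl ℓ)

/-- the letter `ℓ S_ℓ` -/
def wS {N : ℕ} (ℓ : PA N) : Wd N := FreeAlgebra.ι ℤ (Sum.inr ℓ)

/-- words on forms of weight `i + 1` -/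
def sg (N : ℕ) [NeZero N] (i : ℕ) : Wd N →ₐ[ℤ] Module.End ℂ (MF N (i + 1)) :=
  FreeAlgebra.lift ℤ fun s => gHk N s i

/-- `f` is invariant under `Γ₀(A) ∩ Γ₁(B)` -/
def Inv (A B : ℕ) {N k : ℕ} (f : MF N k) : Prop := ∀ γ : SL(2, ℤ), (A : ℤ) ∣ γ 1 0 →
  (B : ℤ) ∣ γ 1 1 - 1 → (f : ℍ → ℂ) ∣[(k : ℤ)] γ = f

/-- the word `Q` kills the forms of level `Γ₀(A) ∩ Γ₁(B)` of the weights `i + 1`, `i ∈ K` -/
def Kil (N : ℕ) [NeZero N] (A B : ℕ) (K : Finset ℕ) (Q : Wd N) : Prop :=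
  ∀ i ∈ K, ∀ f : MF N (i + 1), Inv A B f → sg N i Q f = 0

/-- `g` lies in an inertia group at `l` (the same words as `P027M.M.IsInert`) -/
def Inert (l : ℕ) (g : GQ) : Prop := ∃ P : Ideal (𝓞 Qb), P.IsPrime ∧ (l : 𝓞 Qb) ∈ P ∧
  ∀ x : 𝓞 Qb, g • x - x ∈ P

/-- the pseudo-character `(t, d)` belongs to the system `β` -/
structure PS0 (N : ℕ) {B : Type} [CommRing B] (β : Wd N →+* B) (t : GQ → B) (d : GQ →* Bˣ) :
    Prop where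
  tf : H346.TF t d
  opn : ∃ U : Subgroup GQ, U.Normal ∧ IsOpen (U : Set GQ) ∧
    (∀ ℓ : PA N, ∀ g, Inert ℓ.1 g → g ∈ U) ∧ ∀ u ∈ U, d u = 1 ∧ ∀ g, t (g * u) = t g
  frT : ∀ (ℓ : PA N) φ, IsFrob ℓ.1 φ → t φ = β (wT ℓ)
  frS : ∀ (ℓ : PA N) φ, IsFrob ℓ.1 φ → (d φ : B) = β (wS ℓ)

/-- with the determinant and the inertia groups at the primes which divide the level exactly -/
structure PS (N : ℕ) {B : Type} [CommRing B] (β : Wd N →+* B) (t : GQ → B) (d : GQ →* Bˣ) :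
    Prop extends PS0 N β t d where
  cyc : ∃ a : ℕ, ∀ g : GQ, (∀ ζ : Qb, ζ ^ (2 ^ a * N) = 1 → g ζ = ζ) → d g = 1
  dc : ∀ c, IsConj c → (d c : B) = -1
  i1 : ∀ M q : ℕ, N = M * q → q.Prime → ¬ q ∣ M → ∀ σ, Inert q σ → t σ = 1 + d σ

/-- **GAL2** -/
def GAL2 : Prop := ∀ (N : ℕ) [NeZero N], Odd N → ∀ K : Finset ℕ, (∀ i ∈ K, 1 ≤ i) →
  ∀ (B : Type) [CommRing B] (s : ℕ), (2 : B) ^ s = 0 → ∀ β : Wd N →+* B,
  (∀ Q, (∀ i ∈ K, sg N i Q = 0) → β Q = 0) → ∀ ℓ₀ : PA N, IsUnit (β (wT ℓ₀)) →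
  ∃ t d, PS N β t d

/-- **I2**: Frobenius at `q` on the new part -/
def I2 : Prop := ∀ (N : ℕ) [NeZero N], Odd N → ∀ K : Finset ℕ, (∀ i ∈ K, 1 ≤ i) →
  ∀ (B : Type) [CommRing B] (s : ℕ), (2 : B) ^ s = 0 → ∀ β : Wd N →+* B,
  ∀ ℓ₀ : PA N, IsUnit (β (wT ℓ₀)) → ∀ M q : ℕ, N = M * q → q.Prime → ¬ q ∣ M →
  (∀ Q, Kil N N M K Q → β Q = 0) → ∀ t d, PS0 N β t d → ∀ X, Kil N M M K X →
  ∀ φ, IsFrob q φ → β X * (q * t φ ^ 2 - (q + 1) ^ 2 * d φ) = 0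

/-- every subring which contains the eigenvalues at almost all primes contains all values -/
def SUB : Prop := ∀ (N : ℕ) (B : Type) [CommRing B] (β : Wd N →+* B) (t : GQ → B)
  (d : GQ →* Bˣ), N ≠ 0 → PS0 N β t d → ∀ (S : Finset ℕ) (C : Subring B),
  (∀ ℓ : PA N, ℓ.1 ∉ S → β (wT ℓ) ∈ C ∧ β (wS ℓ) ∈ C) → ∀ g, t g ∈ C ∧ (d g : B) ∈ C

/-- the pseudo-character is unique -/
def UNIQ : Prop := ∀ (N : ℕ) (B : Type) [CommRing B] (β β' : Wd N →+* B) (t t' : GQ → B)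
  (d d' : GQ →* Bˣ), N ≠ 0 → PS0 N β t d → PS0 N β' t' d' → ∀ S : Finset ℕ,
  (∀ ℓ : PA N, ℓ.1 ∉ S → β (wT ℓ) = β' (wT ℓ) ∧ β (wS ℓ) = β' (wS ℓ)) → t = t' ∧ d = d'

/-! ### rows -/

/-- every element is a power of a Frobenius element modulo an open normal subgroup -/
def FROB : Prop := ∀ (U : Subgroup GQ), U.Normal → IsOpen (U : Set GQ) → ∀ (g : GQ)
  (S : Finset ℕ), ∃ (ℓ : ℕ) (φ : GQ) (k : ℕ), ℓ.Prime ∧ ℓ ∉ S ∧ IsFrob ℓ φ ∧ g⁻¹ * φ ^ k ∈ U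

/-- the abstract construction: `t g = ρ g + D g ρ g⁻¹`, `d g = D g` lie in the image of the words -/
def GALA : Prop := ∀ (N : ℕ) (R : Type) [Ring R] (α : Wd N →+* R) (ρ D : GQ →* R), N ≠ 0 →
  (∀ P Q, Commute (α P) (α Q)) → (∀ Q g, Commute (α Q) (ρ g)) → (∀ Q g, Commute (α Q) (D g)) →
  (∀ g h, Commute (D g) (ρ h)) → (∀ g h, Commute (D g) (D h)) →
  IsOpen {g : GQ | ρ g = 1} → IsOpen {g : GQ | D g = 1} →
  (∀ ℓ : PA N, ∀ g, Inert ℓ.1 g → ρ g = 1 ∧ D g = 1) →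
  (∀ (ℓ : PA N) φ, IsFrob ℓ.1 φ → α (wT ℓ) = ρ φ + D φ * ρ φ⁻¹ ∧ α (wS ℓ) = D φ) →
  ∀ (B : Type) [CommRing B] (β : Wd N →+* B), (∀ Q, α Q = 0 → β Q = 0) →
  ∃ t d, PS0 N β t d ∧ ∀ g, ∃ P Q, α P = ρ g + D g * ρ g⁻¹ ∧ α Q = D g ∧ t g = β P ∧
    (d g : B) = β Q

/-- integral cocycles with values in the polynomials of degree at most `w` -/
abbrev ZC (Γ : Subgroup SL(2, ℤ)) (w : ℕ) := Z1 (actM ℤ (AA Γ w))

/-- divisibility in the endomorphisms gives divisibility in the image, up to a fixed integer -/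
def LAT : Prop := ∀ (Γ : Subgroup SL(2, ℤ)) [Group.FG Γ] (H : Type) [AddCommGroup H]
  (K : Finset ℕ) (ρ : ∀ w, H →+ AddMonoid.End (ZC Γ w)) (A : ∀ w, AddSubgroup (ZC Γ w)),
  ∃ e : ℕ, e ≠ 0 ∧ ∀ (n : ℕ) (Q : H),
    (∀ w ∈ K, ∀ u ∈ A w, ∃ v : ZC Γ w, ρ w Q u - 2 ^ n • v ∈ Bsat (AA Γ w)) →
    ∃ R : H, ∀ w ∈ K, ∀ u ∈ A w, e • ρ w Q u - 2 ^ n • ρ w R u ∈ Bsat (AA Γ w)

/-- a complex cocycle killed by integral operators is a combination of integral such cocycles -/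
def SPAN : Prop := ∀ (Γ : Subgroup SL(2, ℤ)) [Group.FG Γ] (w : ℕ) (I : Type)
  (E : I → AddMonoid.End (ZC Γ w)) (F : I → Module.End ℂ (Γ → Fin (w + 1) → ℂ)),
  (∀ i (u : ZC Γ w), F i (toC (u : Γ → Fin (w + 1) → ℤ)) =
    toC ((E i u : ZC Γ w) : Γ → Fin (w + 1) → ℤ)) →
  ∀ u ∈ Z1 (actM ℂ (AA Γ w)), (∀ i, F i u ∈ B1 (actM ℂ (AA Γ w))) →
  ∃ (n : ℕ) (c : Fin n → ℂ) (z : Fin n → ZC Γ w), (∀ b i, E i (z b) ∈ Bsat (AA Γ w)) ∧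
    u = ∑ b, c b • toC (z b : Γ → Fin (w + 1) → ℤ)

theorem PS0.map {N : ℕ} {B C : Type} [CommRing B] [CommRing C] {β : Wd N →+* B} {t : GQ → B}
    {d : GQ →* Bˣ} (h : PS0 N β t d) (π : B →+* C) :
    PS0 N (π.comp β) (fun g => π (t g)) ((Units.map (π : B →* C)).comp d) where
  tf := ⟨by rw [h.tf.one, map_ofNat], fun g k => by rw [h.tf.comm], fun g k => by
    rw [← map_mul, h.tf.mul, map_add, map_mul]; rfl⟩
  opn := by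
    obtain ⟨U, a, b, c, e⟩ := h.opn
    exact ⟨U, a, b, c, fun u hu => ⟨by rw [MonoidHom.comp_apply, (e u hu).1, map_one],
      fun g => by rw [(e u hu).2]⟩⟩
  frT ℓ φ hφ := congrArg π (h.frT ℓ φ hφ)
  frS ℓ φ hφ := congrArg π (h.frS ℓ φ hφ)

end Vale.Agent.P022D.G
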