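import Vale.Agent.P022D.G.Defs
import Vale.Agent.P027M.TW.Dens

/-! # P022 route D, block G: the Frobenius density theorem -/

set_option linter.all false

open NumberField IsDedekindDomain Filter Topology
open scoped Pointwise ENNReal

noncomputable section

namespace Vale.Agent.P022D.G

open Vale.Agent.P022 Vale.Agent.P022.H916 Vale.Agent.P022.H853 Vale.Agent.P001.H200.Ded
open Vale.Agent.P027M.TW

namespace Frob

/-- `f` has the logarithmic density `c` -/
def Den (f : ℝ → ℝ≥0∞) (c : ℝ) : Prop :=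
  Tendsto (fun s => (f s).toReal / Real.log (1 / (s - 1))) (𝓝[>] 1) (𝓝 c)

theorem den_of {f : ℝ → ℝ≥0∞} {p : ℕ} (hp : 0 < p) {A B : ℝ≥0∞} (hA : A ≠ ∞) (hB : B ≠ ∞)
    {C C' : ℝ}
    (h1 : ∀ᶠ s in 𝓝[>] 1, p * f s ≤ ENNReal.ofReal (Real.log (1 / (s - 1)) + C) + A)
    (h2 : ∀ᶠ s in 𝓝[>] 1, ENNReal.ofReal (Real.log (1 / (s - 1)) - C') ≤ p * f s + B) :
    Den f (1 / p) := by
  have p0 : (0 : ℝ) < p := by exact_mod_cast hp
  have T := Cov.tendsto_log_one_div
  have lim : ∀ c : ℝ, Tendsto (fun s : ℝ => (1 + c / Real.log (1 / (s - 1))) / p) (𝓝[>] 1)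
      (𝓝 (1 / p)) := fun c => by
    simpa only [add_zero] using ((T.const_div_atTop c).const_add 1).div_const (p : ℝ)
  have key : ∀ᶠ s in 𝓝[>] 1, 0 < Real.log (1 / (s - 1)) ∧
      p * (f s).toReal ≤ Real.log (1 / (s - 1)) + (C + A.toReal) ∧
      Real.log (1 / (s - 1)) + (-C' - B.toReal) ≤ p * (f s).toReal := by
    filter_upwards [h1, h2, T.eventually_gt_atTop 0, T.eventually_ge_atTop (-C)] with s a b c d
    have n1 := ENNReal.add_ne_top.2 ⟨ENNReal.ofReal_ne_top (r := Real.log (1 / (s - 1)) + C), hA⟩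
    have n2 := ne_top_of_le_ne_top n1 a
    have a' := ENNReal.toReal_mono n1 a
    have b' := (ENNReal.ofReal_le_iff_le_toReal (ENNReal.add_ne_top.2 ⟨n2, hB⟩)).1 b
    rw [ENNReal.toReal_add ENNReal.ofReal_ne_top hA, ENNReal.toReal_ofReal (by linarith),
      ENNReal.toReal_mul, ENNReal.toReal_natCast] at a'
    rw [ENNReal.toReal_add n2 hB, ENNReal.toReal_mul, ENNReal.toReal_natCast] at b'
    exact ⟨c, by linarith, by linarith⟩
  refine tendsto_of_tendsto_of_tendsto_of_le_of_le' (lim (-C' - B.toReal)) (lim (C + A.toReal))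
    (key.mono fun s ⟨a, _, c⟩ => ?_) (key.mono fun s ⟨a, b, _⟩ => ?_)
  · rw [div_le_div_iff₀ p0 a, add_mul, div_mul_cancel₀ _ a.ne']; linarith
  · rw [div_le_div_iff₀ a p0, add_mul, div_mul_cancel₀ _ a.ne']; linarith

open Classical in
/-- from divisibility to equality -/
theorem den_eq {ι : Type} (w : ι → ℝ → ℝ≥0∞) (o : ι → ℕ) {m : ℕ} (hm : m ≠ 0)
    (fin : ∀ᶠ s in 𝓝[>] 1, ∑' v, w v s ≠ ∞)
    (h : ∀ e, e ∣ m → Den (fun s => ∑' v, if o v ∣ e then w v s else 0) (e / m)) (e : ℕ) :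
    e ∣ m → Den (fun s => ∑' v, if o v = e then w v s else 0) (e.totient / m) := by
  induction e using Nat.strong_induction_on with
  | _ e ih =>
  intro he
  have e0 : e ≠ 0 := ne_zero_of_dvd_ne_zero hm he
  have h1 := (h e he).sub (tendsto_finsetSum e.properDivisors fun d hd =>
    ih d (Nat.mem_properDivisors.1 hd).2 ((Nat.mem_properDivisors.1 hd).1.trans he))
  have h2 : (e : ℝ) / m - ∑ d ∈ e.properDivisors, (d.totient : ℝ) / m = e.totient / m := by
    have := congrArg (Nat.cast : ℕ → ℝ) (Nat.sum_totient e)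
    rw [← Nat.insert_self_properDivisors e0, Finset.sum_insert (by simp)] at this
    push_cast at this
    rw [← Finset.sum_div, ← sub_div, ← this, add_sub_cancel_right]
  rw [h2] at h1
  refine h1.congr' (fin.mono fun s hs => ?_)
  have nt : ∀ d, (∑' v, if o v = d then w v s else 0) ≠ ∞ := fun d =>
    ne_top_of_le_ne_top hs (ENNReal.tsum_le_tsum fun v => by split_ifs <;> simp)
  have h3 : (∑' v, if o v ∣ e then w v s else 0) =
      ∑ d ∈ e.divisors, ∑' v, if o v = d then w v s else 0 := by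
    rw [← Summable.tsum_finsetSum fun _ _ => ENNReal.summable]
    refine tsum_congr fun v => ?_
    rw [Finset.sum_ite_eq]
    simp only [Nat.mem_divisors, e0, ne_eq, not_false_eq_true, and_true]
  beta_reduce
  rw [h3, ENNReal.toReal_sum fun d _ => nt d, ← Nat.insert_self_properDivisors e0,
    Finset.sum_insert (by simp), ← Finset.sum_div, ← sub_div, add_sub_cancel_right]

/-- the primes of prime norm -/
abbrev V1 (K : Type) [Field K] [NumberField K] : Type :=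
  {v : HeightOneSpectrum (𝓞 K) | (Ideal.absNorm v.asIdeal).Prime}

open Classical in
theorem bad {K : Type} [Field K] [NumberField K] {B : Set (HeightOneSpectrum (𝓞 K))}
    (hB : B.Finite) : ∃ A : ℝ≥0∞, A ≠ ∞ ∧ ∀ s : ℝ, 1 < s →
      (∑' v : V1 K, if v.1 ∈ B then ENNReal.ofReal (nm K v s) else 0) ≤ A := by
  refine ⟨∑' _ : B, 1, ?_, fun s hs => ?_⟩
  · rw [ENNReal.tsum_set_one, hB.encard_eq_coe_toFinset_card]
    exact ENNReal.natCast_ne_top _
  rw [tsum_subtype B fun _ => (1 : ℝ≥0∞)]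
  refine (ENNReal.tsum_le_tsum fun v => ?_).trans (ENNReal.tsum_comp_le_tsum_of_injective
    (f := fun v : V1 K => v.1) Subtype.val_injective _)
  split_ifs with h
  · rw [Set.indicator_of_mem h, ENNReal.ofReal_le_one]
    exact (nm_le_half _ hs.le).trans (by norm_num)
  · exact zero_le

variable {K L : Type} [Field K] [NumberField K] [Field L] [NumberField L] [Algebra K L]
  {j : K →+* Qb} {jL : L →+* Qb} {ρ : GK j →* (L ≃ₐ[K] L)}

theorem down (Q : V1 L) : (∀ y : 𝓞 L, ∃ a : 𝓞 K, y - algebraMap (𝓞 K) (𝓞 L) a ∈ Q.1.asIdeal) ∧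
    Ideal.absNorm (Q.1.asIdeal.comap (algebraMap (𝓞 K) (𝓞 L))) = Ideal.absNorm Q.1.asIdeal := by
  have : Finite (𝓞 L ⧸ Q.1.asIdeal) := Ideal.finiteQuotientOfFreeOfNeBot _ Q.1.ne_bot
  let _ := Fintype.ofFinite (𝓞 L ⧸ Q.1.asIdeal)
  have hq : (Ideal.absNorm Q.1.asIdeal).Prime := Q.2
  have : NeZero (Ideal.absNorm Q.1.asIdeal) := ⟨hq.ne_zero⟩
  let e := ZMod.ringEquivOfPrime (𝓞 L ⧸ Q.1.asIdeal) hq (by
    rw [Ideal.absNorm_apply, Submodule.cardQuot_apply, Nat.card_eq_fintype_card])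
  have h1 : ∀ y : 𝓞 L, ∃ a : 𝓞 K, y - algebraMap (𝓞 K) (𝓞 L) a ∈ Q.1.asIdeal := fun y => by
    refine ⟨(e.symm (Ideal.Quotient.mk _ y)).val, Ideal.Quotient.eq.1 ?_⟩
    rw [map_natCast, map_natCast, ← map_natCast e, ZMod.natCast_zmod_val, e.apply_symm_apply]
  refine ⟨h1, ?_⟩
  rw [Ideal.absNorm_apply, Ideal.absNorm_apply, Submodule.cardQuot_apply, Submodule.cardQuot_apply]
  refine Nat.card_eq_of_bijective (Ideal.quotientMap Q.1.asIdeal (algebraMap (𝓞 K) (𝓞 L)) le_rfl)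
    ⟨Ideal.quotientMap_injective, fun x => ?_⟩
  obtain ⟨y, rfl⟩ := Ideal.Quotient.mk_surjective x
  obtain ⟨a, ha⟩ := h1 y
  exact ⟨Ideal.Quotient.mk _ a, (Ideal.Quotient.eq.2 ha).symm⟩

theorem fix (u : GK jL) (P : Ideal (𝓞 Qb)) : below jL ((u : GQ) • P) = below jL P := by
  ext a
  show RingOfIntegers.mapRingHom jL a ∈ (u : GQ) • P ↔ RingOfIntegers.mapRingHom jL a ∈ P
  rw [Ideal.mem_pointwise_smul_iff_inv_smul_mem]
  have : (u : GQ)⁻¹ • RingOfIntegers.mapRingHom jL a = RingOfIntegers.mapRingHom jL a := by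
    apply RingOfIntegers.ext
    exact ((GK jL).inv_mem u.2) a
  rw [this]

open Classical in
/-- the density of the primes whose Frobenius element fixes `L` -/
theorem dens (D : Dict j jL ρ) (hn : ∀ x ∈ GK j, ∀ u ∈ GK jL, x * u * x⁻¹ ∈ GK jL) {p : ℕ}
    (hp : 0 < p) (t : Fin p → GK j)
    (ht : ∀ i i', i ≠ i' → (((t i)⁻¹ * t i' : GK j) : GQ) ∉ GK jL)
    (ht' : ∀ x : GK j, ∃ i, (((t i)⁻¹ * x : GK j) : GQ) ∈ GK jL)
    (P : V1 K → Ideal (𝓞 Qb)) (hP : ∀ v, (P v).IsPrime) (hv : ∀ v, below j (P v) = v.1.asIdeal)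
    (φ : V1 K → GK j)
    (hφ : ∀ v (x : 𝓞 Qb), (φ v : GQ) • x - x ^ Ideal.absNorm v.1.asIdeal ∈ P v) :
    Den (fun s => ∑' v : V1 K, if (φ v : GQ) ∈ GK jL then ENNReal.ofReal (nm K v s) else 0)
      (1 / p) := by
  obtain ⟨C, hC⟩ := upper L
  obtain ⟨C', hC'⟩ := lower L
  obtain ⟨B, B1, B2⟩ := DensP.split D hn t ht
  choose E E1 E2 using fun i : {i // (t i : GQ) ∉ GK jL} => DensP.move D i.2
  obtain ⟨A, A1, A2⟩ := bad B1
  obtain ⟨A', A1', A2'⟩ := bad (Set.finite_iUnion E1)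
  have pt : (p : ℝ≥0∞) ≠ ∞ := ENNReal.natCast_ne_top p
  have p0 : (p : ℝ≥0∞) ≠ 0 := by exact_mod_cast hp.ne'
  refine den_of hp (ENNReal.mul_ne_top pt A1) (ENNReal.mul_ne_top pt A1') (C := C) (C' := C') ?_ ?_
  · filter_upwards [hC, self_mem_nhdsWithin] with s h1 h2
    let F : Ideal (𝓞 K) → ℝ≥0∞ := fun J => ∑' Q : ((fun Q : HeightOneSpectrum (𝓞 L) =>
      Q.asIdeal.comap (algebraMap (𝓞 K) (𝓞 L))) ⁻¹' {J}), ENNReal.ofReal (nm L Q s)
    have a : ∑' v : V1 K, F v.1.asIdeal ≤ _ := (ENNReal.tsum_comp_le_tsum_of_injective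
      (fun v w h => Subtype.ext (HeightOneSpectrum.ext h)) F).trans
      ((ENNReal.tsum_fiberwise (fun Q : HeightOneSpectrum (𝓞 L) => ENNReal.ofReal (nm L Q s))
        _).le.trans h1)
    refine le_trans ?_ (add_le_add a (mul_le_mul_right (A2 s h2) p))
    rw [← ENNReal.tsum_mul_left, ← ENNReal.tsum_mul_left, ← ENNReal.tsum_add]
    refine ENNReal.tsum_le_tsum fun v => ?_
    split_ifs with h3 h4
    · exact le_add_self
    · obtain ⟨S, S1, S2⟩ := B2 v h4 v.2 (P v) (hP v) (hv v) _ (hφ v) h3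
      exact le_add_right ((ENNReal.mul_le_iff_le_inv p0 pt).2 (Cov.point_le hp v.1 S S1 S2 s))
    all_goals rw [mul_zero]; exact zero_le
  filter_upwards [hC', self_mem_nhdsWithin] with s h1 h2
  have ex : ∀ Q : V1 L, ∃ z : V1 K × Fin p, Q.1.asIdeal = below jL ((t z.2 : GQ) • P z.1) ∧
      nm L Q s = nm K z.1 s ∧ ((φ z.1 : GQ) ∈ GK jL ∨ z.1.1 ∈ ⋃ i, E i) := fun Q => by
    obtain ⟨d1, d2⟩ := down (K := K) Q
    have hq : (Ideal.absNorm Q.1.asIdeal).Prime := Q.2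
    let v : V1 K := ⟨⟨Q.1.asIdeal.comap (algebraMap (𝓞 K) (𝓞 L)), Ideal.IsPrime.comap _,
      fun h => hq.ne_zero (by rw [← d2, h, Ideal.absNorm_bot])⟩, (d2 ▸ hq :)⟩
    obtain ⟨R, R1, R2⟩ := exists_above jL Q.1.asIdeal Q.1.isPrime
    obtain ⟨x, hx⟩ := exists_smul j (hP v) R1 (by rw [hv, ← D.below_comap, R2])
    obtain ⟨i, hi⟩ := ht' x
    have u := hn _ (t i).2 _ hi
    refine ⟨(v, i), ?_, by unfold nm; rw [← d2], or_iff_not_imp_right.2 fun hE => ?_⟩
    · rw [← R2, hx, ← fix ⟨_, u⟩ ((t i : GQ) • P v), smul_smul]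
      congr 2
      simp
    obtain ⟨k, hk⟩ := ht' (x * φ v * x⁻¹)
    have e : ρ (t k) = ρ (x * φ v * x⁻¹) := by
      rw [← D.ker, map_mul, map_inv, inv_mul_eq_one] at hk
      exact hk
    have st : (φ v : GQ) • P v = P v := by
      ext y
      rw [Ideal.mem_pointwise_smul_iff_inv_smul_mem,
        ← mem_of_frob (hP v) (v.2 : Nat.Prime _).ne_zero (hφ v), smul_inv_smul]
    have k1 : (t k : GQ) ∈ GK jL := by
      by_contra n
      refine E2 ⟨k, n⟩ v.1 (fun h => hE (Set.mem_iUnion.2 ⟨_, h⟩)) Q.1 rfl d1 ?_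
      rw [e, ← R2, ← D.below_smul, hx, smul_smul]
      simp only [Subgroup.coe_mul, Subgroup.coe_inv, inv_mul_cancel_right]
      rw [mul_smul, st]
    rw [← D.ker, e, D.ker] at k1
    simpa [mul_assoc] using hn _ (x⁻¹).2 _ k1
  choose z z1 z2 z3 using ex
  let G : V1 K × Fin p → ℝ≥0∞ := fun y =>
    (if (φ y.1 : GQ) ∈ GK jL then ENNReal.ofReal (nm K y.1 s) else 0) +
      if y.1.1 ∈ ⋃ i, E i then ENNReal.ofReal (nm K y.1 s) else 0
  refine h1.trans (((ENNReal.tsum_le_tsum fun Q => ?_).trans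
    (ENNReal.tsum_comp_le_tsum_of_injective (f := z) (fun Q Q' h => Subtype.ext
      (HeightOneSpectrum.ext (by rw [z1, z1, h]))) G)).trans ?_)
  · rw [z2]
    rcases z3 Q with h | h
    · exact le_add_right (if_pos h).ge
    · exact le_add_left (if_pos h).ge
  rw [ENNReal.tsum_prod', ← mul_add]
  simp only [G, tsum_fintype, Finset.sum_const, Finset.card_univ, Fintype.card_fin, nsmul_eq_mul]
  rw [ENNReal.tsum_mul_left, ENNReal.tsum_add]
  exact mul_le_mul_right (add_le_add le_rfl (A2' s h2)) _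

theorem grp {G : Type} [Group G] [Finite G] (r : GQ →* G) (hr : IsOpen (r.ker : Set GQ))
    (S : Finset ℕ) (g : GQ) :
    ∃ (l : ℕ) (φ : GQ), l.Prime ∧ l ∉ S ∧ IsFrob l φ ∧ r g ∈ Subgroup.zpowers (r φ) := by
  classical
  let C : ℕ → Subgroup GQ := fun p => (Subgroup.zpowers (r g ^ p)).comap r
  have hC : ∀ p, IsOpen (C p : Set GQ) := fun p => Subgroup.isOpen_mono (fun x hx => by
    show r x ∈ Subgroup.zpowers (r g ^ p)
    rw [MonoidHom.mem_ker.1 hx]
    exact Subgroup.one_mem _) hr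
  have m1 : ∀ x, x ∈ C 1 ↔ r x ∈ Subgroup.zpowers (r g) := fun x => by
    show r x ∈ Subgroup.zpowers (r g ^ 1) ↔ _
    rw [pow_one]
  obtain ⟨F, iF, iN, jF, hGF⟩ := exists_fix (C 1) (hC 1)
  have hle : ∀ p, C p ≤ GK jF := fun p x hx => by
    rw [hGF, m1]
    exact Subgroup.zpowers_le_of_mem (Subgroup.npow_mem_zpowers (r g) p) hx
  have pw : ∀ x : GK jF, ∃ n : ℕ, r g ^ n = r x := fun x =>
    mem_powers_iff_mem_zpowers.2 ((m1 _).1 (hGF ▸ x.2))
  have hcomm : ∀ p, ∀ x ∈ GK jF, ∀ u ∈ C p, x * u * x⁻¹ ∈ C p := by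
    intro p x hx u hu
    obtain ⟨k, hk⟩ := pw ⟨x, hx⟩
    obtain ⟨l, hl⟩ := pw ⟨u, hle p hu⟩
    have h2 : r (x * u * x⁻¹) = r u := by
      rw [map_mul, map_mul, map_inv, ← hk, ← hl, pow_mul_comm, mul_inv_cancel_right]
    show r (x * u * x⁻¹) ∈ Subgroup.zpowers (r g ^ p)
    rw [h2]
    exact hu
  have hg : g ∈ GK jF := by
    rw [hGF, m1]
    exact Subgroup.mem_zpowers (r g)
  choose P hP hv using fun v : V1 F => exists_above jF v.1.asIdeal v.1.isPrime
  have hl : ∀ v : V1 F, ((Ideal.absNorm v.1.asIdeal : ℕ) : 𝓞 Qb) ∈ P v := fun v => by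
    have h1 : ((Ideal.absNorm v.1.asIdeal : ℕ) : 𝓞 F) ∈ below jF (P v) := by
      rw [hv]; exact Ideal.absNorm_mem _
    rw [← map_natCast (RingOfIntegers.mapRingHom jF)]
    exact h1
  choose φ hφ using fun v : V1 F => exists_frob jF (hP v) v.2 (hl v)
  simp only [hv] at hφ
  have m0 : orderOf (r g) ≠ 0 := (orderOf_pos _).ne'
  obtain ⟨c, hc⟩ := upper F
  have key := den_eq (fun (v : V1 F) s => ENNReal.ofReal (nm F v s)) (fun v => orderOf (r (φ v)))
    m0 (hc.mono fun s hs => ne_top_of_le_ne_top ENNReal.ofReal_ne_top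
      ((ENNReal.tsum_comp_le_tsum_of_injective Subtype.val_injective
        fun v => ENNReal.ofReal (nm F v s)).trans hs)) (fun e ⟨p, he⟩ => by
    have p0 : 0 < p := Nat.pos_of_ne_zero fun h => m0 (by rw [he, h, mul_zero])
    have e0 : 0 < e := Nat.pos_of_ne_zero fun h => m0 (by rw [he, h, zero_mul])
    obtain ⟨L, iL, iNL, iA, iG, jL, ρ, D, hGL, -⟩ := exists_fld jF (C p) (hC p) (hle p) (hcomm p)
    have mem : ∀ (x : GQ) (n : ℤ), r g ^ n = r x → (x ∈ GK jL ↔ (p : ℤ) ∣ n) := fun x n hx => by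
      rw [hGL]
      refine ⟨fun h => ?_, fun ⟨k, hk⟩ => ⟨k, by
        show (r g ^ p) ^ k = r x
        rw [← hx, hk, zpow_mul, zpow_natCast]⟩⟩
      obtain ⟨k, hk⟩ := Subgroup.mem_zpowers_iff.1 (Subgroup.mem_comap.1 h)
      rw [← hx, ← zpow_natCast, ← zpow_mul, zpow_eq_zpow_iff_modEq, he] at hk
      have := (Int.natCast_dvd_natCast.2 (dvd_mul_left p e)).trans hk.dvd
      rwa [dvd_sub_left (dvd_mul_right _ _)] at this
    have := dens D (by rw [hGL]; exact hcomm p) p0 (fun i => (⟨g, hg⟩ : GK jF) ^ (i : ℕ))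
      (fun i i' hi h => by
        rw [mem _ (-(i : ℕ) + (i' : ℕ)) (by simp [zpow_add])] at h
        have d2 := Int.eq_zero_of_abs_lt_dvd h (by
          have := i.2
          have := i'.2
          rw [abs_lt]
          constructor <;> omega)
        exact hi (Fin.ext (by omega)))
      (fun x => by
        obtain ⟨n, hx⟩ := pw x
        refine ⟨⟨n % p, Nat.mod_lt n p0⟩, (mem _ (-(n % p : ℕ) + n) (by
          simp only [Subgroup.coe_mul, Subgroup.coe_inv, Subgroup.coe_pow, map_mul, map_inv,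
            map_pow, zpow_add, zpow_neg, zpow_natCast, hx])).2 ⟨(n / p : ℕ), ?_⟩⟩
        have := congrArg (Nat.cast : ℕ → ℤ) (Nat.mod_add_div n p)
        rw [Nat.cast_add, Nat.cast_mul] at this
        linarith) P hP hv φ hφ
    rw [show (e : ℝ) / orderOf (r g) = 1 / p by
      rw [he, Nat.cast_mul, div_mul_cancel_left₀ (by exact_mod_cast e0.ne'), one_div]]
    refine this.congr fun s => ?_
    congr 2
    refine tsum_congr fun v => if_congr ?_ rfl rfl
    obtain ⟨n, hx⟩ := pw (φ v)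
    rw [mem _ n (by rw [zpow_natCast, hx]), Int.natCast_dvd_natCast, orderOf_dvd_iff_pow_eq_one,
      ← hx, ← pow_mul, ← orderOf_dvd_iff_pow_eq_one, he, mul_comm e, Nat.mul_dvd_mul_iff_right e0])
    _ dvd_rfl
  have hB : (⋃ n ∈ S.erase 0,
      {v : HeightOneSpectrum (𝓞 F) | ((n : ℕ) : 𝓞 F) ∈ v.asIdeal}).Finite :=
    Set.Finite.biUnion (S.erase 0).finite_toSet fun n hn => Cov.finite_bad F _ (by
      exact_mod_cast (Finset.mem_erase.1 hn).1)
  obtain ⟨A, A1, A2⟩ := bad hB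
  by_contra hcon
  have T := Cov.tendsto_log_one_div
  have z := le_of_tendsto_of_tendsto key (T.const_div_atTop A.toReal) (by
    filter_upwards [T.eventually_gt_atTop 0, self_mem_nhdsWithin] with s h1 h2
    refine div_le_div_of_nonneg_right (ENNReal.toReal_mono A1 (le_trans
      (ENNReal.tsum_le_tsum fun v => ?_) (A2 s h2))) h1.le
    have hq : (Ideal.absNorm v.1.asIdeal).Prime := v.2
    split_ifs with h3 h4
    · exact le_rfl
    · refine (hcon ⟨_, φ v, hq, fun h => h4 (Set.mem_biUnion (Finset.mem_coe.2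
        (Finset.mem_erase.2 ⟨hq.ne_zero, h⟩)) (Ideal.absNorm_mem _)), ⟨P v, hP v, hl v, hφ v⟩,
        ?_⟩).elim
      rw [Subgroup.eq_of_le_of_card_ge (Subgroup.zpowers_le_of_mem ((m1 _).1 (hGF ▸ (φ v).2)))
        (by rw [Nat.card_zpowers, Nat.card_zpowers, h3])]
      exact Subgroup.mem_zpowers _
    all_goals exact zero_le)
  have t0 : (0 : ℝ) < (orderOf (r g)).totient := by
    exact_mod_cast Nat.totient_pos.2 (orderOf_pos _)
  exact z.not_gt (div_pos t0 (by exact_mod_cast orderOf_pos _))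

end Frob

theorem frob : FROB := by
  intro U hn hU g S
  have : Finite (GQ ⧸ U) := U.quotient_finite_of_isOpen hU
  obtain ⟨l, φ, h1, h2, h3, h4⟩ := Frob.grp (QuotientGroup.mk' U)
    (by rw [QuotientGroup.ker_mk']; exact hU) S g
  obtain ⟨k, hk⟩ := mem_powers_iff_mem_zpowers.2 h4
  refine ⟨l, φ, k, h1, h2, h3, QuotientGroup.eq.1 ?_⟩
  exact ((map_pow (QuotientGroup.mk' U) φ k).trans hk).symm

end Vale.Agent.P022D.G
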