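import Vale.Agent.P022D.G.Defs

/-! # P022 route D, block G: the values of a pseudo-character come from Frobenius elements -/

set_option linter.all false

noncomputable section

namespace Vale.Agent.P022D.G

open Vale.Agent.P022

namespace SubA

variable {B : Type} [CommRing B]

theorem step {t : GQ → B} {d : GQ →* Bˣ} (T : H346.TF t d) (φ : GQ) (k : ℕ) :
    t (φ ^ (k + 2)) = t φ * t (φ ^ (k + 1)) - d φ * t (φ ^ k) := by
  have h := T.mul (φ ^ (k + 1)) φ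
  rw [← pow_succ, pow_succ φ k, mul_inv_cancel_right, ← pow_succ φ k] at h
  linear_combination -h

theorem val {t : GQ → B} {d : GQ →* Bˣ} {U : Subgroup GQ}
    (h : ∀ u ∈ U, d u = 1 ∧ ∀ g, t (g * u) = t g) {g x : GQ} (hx : g⁻¹ * x ∈ U) :
    t g = t x ∧ d g = d x := by
  obtain ⟨h1, h2⟩ := h _ hx
  have h3 := h2 g
  rw [mul_inv_cancel_left] at h3
  rw [map_mul, map_inv, inv_mul_eq_one] at h1
  exact ⟨h3.symm, h1⟩

theorem frob (F : FROB) {N : ℕ} (hN : N ≠ 0) (U : Subgroup GQ) (a : U.Normal)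
    (b : IsOpen (U : Set GQ)) (g : GQ) (S : Finset ℕ) :
    ∃ (ℓ : PA N) (φ : GQ) (k : ℕ), ℓ.1 ∉ S ∧ IsFrob ℓ.1 φ ∧ g⁻¹ * φ ^ k ∈ U := by
  obtain ⟨ℓ, φ, k, h1, h2, h3, h4⟩ := F U a b g (S ∪ (2 * N).primeFactors)
  rw [Finset.mem_union, not_or] at h2
  exact ⟨⟨ℓ, h1, fun h => h2.2 (Nat.mem_primeFactors.2 ⟨h1, h, by omega⟩)⟩, φ, k, h2.1, h3, h4⟩

end SubA

open SubA in
theorem sub (F : FROB) : SUB := by
  intro N B _ β t d hN h S C hC g
  obtain ⟨U, a, b, -, e⟩ := h.opn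
  obtain ⟨ℓ, φ, k, h1, h2, h3⟩ := frob F hN U a b g S
  obtain ⟨e1, e2⟩ := val e h3
  have ht : t φ ∈ C := h.frT ℓ φ h2 ▸ (hC ℓ h1).1
  have hd : (d φ : B) ∈ C := h.frS ℓ φ h2 ▸ (hC ℓ h1).2
  have key : ∀ k, t (φ ^ k) ∈ C ∧ t (φ ^ (k + 1)) ∈ C := fun k => by
    induction k with
    | zero =>
      rw [pow_zero, zero_add, pow_one, h.tf.one, ← one_add_one_eq_two]
      exact ⟨C.add_mem C.one_mem C.one_mem, ht⟩
    | succ k ih =>
      refine ⟨ih.2, ?_⟩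
      rw [step h.tf]
      exact C.sub_mem (C.mul_mem ht ih.2) (C.mul_mem hd ih.1)
  rw [e1, e2, map_pow, Units.val_pow_eq_pow_val]
  exact ⟨(key k).1, C.pow_mem hd k⟩

open SubA in
theorem uniq (F : FROB) : UNIQ := by
  intro N B _ β β' t t' d d' hN h h' S hC
  obtain ⟨U, a, b, -, e⟩ := h.opn
  obtain ⟨U', a', b', -, e'⟩ := h'.opn
  have main : ∀ g, t g = t' g ∧ d g = d' g := fun g => by
    obtain ⟨ℓ, φ, k, h1, h2, h3⟩ := frob F hN (U ⊓ U') inferInstance (b.inter b') g S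
    obtain ⟨e1, e2⟩ := val e h3.1
    obtain ⟨e1', e2'⟩ := val e' h3.2
    have ht : t φ = t' φ := by rw [h.frT ℓ φ h2, h'.frT ℓ φ h2, (hC ℓ h1).1]
    have hd : d φ = d' φ := Units.ext (by rw [h.frS ℓ φ h2, h'.frS ℓ φ h2, (hC ℓ h1).2])
    have key : ∀ k, t (φ ^ k) = t' (φ ^ k) ∧ t (φ ^ (k + 1)) = t' (φ ^ (k + 1)) := fun k => by
      induction k with
      | zero =>
        rw [pow_zero, zero_add, pow_one, h.tf.one, h'.tf.one]
        exact ⟨rfl, ht⟩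
      | succ k ih =>
        refine ⟨ih.2, ?_⟩
        rw [step h.tf, step h'.tf, ht, hd, ih.1, ih.2]
    rw [e1, e2, e1', e2', map_pow, map_pow, hd]
    exact ⟨(key k).1, rfl⟩
  exact ⟨funext fun g => (main g).1, MonoidHom.ext fun g => (main g).2⟩

end Vale.Agent.P022D.G
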