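import Vale.Agent.P022D.G.KeyN2
import Vale.Agent.P022D.G.Sub
import Vale.Agent.P022D.G.Frob
import Vale.Agent.P022.H783.HAc

/-! # P022 route D, block G: the pseudo-character as operators on a discrete module -/

set_option linter.all false

open scoped MatrixGroups

noncomputable section

namespace Vale.Agent.P022D.G

open Vale.Agent.P022 Vale.Agent.P022.H161.CLat Vale.Agent.P022.H161.COp

section law

variable {O V : Type} [CommRing O] [AddCommGroup V] [Module O V]

/-- a determinant law with values in the endomorphisms of a discrete module -/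
structure Law (t d : GQ → Module.End O V) : Prop where
  one : t 1 = 2
  comm : ∀ g h, t (g * h) = t (h * g)
  mul : ∀ g h, t g * t h = t (g * h) + d h * t (g * h⁻¹)
  d1 : d 1 = 1
  dm : ∀ g h, d (g * h) = d g * d h
  opn : ∀ v, ∃ U : Subgroup GQ, U.Normal ∧ IsOpen (U : Set GQ) ∧
    ∀ u ∈ U, d u v = v ∧ ∀ g, t (g * u) v = t g v

/-- **naturality**: a map which is compatible with almost all Frobenius elements is compatible -/
theorem Law.nat {O' V' : Type} [CommRing O'] [AddCommGroup V'] [Module O' V']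
    {t d : GQ → Module.End O V} {t' d' : GQ → Module.End O' V'} (h : Law t d) (h' : Law t' d')
    (f : V →+ V') (S : Finset ℕ) (hf : ∀ (ℓ : ℕ) φ, ℓ.Prime → ℓ ∉ S → IsFrob ℓ φ →
      ∀ v, f (t φ v) = t' φ (f v) ∧ f (d φ v) = d' φ (f v)) (g : GQ) (v : V) :
    f (t g v) = t' g (f v) ∧ f (d g v) = d' g (f v) := by
  obtain ⟨U, n, o, e⟩ := h.opn v
  obtain ⟨U', n', o', e'⟩ := h'.opn (f v)
  obtain ⟨ℓ, φ, k, hl, hS, hφ, hu⟩ := frob (U ⊓ U') inferInstance (o.inter o') g S
  have H := hf ℓ φ hl hS hφ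
  have ht : ∀ k : ℕ, (∀ v, f (t (φ ^ k) v) = t' (φ ^ k) (f v)) ∧
      ∀ v, f (t (φ ^ (k + 1)) v) = t' (φ ^ (k + 1)) (f v) := by
    intro k
    induction k with
    | zero =>
      refine ⟨fun v => ?_, fun v => by rw [zero_add, pow_one]; exact (H v).1⟩
      rw [pow_zero, h.one, h'.one, Module.End.ofNat_apply, Module.End.ofNat_apply, map_nsmul]
    | succ k ih =>
      refine ⟨ih.2, fun v => ?_⟩
      have a := LinearMap.congr_fun (h.mul (φ ^ (k + 1)) φ) v
      have b := LinearMap.congr_fun (h'.mul (φ ^ (k + 1)) φ) (f v)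
      rw [← pow_succ, pow_succ φ k, mul_inv_cancel_right, ← pow_succ φ k, LinearMap.add_apply,
        Module.End.mul_apply, Module.End.mul_apply] at a b
      rw [eq_sub_of_add_eq a.symm, eq_sub_of_add_eq b.symm, map_sub, ih.2, (H _).1, (H _).2, ih.1]
  have hd : ∀ (k : ℕ) v, f (d (φ ^ k) v) = d' (φ ^ k) (f v) := by
    intro k
    induction k with
    | zero => intro v; rw [pow_zero, h.d1, h'.d1]; rfl
    | succ k ih =>
      intro v
      rw [pow_succ, h.dm, h'.dm, Module.End.mul_apply, Module.End.mul_apply, ih, (H _).2]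
  have eg : φ ^ k = g * (g⁻¹ * φ ^ k) := by rw [mul_inv_cancel_left]
  constructor
  · rw [← (e _ hu.1).2 g, ← (e' _ hu.2).2 g, ← eg, (ht k).1]
  · have a := hd k v
    rw [eg, h.dm, h'.dm, Module.End.mul_apply, Module.End.mul_apply, (e _ hu.1).1,
      (e' _ hu.2).1] at a
    exact a

/-- twist of a law by a character -/
theorem Law.twist {t d : GQ → Module.End O V} (h : Law t d) (c : GQ →* Module.End O V)
    (cc : ∀ g k, Commute (c g) (c k)) (ct : ∀ g k, Commute (c g) (t k))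
    (cd : ∀ g k, Commute (c g) (d k))
    (co : ∀ v, ∃ U : Subgroup GQ, U.Normal ∧ IsOpen (U : Set GQ) ∧ ∀ u ∈ U, c u v = v) :
    Law (fun g => c g * t g) (fun g => c g * c g * d g) where
  one := by rw [map_one, one_mul, h.one]
  comm g k := by rw [h.comm g k, map_mul, map_mul, (cc g k).eq]
  mul g k := by
    have e : c k * c k * d k * (c (g * k⁻¹) * t (g * k⁻¹)) = c (g * k) * (d k * t (g * k⁻¹)) := by
      rw [mul_assoc _ (d k), ← mul_assoc (d k), ← (cd _ k).eq, mul_assoc (c _) (d k), ← mul_assoc,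
        mul_assoc (c k), (cc k _).eq, ← map_mul c (g * k⁻¹), inv_mul_cancel_right, (cc k g).eq,
        ← map_mul]
    rw [e, ← mul_add, ← h.mul, map_mul, mul_assoc, ← mul_assoc (t g), ← (ct k g).eq]
    simp only [mul_assoc]
  d1 := by rw [map_one, h.d1, one_mul, one_mul]
  dm g k := by
    rw [map_mul, h.dm, mul_assoc (c g * c g), ← mul_assoc (d g), ← ((cd k g).mul_left (cd k g)).eq,
      mul_assoc (c g) (c k), ← mul_assoc (c k) (c g), (cc k g).eq]
    simp only [mul_assoc]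
  opn v := by
    obtain ⟨U, n, o, e⟩ := h.opn v
    obtain ⟨U', n', o', e'⟩ := co v
    refine ⟨U ⊓ U', inferInstance, o.inter o', fun u hu => ⟨?_, fun g => ?_⟩⟩
    · rw [Module.End.mul_apply, (e u hu.1).1, Module.End.mul_apply, e' u hu.2, e' u hu.2]
    · rw [Module.End.mul_apply, Module.End.mul_apply, (e u hu.1).2, map_mul, Module.End.mul_apply,
        ← Module.End.mul_apply (c u), (ct u g).eq, Module.End.mul_apply, e' u hu.2]

end law

variable {N : ℕ} [NeZero N]

theorem sg_comm (i : ℕ) (P Q : Wd N) : Commute (sg N i P) (sg N i Q) := by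
  have h : ∀ (x : Module.End ℂ (MF N (i + 1))), (∀ s, Commute x (gHk N s i)) →
      ∀ Q, Commute x (sg N i Q) := by
    intro x hx Q
    induction Q using FreeAlgebra.induction with
    | grade0 r => rw [AlgHom.commutes]; exact (Algebra.commutes r x).symm
    | grade1 s => rw [sg, FreeAlgebra.lift_ι_apply]; exact hx s
    | mul a b ha hb => rw [map_mul]; exact ha.mul_right hb
    | add a b ha hb => rw [map_add]; exact ha.add_right hb
  exact h _ (fun s => (h _ (fun s' => H783.gHk_comm s s' i) P).symm) Q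

/-- the Hecke ring of finitely many weights is finite over `ℤ` -/
theorem fin_words (K : Finset ℕ) (hK : ∀ i ∈ K, 1 ≤ i) : ∃ S : Finset (Wd N), ∀ Q,
    ∃ Q' ∈ Submodule.span ℤ (S : Set (Wd N)), ∀ i ∈ K, sg N i (Q - Q') = 0 := by
  classical
  haveI := KeyN.fg (dvd_refl N)
  have fin : ∀ w, Module.Finite ℤ (ZC (Gm N N) w) := fun w => finite_Z1 fun p => by
    funext i
    simp [actM_apply, AA_one, Matrix.one_apply]
  have fr : ∀ w, Module.Free ℤ (ZC (Gm N N) w) := fun w => inferInstance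
  let F : Wd N →ₗ[ℤ] (∀ w : K.image (· - 1), ZC (Gm N N) w →ₗ[ℤ] ZC (Gm N N) w) :=
    (AddMonoidHom.mk' (fun Q (w : K.image (· - 1)) => (rW (dvd_refl N) w Q).toIntLinearMap)
      fun P Q => by
      funext w
      ext u
      rw [map_add]
      rfl).toIntLinearMap
  obtain ⟨T, hT⟩ : (LinearMap.range F).FG := IsNoetherian.noetherian _
  choose p hp using fun x : T => (show x.1 ∈ LinearMap.range F from
    hT ▸ Submodule.subset_span x.2)
  refine ⟨Finset.univ.image p, fun Q => ?_⟩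
  have h1 : F Q ∈ (Submodule.span ℤ ((Finset.univ.image p : Finset _) : Set (Wd N))).map F := by
    have : F Q ∈ Submodule.span ℤ (T : Set _) := hT ▸ LinearMap.mem_range_self F Q
    refine Submodule.span_le.2 (fun x hx => ?_) this
    exact ⟨p ⟨x, hx⟩, Submodule.subset_span (Finset.mem_coe.2
      (Finset.mem_image_of_mem p (Finset.mem_univ _))), hp _⟩
  obtain ⟨Q', h2, h3⟩ := h1
  refine ⟨Q', h2, fun i hi => ?_⟩
  obtain ⟨w, rfl⟩ := Nat.exists_eq_add_of_le' (hK i hi)
  have h4 : F (Q - Q') = 0 := by rw [map_sub, h3, sub_self]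
  have h5 : ∀ u, rW (dvd_refl N) w (Q - Q') u = 0 := fun u =>
    LinearMap.congr_fun (congrFun h4 ⟨w, Finset.mem_image.2 ⟨w + 1, hi, rfl⟩⟩) u
  obtain ⟨Φ, -, f2, -, -, -, f6⟩ := form N N dvd_rfl w
  ext1 f
  have hf : Inv N N f := Trc.inv_G1.2 fun γ hγ => f.slash_action_eq' _ ⟨γ, hγ, rfl⟩
  obtain ⟨n, c, z, hz, e⟩ := span_int (fun p => by
    funext i
    simp [actM_apply, AA_one, Matrix.one_apply]) (f2 f hf)
  exact f6 _ f hf n c (fun b => ⟨z b, hz b⟩) (fun b => by rw [h5]; exact zero_mem _) e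

variable {O V : Type} [CommRing O] [AddCommGroup V] [Module O V]

/-- a discrete module over the Hecke ring on which `T_ℓ₀` is injective -/
structure Dsc (α : Wd N →+* Module.End O V) (ℓ₀ : PA N) : Prop where
  kil : ∀ v, ∃ (K : Finset ℕ) (s : ℕ), (∀ i ∈ K, 1 ≤ i) ∧ 2 ^ s • v = 0 ∧
    ∀ Q, (∀ i ∈ K, sg N i Q = 0) → α Q v = 0
  inj : Function.Injective (α (wT ℓ₀))

/-- the finite ring through which the words act on a finite set -/
structure Fq (α : Wd N →+* Module.End O V) (ℓ₀ : PA N) (F : Finset V) {B : Type} [CommRing B]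
    (β : Wd N →+* B) : Prop where
  sur : Function.Surjective β
  ker : ∀ Q, β Q = 0 ↔ ∀ v ∈ F, α Q v = 0
  fin : Finite B
  two : ∃ s : ℕ, (2 : B) ^ s = 0
  unit : IsUnit (β (wT ℓ₀))
  kil : ∃ K : Finset ℕ, (∀ i ∈ K, 1 ≤ i) ∧ ∀ Q, (∀ i ∈ K, sg N i Q = 0) → β Q = 0

variable {α : Wd N →+* Module.End O V} {ℓ₀ : PA N}

theorem Dsc.comm (h : Dsc α ℓ₀) (P Q : Wd N) : Commute (α P) (α Q) := by
  refine LinearMap.ext fun v => ?_
  obtain ⟨K, s, -, -, e⟩ := h.kil v
  have := e (P * Q - Q * P) fun i _ => by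
    rw [map_sub, map_mul, map_mul, (sg_comm i P Q).eq, sub_self]
  rwa [map_sub, map_mul, map_mul, LinearMap.sub_apply, sub_eq_zero] at this

theorem Dsc.fq (h : Dsc α ℓ₀) (F : Finset V) :
    ∃ (B : Type) (_ : CommRing B) (β : Wd N →+* B), Fq α ℓ₀ F β := by
  classical
  let c : RingCon (Wd N) :=
    { r := fun P Q => ∀ v ∈ F, α P v = α Q v
      iseqv := ⟨fun _ _ _ => rfl, fun e v hv => (e v hv).symm,
        fun e e' v hv => (e v hv).trans (e' v hv)⟩
      mul' := fun {a b x y} e e' v hv => by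
        rw [map_mul, map_mul, Module.End.mul_apply, e' v hv, ← Module.End.mul_apply,
          (h.comm a y).eq, (h.comm b y).eq, Module.End.mul_apply, Module.End.mul_apply, e v hv]
      add' := fun {a b x y} e e' v hv => by
        rw [map_add, map_add, LinearMap.add_apply, LinearMap.add_apply, e v hv, e' v hv] }
  have sur : Function.Surjective (RingCon.mk' c) := fun x => Quotient.exists_rep x
  have eq : ∀ P Q, RingCon.mk' c P = RingCon.mk' c Q ↔ ∀ v ∈ F, α P v = α Q v := fun P Q =>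
    c.eq
  letI : CommRing c.Quotient := { (inferInstance : Ring c.Quotient) with
    mul_comm := fun x y => by
      obtain ⟨P, rfl⟩ := sur x
      obtain ⟨Q, rfl⟩ := sur y
      rw [← map_mul, ← map_mul, eq]
      intro v _
      rw [map_mul, map_mul, (h.comm P Q).eq] }
  have ker : ∀ Q, RingCon.mk' c Q = 0 ↔ ∀ v ∈ F, α Q v = 0 := fun Q => by
    rw [← map_zero (RingCon.mk' c), eq, map_zero]; rfl
  choose K s hK hs hQ using h.kil
  have two : (2 : c.Quotient) ^ F.sup s = 0 := by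
    rw [← map_ofNat (RingCon.mk' c) 2, ← map_pow, ker]
    intro v hv
    obtain ⟨m, hm⟩ := Nat.exists_eq_add_of_le' (Finset.le_sup (f := s) hv)
    rw [← Nat.cast_ofNat, ← Nat.cast_pow, map_natCast, Module.End.natCast_apply, hm, pow_add,
      mul_smul, hs, smul_zero]
  have hK' : ∀ i ∈ F.biUnion K, 1 ≤ i := fun i hi => by
    obtain ⟨v, -, hv⟩ := Finset.mem_biUnion.1 hi
    exact hK v i hv
  have kil : ∀ Q, (∀ i ∈ F.biUnion K, sg N i Q = 0) → RingCon.mk' c Q = 0 := fun Q e =>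
    (ker Q).2 fun v hv => hQ v Q fun i hi => e i (Finset.mem_biUnion.2 ⟨v, hv, hi⟩)
  have fin : Finite c.Quotient := by
    obtain ⟨S, hS⟩ := fin_words (N := N) _ hK'
    haveI : Module.Finite ℤ c.Quotient := ⟨⟨S.image (RingCon.mk' c), by
      refine top_le_iff.1 fun x _ => ?_
      obtain ⟨Q, rfl⟩ := sur x
      obtain ⟨Q', h1, h2⟩ := hS Q
      have h3 := kil _ h2
      rw [map_sub, sub_eq_zero] at h3
      rw [h3, Finset.coe_image]
      exact Submodule.apply_mem_span_image_of_mem_span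
        (RingCon.mk' c).toAddMonoidHom.toIntLinearMap h1⟩⟩
    refine Module.finite_of_fg_torsion _ fun x =>
      ⟨⟨2 ^ F.sup s, mem_nonZeroDivisors_of_ne_zero (by positivity)⟩, ?_⟩
    show ((2 : ℤ) ^ F.sup s) • x = 0
    rw [zsmul_eq_mul, Int.cast_pow, Int.cast_ofNat, two, zero_mul]
  refine ⟨c.Quotient, inferInstance, RingCon.mk' c, sur, ker, fin, ⟨_, two⟩, ?_, _, hK', kil⟩
  have inj : Function.Injective fun x : c.Quotient => RingCon.mk' c (wT ℓ₀) * x := by
    intro x y e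
    obtain ⟨P, rfl⟩ := sur x
    obtain ⟨Q, rfl⟩ := sur y
    simp only [← map_mul] at e
    rw [eq] at e ⊢
    intro v hv
    have := e v hv
    rw [map_mul, map_mul] at this
    exact h.inj this
  obtain ⟨y, hy⟩ := Finite.injective_iff_surjective.1 inj 1
  exact IsUnit.of_mul_eq_one y hy

/-- the operators `t g`, `d g` are given on every finite set by the pseudo-character -/
def Core (α : Wd N →+* Module.End O V) (ℓ₀ : PA N) (t d : GQ → Module.End O V) : Prop :=
  ∀ F : Finset V, ∃ (B : Type) (_ : CommRing B) (β : Wd N →+* B) (t' : GQ → B) (d' : GQ →* Bˣ),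
    Fq α ℓ₀ F β ∧ PS N β t' d' ∧ ∀ g P, (β P = t' g → ∀ v ∈ F, t g v = α P v) ∧
      (β P = d' g → ∀ v ∈ F, d g v = α P v)

theorem ex_core (H : GAL2) (hN : Odd N) (h : Dsc α ℓ₀) : ∃ t d, Core α ℓ₀ t d := by
  classical
  choose B iB β fq using h.fq
  have ex : ∀ F, ∃ t d, PS N (β F) t d := fun F => by
    obtain ⟨s, hs⟩ := (fq F).two
    obtain ⟨K, hK, e⟩ := (fq F).kil
    exact H N hN K hK (B F) s hs (β F) e ℓ₀ (fq F).unit
  choose t d ps using ex
  choose P hP using fun v g => (fq {v}).sur (t {v} g)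
  choose Q hQ using fun v g => (fq {v}).sur (d {v} g)
  have key : ∀ F g X, (β F X = t F g → ∀ v ∈ F, α (P v g) v = α X v) ∧
      (β F X = d F g → ∀ v ∈ F, α (Q v g) v = α X v) := by
    intro F g X
    have : ∀ v ∈ F, ∃ π : B F →+* B {v}, (∀ Y, π (β F Y) = β {v} Y) ∧
        (∀ g, π (t F g) = t {v} g) ∧ ∀ g, π (d F g) = d {v} g := by
      intro v hv
      let π : B F →+* B {v} := (β F).liftOfSurjective (fq F).sur ⟨β {v}, fun Y hY =>
        ((fq {v}).ker Y).2 fun w hw => by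
          rw [Finset.mem_singleton.1 hw]; exact ((fq F).ker Y).1 hY v hv⟩
      have e : ∀ Y, π (β F Y) = β {v} Y := fun Y => RingHom.liftOfRightInverse_comp_apply _ _ _ _ Y
      obtain ⟨a, b⟩ := uniq frob N _ _ _ _ _ _ _ (NeZero.ne N) ((ps F).toPS0.map π) (ps {v}).toPS0 ∅
        fun ℓ _ => ⟨e _, e _⟩
      exact ⟨π, e, congrFun a, fun g => congrArg (fun x : GQ →* (B {v})ˣ => (x g : B {v})) b⟩
    have z : ∀ v Y Z, β {v} Y = β {v} Z → α Y v = α Z v := fun v Y Z e => by
      have := ((fq {v}).ker (Y - Z)).1 (by rw [map_sub, e, sub_self]) v (Finset.mem_singleton_self v)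
      rwa [map_sub, LinearMap.sub_apply, sub_eq_zero] at this
    refine ⟨fun e v hv => ?_, fun e v hv => ?_⟩
    · obtain ⟨π, a, b, -⟩ := this v hv
      exact z v _ _ (by rw [hP, ← a, e, b])
    · obtain ⟨π, a, -, b⟩ := this v hv
      exact z v _ _ (by rw [hQ, ← a, e, b])
  have lin : ∀ (p : V → V), (∀ F : Finset V, ∃ X, ∀ v ∈ F, p v = α X v) →
      ∃ T : Module.End O V, ∀ v, T v = p v := fun p hp =>
    ⟨{ toFun := p
       map_add' := fun v w => by
        obtain ⟨X, e⟩ := hp {v, w, v + w}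
        rw [e v (by simp), e w (by simp), e (v + w) (by simp), map_add]
       map_smul' := fun c v => by
        obtain ⟨X, e⟩ := hp {v, c • v}
        rw [e v (by simp), e (c • v) (by simp), map_smul]; rfl }, fun _ => rfl⟩
  choose T hT using fun g => lin (fun v => α (P v g) v) fun F => by
    obtain ⟨X, e⟩ := (fq F).sur (t F g)
    exact ⟨X, (key F g X).1 e⟩
  choose D hD using fun g => lin (fun v => α (Q v g) v) fun F => by
    obtain ⟨X, e⟩ := (fq F).sur (d F g)
    exact ⟨X, (key F g X).2 e⟩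
  exact ⟨T, D, fun F => ⟨B F, iB F, β F, t F, d F, fq F, ps F, fun g X =>
    ⟨fun e v hv => (hT g v).trans ((key F g X).1 e v hv),
      fun e v hv => (hD g v).trans ((key F g X).2 e v hv)⟩⟩⟩

namespace Core

variable {t d : GQ → Module.End O V} (h : Core α ℓ₀ t d)
include h

/-- the operators agree with words on finite sets -/
theorem loc (F : Finset V) (g : GQ) : ∃ P Q, ∀ v ∈ F, t g v = α P v ∧ d g v = α Q v := by
  obtain ⟨B, _, β, t', d', fq, ps, e⟩ := h F
  obtain ⟨P, hP⟩ := fq.sur (t' g)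
  obtain ⟨Q, hQ⟩ := fq.sur (d' g)
  exact ⟨P, Q, fun v hv => ⟨(e g P).1 hP v hv, (e g Q).2 hQ v hv⟩⟩

omit h in
theorem z {F : Finset V} {B : Type} [CommRing B] {β : Wd N →+* B} (fq : Fq α ℓ₀ F β) {Y Z : Wd N}
    (e : β Y = β Z) {v : V} (hv : v ∈ F) : α Y v = α Z v := by
  have := (fq.ker (Y - Z)).1 (by rw [map_sub, e, sub_self]) v hv
  rwa [map_sub, LinearMap.sub_apply, sub_eq_zero] at this

theorem law : Law t d where
  one := LinearMap.ext fun v => by
    obtain ⟨B, _, β, t', d', fq, ps, e⟩ := h {v}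
    rw [(e 1 2).1 (by rw [ps.tf.one, map_ofNat]) v (by simp), map_ofNat]
  comm g k := LinearMap.ext fun v => by
    obtain ⟨B, _, β, t', d', fq, ps, e⟩ := h {v}
    obtain ⟨P, hP⟩ := fq.sur (t' (g * k))
    rw [(e _ P).1 hP v (by simp), (e _ P).1 (hP.trans (ps.tf.comm g k)) v (by simp)]
  mul g k := LinearMap.ext fun v => by
    classical
    obtain ⟨B, _, β, t', d', fq, ps, e⟩ := h {v, t k v, t (g * k⁻¹) v}
    choose P hP using fun x => fq.sur (t' x)
    obtain ⟨Q, hQ⟩ := fq.sur (d' k)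
    have a := z fq (Y := P g * P k) (Z := P (g * k) + Q * P (g * k⁻¹))
      (by rw [map_mul, map_add, map_mul, hP, hP, hP, hP, hQ, ps.tf.mul]) (v := v) (by simp)
    rw [map_mul, map_add, map_mul] at a
    rw [LinearMap.add_apply, Module.End.mul_apply, Module.End.mul_apply,
      (e g _).1 (hP g) _ (by simp), (e k _).2 hQ _ (by simp), (e k _).1 (hP k) v (by simp),
      (e _ _).1 (hP _) v (by simp), (e _ _).1 (hP _) v (by simp)]
    exact a
  d1 := LinearMap.ext fun v => by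
    obtain ⟨B, _, β, t', d', fq, ps, e⟩ := h {v}
    rw [(e 1 1).2 (by rw [map_one, map_one, Units.val_one]) v (by simp), map_one]
  dm g k := LinearMap.ext fun v => by
    classical
    obtain ⟨B, _, β, t', d', fq, ps, e⟩ := h {v, d k v}
    choose P hP using fun x => fq.sur (d' x)
    rw [Module.End.mul_apply, (e g _).2 (hP g) _ (by simp), (e k _).2 (hP k) v (by simp),
      (e (g * k) (P g * P k)).2 (by rw [map_mul, hP, hP, map_mul, Units.val_mul]) v (by simp),
      map_mul, Module.End.mul_apply]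
  opn v := by
    obtain ⟨B, _, β, t', d', fq, ps, e⟩ := h {v}
    obtain ⟨U, a, b, -, c⟩ := ps.opn
    refine ⟨U, a, b, fun u hu => ⟨?_, fun g => ?_⟩⟩
    · rw [(e u 1).2 (by rw [(c u hu).1, map_one, Units.val_one]) v (by simp), map_one]; rfl
    · obtain ⟨P, hP⟩ := fq.sur (t' g)
      rw [(e g P).1 hP v (by simp), (e _ P).1 (hP.trans ((c u hu).2 g).symm) v (by simp)]

theorem unr (ℓ : PA N) {σ : GQ} (hσ : Inert ℓ.1 σ) : d σ = 1 ∧ ∀ g, t (g * σ) = t g := by
  refine ⟨LinearMap.ext fun v => ?_, fun g => LinearMap.ext fun v => ?_⟩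
  · obtain ⟨B, _, β, t', d', fq, ps, e⟩ := h {v}
    obtain ⟨U, -, -, a, c⟩ := ps.opn
    rw [(e σ 1).2 (by rw [(c σ (a ℓ σ hσ)).1, map_one, Units.val_one]) v (by simp), map_one]
  · obtain ⟨B, _, β, t', d', fq, ps, e⟩ := h {v}
    obtain ⟨U, -, -, a, c⟩ := ps.opn
    obtain ⟨P, hP⟩ := fq.sur (t' g)
    rw [(e g P).1 hP v (by simp), (e _ P).1 (hP.trans ((c σ (a ℓ σ hσ)).2 g).symm) v (by simp)]

theorem frT (ℓ : PA N) {φ : GQ} (hφ : IsFrob ℓ.1 φ) : t φ = α (wT ℓ) := LinearMap.ext fun v => by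
  obtain ⟨B, _, β, t', d', fq, ps, e⟩ := h {v}
  exact (e φ _).1 (ps.frT ℓ φ hφ).symm v (by simp)

theorem frS (ℓ : PA N) {φ : GQ} (hφ : IsFrob ℓ.1 φ) : d φ = α (wS ℓ) := LinearMap.ext fun v => by
  obtain ⟨B, _, β, t', d', fq, ps, e⟩ := h {v}
  exact (e φ _).2 (ps.frS ℓ φ hφ).symm v (by simp)

theorem cyc (v : V) : ∃ a : ℕ, ∀ g : GQ, (∀ ζ : Qb, ζ ^ (2 ^ a * N) = 1 → g ζ = ζ) → d g v = v := by
  obtain ⟨B, _, β, t', d', fq, ps, e⟩ := h {v}
  obtain ⟨a, ha⟩ := ps.cyc
  exact ⟨a, fun g hg => by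
    rw [(e g 1).2 (by rw [ha g hg, map_one, Units.val_one]) v (by simp), map_one]; rfl⟩

theorem dc {c : GQ} (hc : IsConj c) : d c = -1 := LinearMap.ext fun v => by
  obtain ⟨B, _, β, t', d', fq, ps, e⟩ := h {v}
  rw [(e c (-1)).2 (by rw [ps.dc c hc, map_neg, map_one]) v (by simp), map_neg, map_one]

theorem i1 {M q : ℕ} (hN : N = M * q) (hq : q.Prime) (hM : ¬ q ∣ M) {σ : GQ} (hσ : Inert q σ) :
    t σ = 1 + d σ := LinearMap.ext fun v => by
  obtain ⟨B, _, β, t', d', fq, ps, e⟩ := h {v}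
  obtain ⟨Q, hQ⟩ := fq.sur (d' σ)
  rw [LinearMap.add_apply, (e σ Q).2 hQ v (by simp), (e σ (1 + Q)).1
    (by rw [map_add, map_one, hQ, ps.i1 M q hN hq hM σ hσ]) v (by simp), map_add, map_one,
    LinearMap.add_apply]

/-- the orbit of a vector under the words is finite -/
theorem fin (v : V) : (Set.range fun Q => α Q v).Finite := by
  obtain ⟨B, _, β, t', d', fq, ps, e⟩ := h {v}
  haveI := fq.fin
  choose P hP using fq.sur
  refine (Set.finite_range fun b => α (P b) v).subset ?_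
  rintro _ ⟨Q, rfl⟩
  exact ⟨β Q, z fq (hP _) (by simp)⟩

/-- everything which commutes with the words commutes with the operators -/
theorem cm {f : V → V} (hf : ∀ Q v, f (α Q v) = α Q (f v)) (g : GQ) (v : V) :
    f (t g v) = t g (f v) ∧ f (d g v) = d g (f v) := by
  classical
  obtain ⟨P, Q, e⟩ := h.loc {v, f v} g
  rw [(e v (by simp)).1, (e v (by simp)).2, (e (f v) (by simp)).1, (e (f v) (by simp)).2, hf, hf]
  exact ⟨rfl, rfl⟩

/-- a subgroup which is stable under the words is stable under the operators -/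
theorem mem {W : Set V} (hW : ∀ Q, ∀ v ∈ W, α Q v ∈ W) (g : GQ) {v : V} (hv : v ∈ W) :
    t g v ∈ W ∧ d g v ∈ W := by
  obtain ⟨P, Q, e⟩ := h.loc {v} g
  rw [(e v (by simp)).1, (e v (by simp)).2]
  exact ⟨hW _ _ hv, hW _ _ hv⟩

end Core

/-- **Frobenius at `q` on a new vector** -/
theorem Core.i2 {M q : ℕ} [NeZero (M * q)] {α : Wd (M * q) →+* Module.End O V} {ℓ₀ : PA (M * q)}
    {t d : GQ → Module.End O V} (h : Core α ℓ₀ t d) (H : I2N) (ho : Odd (M * q)) (hq : q.Prime)
    (hM : ¬ q ∣ M) {γ : SL(2, ℤ)} (hγ : AL1 M q γ) {K : Finset ℕ} (hK : ∀ i ∈ K, 1 ≤ i) {v : V}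
    (hv : ∀ Q, KilN M q γ K Q → α Q v = 0) {φ : GQ} (hφ : IsFrob q φ) :
    q • t φ (t φ v) = (q + 1) ^ 2 • d φ v := by
  classical
  obtain ⟨P, Q, e1⟩ := h.loc {v, t φ v} φ
  obtain ⟨B, _, β, t', d', fq, ps, e⟩ := h {v}
  obtain ⟨s, hs⟩ := fq.two
  have a := H M q ho hq hM γ hγ K hK B s hs β ℓ₀ fq.unit (fun Q hQ => (fq.ker Q).2 fun w hw => by
    rw [Finset.mem_singleton.1 hw]; exact hv Q hQ) t' d' ps.toPS0 φ hφ
  obtain ⟨P', hP⟩ := fq.sur (t' φ)
  obtain ⟨Q', hQ⟩ := fq.sur (d' φ)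
  have b := Core.z fq (Y := q * (P' * P')) (Z := ((q + 1) ^ 2 : ℕ) * Q') (by
    rw [map_mul, map_mul, map_mul, map_natCast, map_natCast, hP, hQ, ← sq, a]; push_cast; rfl)
    (Finset.mem_singleton_self v)
  have c := (h.cm (f := α P') (fun X w => by
    obtain ⟨B, _, β, t', d', fq, ps, e⟩ := h {w}
    rw [← Module.End.mul_apply, ← Module.End.mul_apply, ← map_mul, ← map_mul]
    exact Core.z fq (by rw [map_mul, map_mul, mul_comm]) (by simp)) φ v).1
  rw [map_mul, map_mul, map_mul, map_natCast, map_natCast, Module.End.mul_apply,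
    Module.End.mul_apply, Module.End.mul_apply, Module.End.natCast_apply,
    Module.End.natCast_apply, ← (e φ _).2 hQ v (by simp)] at b
  rw [← b, (e φ _).1 hP v (by simp), ← c, (e φ _).1 hP v (by simp)]

end Vale.Agent.P022D.G
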