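import Vale.Agent.P022D.G.Rows2

/-! # P022 route D, block G: inertia at `q` for the group of the units `≡ ± 1` -/

set_option linter.all false

open scoped MatrixGroups IntermediateField

noncomputable section

namespace Vale.Agent.P022D.G

open NumberField Vale.Agent.P022 Vale.Agent.P022.H218.L3 Vale.Agent.P022.H231.L3
  Vale.Agent.P019P P025H373 P025H746 P025H492 P025H816 Vale.Agent.P027M Vale.Agent.P027M.M
  Vale.Agent.P027M.TW Vale.Agent.P027M.G Vale.Agent.P027M.J Vale.Agent.P027M.J.Igu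
  Vale.Agent.P022D.I12

namespace I1g

/-- the sign modulo four, read modulo `q` -/
def sg4 {N : ℕ} (h : 4 ∣ N) (q : ℕ) : (ZMod N)ˣ →* (ZMod q)ˣ :=
  ((Units.map (Int.castRingHom (ZMod q)).toMonoidHom).comp (MulChar.toUnitHom ZMod.χ₄)).comp
    (ZMod.unitsMap h)

theorem sg4_coe {N : ℕ} (h : 4 ∣ N) (q : ℕ) {u : (ZMod N)ˣ} {x : ℤ}
    (e : (u : ZMod N) = (x : ZMod N)) :
    ((sg4 h q u : (ZMod q)ˣ) : ZMod q) = ((ZMod.χ₄ (x : ZMod 4) : ℤ) : ZMod q) := by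
  rw [← um_coe h e, ← MulChar.coe_toUnitHom]
  rfl

theorem sg4_one {N : ℕ} (h : 4 ∣ N) (q : ℕ) {u : (ZMod N)ˣ} {x : ℤ}
    (e : (u : ZMod N) = (x : ZMod N)) (hx : (4 : ℤ) ∣ x - 1) : sg4 h q u = 1 :=
  Units.ext (by rw [sg4_coe h q e, ZMod.χ₄_int_one_mod_four (by omega)]; simp)

theorem sg4_neg {N : ℕ} (h : 4 ∣ N) (q : ℕ) {u : (ZMod N)ˣ} {x : ℤ}
    (e : (u : ZMod N) = (x : ZMod N)) (hx : (4 : ℤ) ∣ x + 1) : sg4 h q u = -1 :=
  Units.ext (by rw [sg4_coe h q e, ZMod.χ₄_int_three_mod_four (by omega)]; simp)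

theorem ex_int {N : ℕ} (u : (ZMod N)ˣ) : ∃ x : ℤ, (u : ZMod N) = (x : ZMod N) :=
  ⟨ZMod.cast (u : ZMod N), (ZMod.intCast_zmod_cast _).symm⟩

theorem four_dvd {e : ℤ} (h : (8 : ℤ) ∣ e ^ 2) : (4 : ℤ) ∣ e := by
  obtain ⟨k, r, h0, h1, rfl⟩ : ∃ k r : ℤ, 0 ≤ r ∧ r < 4 ∧ e = 4 * k + r :=
    ⟨e / 4, e % 4, by omega, by omega, by omega⟩
  have h2 : (8 : ℤ) ∣ r ^ 2 := by
    have : r ^ 2 = (4 * k + r) ^ 2 - 8 * (2 * k ^ 2 + k * r) := by ring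
    rw [this]
    exact dvd_sub h (dvd_mul_right _ _)
  interval_cases r <;> omega

/-- the cover by the diamonds at `q` -/
theorem coverg {X : Mdl} (hX : MIn X) {M q n : ℕ} {H : Subgroup (ZMod (M * q))ˣ} (hL : Lv M)
    (hn : -1 ∈ H) (hq : q.Prime) (hM : ¬ q ∣ M) (h8 : 8 ∣ n) (hnM : n ∣ M)
    (hs : ∀ (u : (ZMod (M * q))ˣ) (x : ℤ), (x : ZMod (M * q)) = u →
      (u ∈ H ↔ ((n * q : ℕ) : ℤ) ∣ x - 1 ∨ ((n * q : ℕ) : ℤ) ∣ x + 1))
    [CFF Qb (L (GH (M * q) H))] [CFF Qb (L (GH (M * q) (up (Igu.low H) q)))] :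
    letI := algL (le_up H)
    haveI := towerL (le_up H)
    ∃ (_ : FiniteDimensional (L (GH (M * q) (up (Igu.low H) q))) (L (GH (M * q) H)))
      (_ : IsGalois (L (GH (M * q) (up (Igu.low H) q))) (L (GH (M * q) H))),
      Module.finrank (L (GH (M * q) (up (Igu.low H) q))) (L (GH (M * q) H)) ∣ q - 1 ∧
      IsUnr Qb (L (GH (M * q) (up (Igu.low H) q))) (L (GH (M * q) H)) ∧
      IsCyclic (L (GH (M * q) H) ≃ₐ[L (GH (M * q) (up (Igu.low H) q))] L (GH (M * q) H)) ∧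
      (∀ γ ∈ GH (M * q) (up (Igu.low H) q),
        ∃ g : L (GH (M * q) H) ≃ₐ[L (GH (M * q) (up (Igu.low H) q))] L (GH (M * q) H),
          ∀ x, ((g x : L (GH (M * q) H)) : FF) = X.pg γ x) ∧
      ∀ g : L (GH (M * q) H) ≃ₐ[L (GH (M * q) (up (Igu.low H) q))] L (GH (M * q) H),
        ∃ γ ∈ GH (M * q) (up (Igu.low H) q), ∀ x, ((g x : L (GH (M * q) H)) : FF) = X.pg γ x := by
  letI := algL (le_up H)
  haveI := towerL (le_up H)
  haveI := Fact.mk hq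
  have h := lv_mul hL hq.pos
  have hc : M.Coprime q := (hq.coprime_iff_not_dvd.2 hM).symm
  have h' := neg_up (neg_low hn) q
  let d : (ZMod (M * q))ˣ →* (ZMod q)ˣ := sg4 h.four q * ZMod.unitsMap (dvd_mul_left q M)
  have hd : ∀ u, d u = sg4 h.four q u * ZMod.unitsMap (dvd_mul_left q M) u := fun u => rfl
  have n4 : (4 : ℤ) ∣ ((n * q : ℕ) : ℤ) :=
    Int.natCast_dvd_natCast.2 (((by norm_num : 4 ∣ 8).trans h8).mul_right q)
  have nq : (q : ℤ) ∣ ((n * q : ℕ) : ℤ) := Int.natCast_dvd_natCast.2 (dvd_mul_left q n)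
  have k1 : ∀ a ∈ H, d a = 1 := fun a ha => by
    obtain ⟨x, hx⟩ := ex_int a
    rcases (hs a x hx.symm).1 ha with e | e
    · rw [hd, sg4_one _ _ hx (n4.trans e), one_mul]
      exact Units.ext ((um_coe _ hx).trans ((cast_eq (nq.trans e)).trans Int.cast_one))
    · have e' : ZMod.unitsMap (dvd_mul_left q M) a = -1 := Units.ext ((um_coe _ hx).trans
        ((cast_eq (b := -1) (by rw [sub_neg_eq_add]; exact nq.trans e)).trans (by simp)))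
      rw [hd, sg4_neg _ _ hx (n4.trans e), e', neg_mul_neg, one_mul]
  have k2 : ∀ v, ZMod.unitsMap (dvd_mul_right M q) v = 1 →
      d v = ZMod.unitsMap (dvd_mul_left q M) v := fun v hv => by
    obtain ⟨x, hx⟩ := ex_int v
    have e : (M : ℤ) ∣ x - 1 := dvd_of_cast (by
      rw [← um_coe (dvd_mul_right M q) hx, hv]
      simp)
    rw [hd, sg4_one _ _ hx ((Int.natCast_dvd_natCast.2 hL.four).trans e), one_mul]
  have hH : ∀ u, u ∈ H ↔ u ∈ up (Igu.low H) q ∧ d u = 1 := fun u =>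
    ⟨fun hu => ⟨⟨u, hu, rfl⟩, k1 u hu⟩, fun ⟨⟨a, ha, e1⟩, h2⟩ => by
      have e2 : ZMod.unitsMap (dvd_mul_right M q) (u / a) = 1 := by rw [map_div, e1, div_self']
      have e3 := k2 _ e2
      rw [map_div, h2, k1 a ha, div_self', map_div, eq_comm, div_eq_one] at e3
      rw [Spl.crt_inj hc e1.symm e3]
      exact ha⟩
  haveI fd := (hX.artin _ _ (le_up H) (fidx hX.grp h hn)).1
  have hsd : ∀ δ, ∃ u ∈ up (Igu.low H) q, d u = δ := fun δ => by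
    obtain ⟨y, y1, y2⟩ := Spl.crt_ex hc 1 δ
    exact ⟨y, by
      show ZMod.unitsMap _ y ∈ Igu.low H
      rw [y1]; exact one_mem _, (k2 y y1).trans y2⟩
  obtain ⟨g1, θ, t1, t2⟩ := ex_theta (Δ := (ZMod q)ˣ) (d := d) hX h h' hn hH hsd (le_up H)
  haveI := g1
  refine ⟨fd, g1, ?_, ?_, isCyclic_of_surjective θ t1.2, fun γ ⟨m1, u, hu, m2⟩ =>
    ⟨θ (d u), t2 u hu γ ⟨m1, m2⟩⟩, fun g => ?_⟩
  · rw [← IsGalois.card_aut_eq_finrank, ← Nat.card_eq_of_bijective θ t1, ← ZMod.card_units q,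
      ← Nat.card_eq_fintype_card]
  · refine hX.unram (M * q) _ _ (le_up H) (mid hX.grp h h') (mid hX.grp h hn)
      fun γ ⟨m1, u, hu, m2⟩ ht => ⟨m1, u, (hH u).2 ⟨hu, ?_⟩, m2⟩
    have a1 : ZMod.unitsMap (dvd_mul_left q M) u ^ q = 1 := In.Dm.unip (γ := γ)
      ⟨(Int.natCast_dvd_natCast.2 (dvd_mul_left q M)).trans m1, um_coe _ m2⟩ ht
    have a2 := ZMod.units_pow_card_sub_one_eq_one q (ZMod.unitsMap (dvd_mul_left q M) u)
    have a3 : ZMod.unitsMap (dvd_mul_left q M) u = 1 := by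
      rw [← a1, ← pow_mul_pow_sub _ hq.one_le, a2, pow_one, mul_one]
    have hdet := γ.det_coe
    rw [Matrix.det_fin_two] at hdet
    rw [Matrix.trace_fin_two] at ht
    have a4 : (8 : ℤ) ∣ (γ 1 1 - 1) ^ 2 := by
      have e : (γ 1 1 - 1) ^ 2 = -γ 0 1 * γ 1 0 := by linear_combination γ 1 1 * ht - hdet
      rw [e]
      exact ((Int.natCast_dvd_natCast.2 ((h8.trans hnM).mul_right q)).trans m1).mul_left _
    rw [hd, a3, sg4_one _ _ m2 (four_dvd a4), one_mul]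
  · obtain ⟨δ, rfl⟩ := t1.2 g
    obtain ⟨y, hy, rfl⟩ := hsd δ
    obtain ⟨γ, hγ⟩ := In.ex_dm h.pos.ne' y
    exact ⟨γ, hγ.mem.2 hy, t2 y hy γ hγ⟩

theorem igug_of {X : Mdl} (hX : MIn X) (hE : M.EXP) (hC : CF) (hS : SHIM X) (hAV : AVE)
    (hW : WINF) (hG : WGAL X) (hN : I12.NOD X) : IGUg X := by
  intro M q m n H hL hq hM hm h8 hnM hs _ A σ ⟨P, hP, hl, hσ⟩ s hcy y z hz
  have hn : -1 ∈ H := (hs (-1) (-1) (by simp)).2 (Or.inr (by simp))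
  have h0 : 0 < M := hL.pos
  have h := lv_mul hL hq.pos
  obtain ⟨B, O, w, hD⟩ := dic hAV hW hq hP hl
  obtain ⟨γ, hγ, hγ1⟩ := exists_AL (M := M) (q := q)
    (Nat.isCoprime_iff_coprime.2 (hq.coprime_iff_not_dvd.2 hM).symm)
  have h' := neg_up (neg_low hn) q
  haveI : CFF Qb (L (GH (M * q) (up (Igu.low H) q))) :=
    hX.cffs _ (mid hX.grp h h').hi (fidx hX.grp h h')
  obtain ⟨T, fT, v, S, hT, a1, a2, a3, a4, a5, a6, a7⟩ :=
    hN M q hq (Igu.low H) hL (neg_low hn) hM P B O w hD γ hγ hγ1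
  letI := algL (le_up H)
  haveI := towerV B (le_up H)
  obtain ⟨fd, ga, c1, c2, c3, c4, c5⟩ := coverg hX hL hn hq hM h8 hnM hs
  obtain ⟨δ, hδ⟩ := In.ex_dm h.pos.ne' s
  obtain ⟨t, ht⟩ := c4 δ (hδ.mem.2 (by
    show ZMod.unitsMap _ s ∈ Igu.low H
    rw [cy_low h0 hq hM hP hl hσ hcy]; exact one_mem _))
  have hc := fun g => (c5 g).imp fun ε (e : _ ∧ _) => And.intro e.1.1 e.2
  have n1 : ¬ q ∣ Module.finrank (L (GH (M * q) (up (Igu.low H) q))) (L (GH (M * q) H)) := fun d =>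
    absurd (Nat.le_of_dvd (Nat.sub_pos_of_lt hq.one_lt) (d.trans c1))
      (not_le.2 (Nat.sub_lt hq.pos one_pos))
  have main := i1f (C := Qv B) (K₀ := L (GH (M * q) (up (Igu.low H) q))) (K := L (GH (M * q) H))
    (T := T) (v := v) (S := S) (w := ![side w AlgEquiv.refl _, side w (Wq X hq.pos γ) _]) (m := m)
    (σ' := resR (X.gal σ) (gal_mem_iff X hX.hec3 h h' σ)) (s := t) (hD.ne _ n1) c2 c3 a1 a2
    a3 a4 a5 (Fin.forall_fin_two.2 ⟨fun y => (a6 y).symm, fun y => (a7 y).symm⟩) (hD.ne _ hm)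
    (I12.inr hX hE hC hS hG h hn hq hM hP hl hD hγ (T := algebraMap _ _ T) hT hc hσ hcy hδ ht)
    (fun g => by
      obtain ⟨ε, ⟨m1, u, ⟨a, ha, e1⟩, m2⟩, e⟩ := c5 g
      obtain ⟨σ₀, hσ₀, hcy₀⟩ := ex_inert h0 hq hM hP hl (τ := u / a)
        (by rw [map_div, e1, div_self'])
      obtain ⟨δ₀, hδ₀⟩ := In.ex_dm h.pos.ne' (u / a)
      have mm : ε * δ₀⁻¹ ∈ GH (M * q) H := (In.Dm.mul (u := u) ⟨m1, m2⟩ hδ₀.inv).mem.2 (by
        rw [inv_div, mul_div_cancel]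
        exact ha)
      exact ⟨_, I12.inr hX hE hC hS hG h hn hq hM hP hl hD hγ (T := algebraMap _ _ T) hT hc hσ₀ hcy₀
        hδ₀ fun x => by
          rw [e, ← inv_mul_cancel_right ε δ₀, In.pg_mul, In.pg_fix X mm x.2]⟩)
    fun _ => rfl
  rw [hz]
  exact to_clf (s := t.toRingEquiv) (A.act_rep σ) (A.dia_rep s δ hδ.1 hδ.2) (fun _ => rfl) ht main y

end I1g

/-- `(σ - ⟨s⟩) (σ - 1) = 0` for the group of the units `≡ ± 1` modulo `n q` -/
theorem igug (X : Mdl) : IGUg X :=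
  I1g.igug_of (j_min X) M.exp cf2 (x_shim X) ave g_winf (g_wgal X)
    (I12.nod_of (j_min X) (j_krm X) I.n0')

end Vale.Agent.P022D.G
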