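import Vale.Agent.P022D.G.Rows

/-! # P022 route D, block G: forms and cocycles -/

set_option linter.all false

open scoped MatrixGroups ModularForm
open UpperHalfPlane CongruenceSubgroup

noncomputable section

namespace Vale.Agent.P022D.G

open Vale.Agent.P022 Vale.Agent.P022.H161.CLat Vale.Agent.P022.H161.COp Vale.Agent.P022.L3
open Vale.Agent.P022.H527.L3 hiding M2
open Vale.Agent.P022.H420.L3 (M2 Pw act act_mul act_map)

namespace FormH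

/-- forms for `Γ₀(N) ∩ Γ₁(N₀)` -/
abbrev MG (N N₀ k : ℕ) : Type :=
  ModularForm ((Gm N N₀ : Subgroup SL(2, ℤ)) : Subgroup (GL (Fin 2) ℝ)) (k : ℤ)

section op

variable {Γ : Subgroup SL(2, ℤ)} {ι : Type} [Fintype ι] {α : ι → M2} {w : ℕ}

theorem opC_B1 (r : Rep (rho Γ) α) {u : Γ → Fin (w + 1) → ℂ} (hu : u ∈ B1 (actM ℂ (AA Γ w))) :
    opC r w u ∈ B1 (actM ℂ (AA Γ w)) := by
  obtain ⟨p, hp⟩ := hu
  refine ⟨∑ i, act w (α i) p, fun g => ?_⟩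
  rw [actM_eq]
  exact r.hc_cob (act w) (act_mul w) p u (fun γ => by rw [hp, actM_eq]) g

theorem opC_toC (r : Rep (rho Γ) α) (u : ZC Γ w) :
    opC r w (toC (u : Γ → Fin (w + 1) → ℤ)) =
      toC ((opZ r w u : ZC Γ w) : Γ → Fin (w + 1) → ℤ) := by
  rw [opC_apply, opZ_coe]
  funext g i
  simp only [Rep.hc, toC, Finset.sum_apply, Int.cast_sum]
  refine Finset.sum_congr rfl fun k _ => ?_
  exact act_map (Int.castAddHom ℂ) w _ _ i

end op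

variable {N N₀ : ℕ} [NeZero N] (hN : N₀ ∣ N)

include hN in
theorem fi : (Gm N N₀).FiniteIndex :=
  haveI : NeZero N₀ := ⟨ne_zero_of_dvd_ne_zero (NeZero.ne N) hN⟩
  inferInstance

include hN in
theorem inv_iff {k : ℕ} (f : MF N k) :
    Inv N N₀ f ↔ ∃ F : MG N N₀ k, (F : ℍ → ℂ) = f := by
  haveI := fi hN
  constructor
  · intro h
    refine ⟨{ toFun := f, slash_action_eq' := ?_, holo' := f.holo', bdd_at_cusps' := ?_ }, rfl⟩
    · rintro _ ⟨γ, hγ, rfl⟩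
      exact h γ ((mem_Gm' hN).1 hγ).1 ((mem_Gm' hN).1 hγ).2
    · intro c hc
      exact f.bdd_at_cusps' ((Subgroup.IsArithmetic.isCusp_iff_isCusp_SL2Z _).2
        ((Subgroup.IsArithmetic.isCusp_iff_isCusp_SL2Z _).1 hc))
  · rintro ⟨F, hF⟩ γ h1 h2
    rw [← hF]
    exact F.slash_action_eq' _ ⟨γ, (mem_Gm' hN).2 ⟨h1, h2⟩, rfl⟩

open Classical in
/-- the cocycle of an invariant form -/
def Ph (N N₀ w : ℕ) (f : MF N (w + 1 + 1)) : Gm N N₀ → Fin (w + 1) → ℂ :=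
  if h : ∃ F : MG N N₀ (w + 1 + 1), (F : ℍ → ℂ) = f then
    H227.Phi (Γ := Gm N N₀) (H227.hk_of rfl) h.choose else 0

variable {w : ℕ}

omit [NeZero N] in
theorem Ph_eq {f : MF N (w + 1 + 1)} {F : MG N N₀ (w + 1 + 1)} (h : (F : ℍ → ℂ) = f) :
    Ph N N₀ w f = H227.Phi (Γ := Gm N N₀) (H227.hk_of rfl) F := by
  have e : ∃ F : MG N N₀ (w + 1 + 1), (F : ℍ → ℂ) = f := ⟨F, h⟩
  rw [Ph, dif_pos e, DFunLike.coe_injective (e.choose_spec.trans h.symm)]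

include hN

theorem lin (c : ℂ) {f g : MF N (w + 1 + 1)} (hf : Inv N N₀ f) (hg : Inv N N₀ g) :
    Inv N N₀ (c • f + g) ∧ Ph N N₀ w (c • f + g) = c • Ph N N₀ w f + Ph N N₀ w g := by
  obtain ⟨F, hF⟩ := (inv_iff hN f).1 hf
  obtain ⟨G, hG⟩ := (inv_iff hN g).1 hg
  have e : ((c • F + G : MG N N₀ (w + 1 + 1)) : ℍ → ℂ) = (c • f + g : MF N (w + 1 + 1)) := by
    change c • (F : ℍ → ℂ) + G = c • (f : ℍ → ℂ) + g
    rw [hF, hG]
  refine ⟨(inv_iff hN _).2 ⟨_, e⟩, ?_⟩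
  rw [Ph_eq e, Ph_eq hF, Ph_eq hG, map_add, map_smul]

theorem zer : Inv N N₀ (0 : MF N (w + 1 + 1)) ∧ Ph N N₀ w 0 = 0 := by
  have e : ((0 : MG N N₀ (w + 1 + 1)) : ℍ → ℂ) = (0 : MF N (w + 1 + 1)) := rfl
  exact ⟨(inv_iff hN _).2 ⟨_, e⟩, by rw [Ph_eq e, map_zero]⟩

theorem smu (c : ℂ) {f : MF N (w + 1 + 1)} (hf : Inv N N₀ f) :
    Inv N N₀ (c • f) ∧ Ph N N₀ w (c • f) = c • Ph N N₀ w f := by
  have h := lin hN c hf (zer hN).1
  rwa [(zer hN).2, add_zero, add_zero] at h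

theorem hecke (ι : Type) [Fintype ι] (α : ι → M2) (r : Rep (rho (Gm N N₀)) α)
    (hα : ∀ i, 0 < (α i).det) (f g : MF N (w + 1 + 1)) (hf : Inv N N₀ f)
    (hg : (g : ℍ → ℂ) = ∑ i, (f : ℍ → ℂ) ∣[((w + 1 + 1 : ℕ) : ℤ)] H227.gl (α i) (hα i)) :
    Inv N N₀ g ∧ Ph N N₀ w g - opC r w (Ph N N₀ w f) ∈ B1 (actM ℂ (AA (Gm N N₀) w)) := by
  have ig : Inv N N₀ g := fun γ h1 h2 => by
    let x : Gm N N₀ := ⟨γ, (mem_Gm' hN).2 ⟨h1, h2⟩⟩
    have e : ∑ i, (f : ℍ → ℂ) ∣[((w + 1 + 1 : ℕ) : ℤ)] H227.gl (α (r.nx x i)) (hα _) =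
        ∑ i, (f : ℍ → ℂ) ∣[((w + 1 + 1 : ℕ) : ℤ)] H227.gl (α i) (hα i) :=
      Equiv.sum_comp (r.perm x) fun i =>
        (f : ℍ → ℂ) ∣[((w + 1 + 1 : ℕ) : ℤ)] H227.gl (α i) (hα i)
    rw [hg]
    conv_rhs => rw [← e]
    change _ ∣[((w + 1 + 1 : ℕ) : ℤ)] (γ : GL (Fin 2) ℝ) = _
    rw [SlashAction.sum_slash]
    refine Finset.sum_congr rfl fun i _ => ?_
    have m := (mem_Gm' hN).1 (r.el x i).2
    have h3 : α i * (γ : M2) = ((r.el x i : SL(2, ℤ)) : M2) * α (r.nx x i) := r.eq x i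
    have p1 : 0 < (((r.el x i : SL(2, ℤ)) : M2) * α (r.nx x i)).det := by
      rw [Matrix.det_mul]
      exact mul_pos (H227.det_SL_pos _) (hα _)
    have p2 : 0 < (α i * (γ : M2)).det := by rw [h3]; exact p1
    have e1 : H227.gl (α i) (hα i) * (γ : GL (Fin 2) ℝ) =
        ((r.el x i : SL(2, ℤ)) : GL (Fin 2) ℝ) * H227.gl (α (r.nx x i)) (hα _) := by
      rw [← H227.gl_SL _ (H227.det_SL_pos _), ← H227.gl_SL _ (H227.det_SL_pos _),
        ← H227.gl_mul _ _ _ _ p1, ← H227.gl_mul _ _ _ _ p2]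
      exact Units.ext (congrArg (fun A : M2 => A.map (Int.castRingHom ℝ)) h3)
    have e2 : (f : ℍ → ℂ) ∣[((w + 1 + 1 : ℕ) : ℤ)] ((r.el x i : SL(2, ℤ)) : GL (Fin 2) ℝ) = f :=
      hf _ m.1 m.2
    rw [← SlashAction.slash_mul, e1, SlashAction.slash_mul, e2]
  obtain ⟨F, hF⟩ := (inv_iff hN f).1 hf
  obtain ⟨G, hG⟩ := (inv_iff hN g).1 ig
  obtain ⟨b, hb⟩ := H227.Phi_hecke (H227.hk_of rfl) (H227.isAct_act w) r hα F G
    (by rw [hF, hG]; exact hg)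
  refine ⟨ig, b, fun γ => ?_⟩
  rw [Ph_eq hF, Ph_eq hG, actM_eq]
  exact hb γ

/-- words on complex functions -/
def tW (w : ℕ) : Wd N →ₐ[ℤ] Module.End ℂ (Gm N N₀ → Fin (w + 1) → ℂ) :=
  FreeAlgebra.lift ℤ (Sum.elim (fun ℓ => opC (repT hN ℓ (dm_spec ℓ 0)) w)
    fun ℓ => ((ℓ.1 : ℂ) ^ (w + 1)) • opC (repD hN (dm_spec ℓ 0)) w)

theorem tW_T (ℓ : PA N) :
    tW hN w (FreeAlgebra.ι ℤ (Sum.inl ℓ)) = opC (repT hN ℓ (dm_spec ℓ 0)) w := by
  rw [tW, FreeAlgebra.lift_ι_apply]; rfl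

theorem tW_S (ℓ : PA N) : tW hN w (FreeAlgebra.ι ℤ (Sum.inr ℓ)) =
    ((ℓ.1 : ℂ) ^ (w + 1)) • opC (repD hN (dm_spec ℓ 0)) w := by
  rw [tW, FreeAlgebra.lift_ι_apply]; rfl

omit [NeZero N] hN in
theorem am {V : Type} [AddCommGroup V] [Module ℂ V] (n : ℤ) (v : V) :
    algebraMap ℤ (Module.End ℂ V) n v = (n : ℂ) • v := by
  rw [eq_intCast, ← zsmul_one, LinearMap.smul_apply, Int.cast_smul_eq_zsmul]
  rfl

theorem tW_B1 (Q : Wd N) : ∀ u ∈ B1 (actM ℂ (AA (Gm N N₀) w)),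
    tW hN w Q u ∈ B1 (actM ℂ (AA (Gm N N₀) w)) := by
  induction Q using FreeAlgebra.induction with
  | grade0 n =>
    intro u hu
    rw [AlgHom.commutes, am]
    exact B1_smul hu _
  | grade1 s =>
    intro u hu
    rcases s with ℓ | ℓ
    · rw [tW_T]
      exact opC_B1 _ hu
    · rw [tW_S, LinearMap.smul_apply]
      exact B1_smul (opC_B1 _ hu) _
  | mul a b ha hb =>
    intro u hu
    rw [map_mul]
    exact ha _ (hb _ hu)
  | add a b ha hb =>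
    intro u hu
    rw [map_add, LinearMap.add_apply]
    exact add_mem (ha _ hu) (hb _ hu)

theorem tW_toC (Q : Wd N) : ∀ u : ZC (Gm N N₀) w,
    tW hN w Q (toC (u : Gm N N₀ → Fin (w + 1) → ℤ)) =
      toC ((rW hN w Q u : ZC (Gm N N₀) w) : Gm N N₀ → Fin (w + 1) → ℤ) := by
  induction Q using FreeAlgebra.induction with
  | grade0 n =>
    intro u
    rw [AlgHom.commutes, AlgHom.commutes, am, eq_intCast, AddMonoid.End.intCast_apply]
    funext g i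
    change (n : ℂ) * ((u.1 g i : ℤ) : ℂ) = ((n * u.1 g i : ℤ) : ℂ)
    rw [Int.cast_mul]
  | grade1 s =>
    intro u
    rcases s with ℓ | ℓ
    · rw [tW_T, opC_toC]
      exact congrArg (fun T : AddMonoid.End (ZC (Gm N N₀) w) =>
        toC ((T u : ZC (Gm N N₀) w) : Gm N N₀ → Fin (w + 1) → ℤ)) (rW_T hN w ℓ).symm
    · rw [tW_S, LinearMap.smul_apply, opC_toC]
      refine Eq.trans ?_ (congrArg (fun T : AddMonoid.End (ZC (Gm N N₀) w) =>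
        toC ((T u : ZC (Gm N N₀) w) : Gm N N₀ → Fin (w + 1) → ℤ)) (rW_S hN w ℓ).symm)
      funext g i
      change (ℓ.1 : ℂ) ^ (w + 1) * (((opZ (repD hN (dm_spec ℓ 0)) w u).1 g i : ℤ) : ℂ) =
        ((ℓ.1 ^ (w + 1) • (opZ (repD hN (dm_spec ℓ 0)) w u).1 g i : ℤ) : ℂ)
      rw [nsmul_eq_mul]
      push_cast
      rfl
  | mul a b ha hb =>
    intro u
    rw [map_mul, map_mul]
    change tW hN w a (tW hN w b _) = toC ((rW hN w a (rW hN w b u) : ZC (Gm N N₀) w) :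
      Gm N N₀ → Fin (w + 1) → ℤ)
    rw [hb, ha]
  | add a b ha hb =>
    intro u
    rw [map_add, map_add, LinearMap.add_apply, ha, hb, ← toC_add]
    rfl

theorem word (Q : Wd N) : ∀ f : MF N (w + 1 + 1), Inv N N₀ f → Inv N N₀ (sg N (w + 1) Q f) ∧
    Ph N N₀ w (sg N (w + 1) Q f) - tW hN w Q (Ph N N₀ w f) ∈ B1 (actM ℂ (AA (Gm N N₀) w)) := by
  induction Q using FreeAlgebra.induction with
  | grade0 n =>
    intro f hf
    rw [AlgHom.commutes, AlgHom.commutes, am, am, (smu hN _ hf).2, sub_self]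
    exact ⟨(smu hN _ hf).1, zero_mem _⟩
  | grade1 s =>
    intro f hf
    rw [sg, FreeAlgebra.lift_ι_apply]
    rcases s with ℓ | ℓ
    · rw [tW_T]
      exact hecke hN _ _ _ (H227.det_alp_pos ℓ.2.1.pos _) f _ hf (H227.Tl_alp ℓ (dm_spec ℓ 0) f)
    · obtain ⟨a, b⟩ := hecke hN Unit _ (repD hN (dm_spec ℓ 0)) (fun _ => H227.det_SL_pos _) f
        (H783.dia (w + 1 + 1) ℓ f) hf (by
          rw [H227.dia_isDel ℓ (dm_spec ℓ 0) f, Fintype.sum_unique, H227.gl_SL]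
          rfl)
      have h1 : gHk N (Sum.inr ℓ) (w + 1) f =
          ((ℓ.1 : ℂ) ^ (w + 1)) • H783.dia (w + 1 + 1) ℓ f := rfl
      rw [tW_S, h1, (smu hN _ a).2, LinearMap.smul_apply, ← smul_sub]
      exact ⟨(smu hN _ a).1, B1_smul b _⟩
  | mul a b ha hb =>
    intro f hf
    rw [map_mul, map_mul, Module.End.mul_apply, Module.End.mul_apply]
    obtain ⟨b1, b2⟩ := hb f hf
    obtain ⟨a1, a2⟩ := ha _ b1
    have h3 := add_mem a2 (tW_B1 hN a _ b2)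
    rw [map_sub, sub_add_sub_cancel] at h3
    exact ⟨a1, h3⟩
  | add a b ha hb =>
    intro f hf
    rw [map_add, map_add, LinearMap.add_apply, LinearMap.add_apply]
    obtain ⟨a1, a2⟩ := ha f hf
    obtain ⟨b1, b2⟩ := hb f hf
    obtain ⟨c1, c2⟩ := lin hN 1 a1 b1
    rw [one_smul] at c1 c2
    rw [c2, one_smul, add_sub_add_comm]
    exact ⟨c1, add_mem a2 b2⟩

theorem injP {f : MF N (w + 1 + 1)} (hf : Inv N N₀ f)
    (h : Ph N N₀ w f ∈ B1 (actM ℂ (AA (Gm N N₀) w))) : f = 0 := by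
  haveI := fi hN
  obtain ⟨F, hF⟩ := (inv_iff hN f).1 hf
  obtain ⟨p, hp⟩ := h
  have e := H227.Phi_inj (H227.hk_of rfl) (H227.isAct_act w) F p fun γ => by
    rw [← Ph_eq hF, hp, actM_eq]
    rfl
  apply DFunLike.coe_injective
  change (f : ℍ → ℂ) = _
  rw [← hF, e]
  rfl

end FormH

open FormH

theorem form : FORM := by
  intro N N₀ _ hN w
  refine ⟨Ph N N₀ w, fun Q f hf => (word hN Q f hf).1, fun f hf => ?_,
    fun c f g hf hg => (lin hN c hf hg).2, fun f hf h => injP hN hf h, hecke hN,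
    fun Q f hf n c z hz e => ?_⟩
  · obtain ⟨F, hF⟩ := (inv_iff hN f).1 hf
    intro g h
    rw [Ph_eq hF, actM_eq]
    exact H227.Phi_coc _ (H227.isAct_act w) F g h
  · obtain ⟨a, b⟩ := word hN Q f hf
    refine injP hN a ?_
    have h : tW hN w Q (Ph N N₀ w f) ∈ B1 (actM ℂ (AA (Gm N N₀) w)) := by
      rw [e, map_sum]
      refine sum_mem fun i _ => ?_
      rw [map_smul, tW_toC]
      exact B1_smul (toC_B1 (hz i)) _
    have h2 := add_mem b h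
    rwa [sub_add_cancel] at h2

end Vale.Agent.P022D.G
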