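import Vale.Agent.P022D.G.Defs

/-! # P022 route D, block G, row LAT -/

set_option linter.all false

open scoped MatrixGroups

noncomputable section

namespace Vale.Agent.P022D.G

open Vale.Agent.P022 Vale.Agent.P022.H161.CLat Vale.Agent.P022.H161.COp

theorem LatP.abs {H I : Type} [AddCommGroup H] [Finite I] (Λ : I → Type)
    [∀ i, AddCommGroup (Λ i)] [∀ i, Module.Finite ℤ (Λ i)] (F : ∀ i, H →+ Λ i) :
    ∃ e : ℕ, e ≠ 0 ∧ ∀ (k : ℕ) (Q : H), k ≠ 0 → (∀ i, ∃ v, F i Q = k • v) →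
      ∃ R, ∀ i, e • F i Q = k • F i R := by
  obtain ⟨e, he, hs⟩ := exists_sat (M := ∀ i, Λ i) (AddMonoidHom.pi F).range
  refine ⟨e.natAbs, Int.natAbs_ne_zero.2 he, fun k Q hk h => ?_⟩
  choose v hv using h
  obtain ⟨R, hR⟩ := hs v k (by exact_mod_cast hk) ⟨Q, funext fun i => by
    rw [natCast_zsmul]; exact hv i⟩
  refine ⟨e.sign • R, fun i => ?_⟩
  have h1 : F i R = e • v i := congrFun hR i
  rw [map_zsmul, h1, hv, smul_smul e.sign, Int.sign_mul_self, natCast_zsmul, smul_comm]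

theorem LatP.abs2 {H : Type} [AddCommGroup H] (Z : ℕ → Type) [∀ w, AddCommGroup (Z w)]
    [∀ w, Module.Finite ℤ (Z w)] (B : ∀ w, Submodule ℤ (Z w)) (K : Finset ℕ)
    (ρ : ∀ w, H →+ (Z w →+ Z w)) (A : ∀ w, AddSubgroup (Z w)) :
    ∃ e : ℕ, e ≠ 0 ∧ ∀ (k : ℕ) (Q : H), k ≠ 0 →
      (∀ w ∈ K, ∀ u ∈ A w, ∃ v : Z w, ρ w Q u - k • v ∈ B w) →
      ∃ R : H, ∀ w ∈ K, ∀ u ∈ A w, e • ρ w Q u - k • ρ w R u ∈ B w := by
  choose S hS using fun w =>
    (IsNoetherian.noetherian (AddSubgroup.toIntSubmodule (A w)) :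
      (AddSubgroup.toIntSubmodule (A w)).FG)
  obtain ⟨e, he, h⟩ := LatP.abs (H := H) (I := Σ w : K, S w)
    (fun i => Z i.1 ⧸ B i.1) fun i => (B i.1).mkQ.toAddMonoidHom.comp
      ((AddMonoidHom.eval (i.2 : Z i.1)).comp (ρ i.1))
  refine ⟨e, he, fun k Q hk hQ => ?_⟩
  obtain ⟨R, hR⟩ := h k Q hk fun i => by
    have hm : (i.2 : Z i.1) ∈ AddSubgroup.toIntSubmodule (A i.1) := by
      rw [← hS]
      exact Submodule.subset_span i.2.2
    obtain ⟨v, hv⟩ := hQ i.1 i.1.2 i.2 hm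
    refine ⟨(B i.1).mkQ v, ?_⟩
    rw [← map_nsmul]
    exact (Submodule.Quotient.eq _).2 hv
  refine ⟨R, fun w hw u hu => ?_⟩
  have hu' : u ∈ Submodule.span ℤ (S w : Set (Z w)) := by
    rw [hS]
    exact hu
  have key : Submodule.span ℤ (S w : Set (Z w)) ≤ (B w).comap
      (e • (ρ w Q).toIntLinearMap - k • (ρ w R).toIntLinearMap) := by
    refine Submodule.span_le.2 fun x hx => ?_
    have h1 := hR ⟨⟨w, hw⟩, ⟨x, hx⟩⟩
    change e • (B w).mkQ (ρ w Q x) = k • (B w).mkQ (ρ w R x) at h1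
    rw [← map_nsmul (B w).mkQ, ← map_nsmul (B w).mkQ] at h1
    exact (Submodule.Quotient.eq _).1 h1
  exact key hu'

theorem lat : LAT := by
  intro Γ _ H _ K ρ A
  have fin : ∀ w, Module.Finite ℤ (ZC Γ w) := fun w => finite_Z1 fun p => by
    funext i
    simp [actM_apply, AA_one, Matrix.one_apply]
  obtain ⟨e, he, h⟩ := LatP.abs2 (fun w => ZC Γ w) (fun w => Bsat (AA Γ w)) K ρ A
  exact ⟨e, he, fun n Q hQ => h (2 ^ n) Q (by positivity) hQ⟩

end Vale.Agent.P022D.G
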