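import Vale.Agent.P022D.G.Rows

/-! # P022 route D, block G: nilpotence of `T_ℓ` on the kernel of the restriction -/

set_option linter.all false

open scoped MatrixGroups ModularForm
open UpperHalfPlane CongruenceSubgroup

noncomputable section

namespace Vale.Agent.P022D.G

open Vale.Agent.P022 Vale.Agent.P022.H161.CLat Vale.Agent.P022.H161.COp Vale.Agent.P022.L3
open Vale.Agent.P022.H527.L3 hiding M2
open Vale.Agent.P022.H420.L3 (M2 Pw act act_mul act_diag act_diag' act_map cast_iff)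

namespace NilAux

/-- reduction of matrices -/
abbrev rd (M : ℕ) : M2 →+* Matrix (Fin 2) (Fin 2) (ZMod (2 ^ M)) :=
  (Int.castRingHom (ZMod (2 ^ M))).mapMatrix

theorem dg_iff {M : ℕ} {a d : ℤ} {A : M2} :
    Dg M a d A ↔ rd M A = !![(a : ZMod (2 ^ M)), 0; 0, (d : ZMod (2 ^ M))] := by
  constructor
  · intro h
    ext i j
    fin_cases i <;> fin_cases j
    · exact (cast_iff _ _ _).2 h.h00
    · exact (ZMod.intCast_zmod_eq_zero_iff_dvd _ _).2 h.h01
    · exact (ZMod.intCast_zmod_eq_zero_iff_dvd _ _).2 h.h10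
    · exact (cast_iff _ _ _).2 h.h11
  · intro h
    exact ⟨(ZMod.intCast_zmod_eq_zero_iff_dvd _ _).1 (congrFun (congrFun h 1) 0),
      (ZMod.intCast_zmod_eq_zero_iff_dvd _ _).1 (congrFun (congrFun h 0) 1),
      (cast_iff _ _ _).1 (congrFun (congrFun h 0) 0), (cast_iff _ _ _).1 (congrFun (congrFun h 1) 1)⟩

theorem dg_one {M : ℕ} {A : M2} : Dg M 1 1 A ↔ rd M A = 1 := by
  rw [dg_iff, Matrix.one_fin_two, Int.cast_one]

theorem actD {M n w : ℕ} (hn : n ≤ M) {a d : ℤ} {A : M2} (h : Dg M a d A)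
    (p : Pw w (ZMod (2 ^ n))) : act w A p = act w !![a, 0; 0, d] p := by
  have hd : ((2 ^ n : ℕ) : ℤ) ∣ ((2 ^ M : ℕ) : ℤ) := Int.natCast_dvd_natCast.2 (pow_dvd_pow 2 hn)
  choose q hq using fun i => ZMod.intCast_surjective (p i)
  have hp : p = fun j => (Int.castAddHom (ZMod (2 ^ n))) (q j) := funext fun j => (hq j).symm
  funext i
  rw [act_diag', hp, act_map]
  have h1 := act_diag w A (2 ^ n) a d (hd.trans h.h01) (hd.trans h.h10) (hd.trans h.h00)
    (hd.trans h.h11) q i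
  simp only [Int.coe_castAddHom, zsmul_eq_mul]
  rw [h1]
  push_cast
  rfl

/-- cocycles modulo `2 ^ n` which vanish on the deep group -/
def Good {Γ : Subgroup SL(2, ℤ)} {w : ℕ} (M n : ℕ) (v : Γ → Pw w (ZMod (2 ^ n))) : Prop :=
  (∀ g h, v (g * h) = act w (rho Γ h) (v g) + v h) ∧ ∀ γ, Dg M 1 1 (rho Γ γ) → v γ = 0

theorem Good.nsmul {Γ : Subgroup SL(2, ℤ)} {w M n : ℕ} {v : Γ → Pw w (ZMod (2 ^ n))}
    (h : Good M n v) (c : ℕ) : Good M n (c • v) :=
  ⟨fun g g' => by rw [Pi.smul_apply, Pi.smul_apply, Pi.smul_apply, h.1, map_nsmul, smul_add],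
    fun γ hγ => by rw [Pi.smul_apply, h.2 γ hγ, smul_zero]⟩

theorem Good.cls {Γ : Subgroup SL(2, ℤ)} {w M n : ℕ} {v : Γ → Pw w (ZMod (2 ^ n))}
    (h : Good M n v) {g g' : Γ} (e : rd M (rho Γ g) = rd M (rho Γ g')) : v g = v g' := by
  have h1 : Dg M 1 1 (rho Γ (g * g'⁻¹)) := by
    rw [dg_one, map_mul, map_mul, e, ← map_mul, ← map_mul, mul_inv_cancel, map_one, map_one]
  have h2 := h.1 (g * g'⁻¹) g'
  rwa [inv_mul_cancel_right, h.2 _ h1, map_zero, zero_add] at h2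

theorem step {Γ : Subgroup SL(2, ℤ)} {w M n : ℕ} (hn : n ≤ M) {ι : Type} [Fintype ι] (i₀ : ι)
    {α : ι → M2} (r : Rep (rho Γ) α) {d : ℤ} (hd : IsUnit (d : ZMod (2 ^ M)))
    (hα : ∀ i, Dg M 1 d (α i)) {v : Γ → Pw w (ZMod (2 ^ n))} (h : Good M n v) :
    ∃ v', Good M n v' ∧ r.hc (act w) v = Fintype.card ι • v' := by
  set D : Matrix (Fin 2) (Fin 2) (ZMod (2 ^ M)) := !![((1 : ℤ) : ZMod (2 ^ M)), 0; 0, d] with hD
  have uD : IsUnit D := by
    rw [Matrix.isUnit_iff_isUnit_det, hD, Matrix.det_fin_two_of]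
    simpa using hd
  have e : ∀ γ i, D * rd M (rho Γ γ) = rd M (rho Γ (r.el γ i)) * D := fun γ i => by
    have h1 := congrArg (rd M) (r.eq γ i)
    rwa [map_mul, map_mul, dg_iff.1 (hα _), dg_iff.1 (hα _)] at h1
  have c : ∀ γ i, v (r.el γ i) = v (r.el γ i₀) := fun γ i =>
    h.cls (uD.mul_right_cancel ((e γ i).symm.trans (e γ i₀)))
  refine ⟨fun γ => act w !![1, 0; 0, d] (v (r.el γ i₀)), ⟨fun g g' => ?_, fun γ hγ => ?_⟩, ?_⟩
  · show act w _ (v (r.el (g * g') i₀)) = _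
    rw [(r.mul g g' i₀).2, h.1, map_add, c g' (r.nx g i₀)]
    refine congrArg (· + _) ?_
    rw [← actD hn (hα (r.nx g' (r.nx g i₀))), ← act_mul, ← r.eq, act_mul, actD hn (hα _)]
  · show act w _ (v (r.el γ i₀)) = 0
    have h1 := e γ i₀
    rw [dg_one.1 hγ, mul_one] at h1
    rw [h.2 _ (dg_one.2 (uD.mul_right_cancel (h1.symm.trans (one_mul D).symm))), map_zero]
  · funext γ
    rw [Rep.hc, Pi.smul_apply, ← Finset.card_univ, ← Finset.sum_const]
    exact Finset.sum_congr rfl fun i _ => by rw [actD hn (hα _), c γ i]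

/-- reduction of functions -/
def rv {Γ : Type} {w : ℕ} (n : ℕ) (u : Γ → Pw w ℤ) : Γ → Pw w (ZMod (2 ^ n)) :=
  fun γ j => Int.castAddHom (ZMod (2 ^ n)) (u γ j)

theorem rv_act {w n : ℕ} (A : M2) (p : Pw w ℤ) :
    (fun j => Int.castAddHom (ZMod (2 ^ n)) (act w A p j)) =
      act w A (fun j => Int.castAddHom (ZMod (2 ^ n)) (p j)) :=
  funext fun j => (act_map _ w A p j).symm

theorem rv_hc {Γ : Subgroup SL(2, ℤ)} {w n : ℕ} {ι : Type} [Fintype ι] {α : ι → M2}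
    (r : Rep (rho Γ) α) (u : Γ → Pw w ℤ) :
    rv n (r.hc (act w) u) = r.hc (act w) (rv n u) := by
  funext γ j
  simp only [rv, Rep.hc, Finset.sum_apply, map_sum]
  exact Finset.sum_congr rfl fun i _ => (act_map _ w _ _ j).symm

theorem hc_nsmul {Γ : Subgroup SL(2, ℤ)} {w n : ℕ} {ι : Type} [Fintype ι] {α : ι → M2}
    (r : Rep (rho Γ) α) (c : ℕ) (v : Γ → Pw w (ZMod (2 ^ n))) :
    r.hc (act w) (c • v) = c • r.hc (act w) v := by
  funext γ
  simp only [Rep.hc, Pi.smul_apply, map_nsmul, Finset.smul_sum]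

end NilAux

open NilAux

theorem nil : NIL := by
  intro N N₀ hN w M n hn ℓ u hu
  set r0 := repT hN ℓ (dm_spec ℓ 0)
  set r1 := repT hN ℓ (dm_spec ℓ M)
  have hb : ∀ k : ℕ, (opZ r0 w ^ k) u - (opZ r1 w ^ k) u ∈ BZ (Gm N N₀) w := by
    intro k
    induction k with
    | zero => simp
    | succ k ih =>
      have h1 := opZ_BZ r0 ih
      have h2 := opZ_equiv r1 r0 (equivT hN ℓ (dm_spec ℓ M) (dm_spec ℓ 0))
        (equivT hN ℓ (dm_spec ℓ 0) (dm_spec ℓ M)) ((opZ r1 w ^ k) u)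
      have h3 := AddSubgroup.add_mem _ h1 h2
      rw [map_sub, sub_add_sub_cancel] at h3
      rw [pow_succ', pow_succ']
      exact h3
  have hd : IsUnit (((ℓ.1 : ℕ) : ℤ) : ZMod (2 ^ M)) := by
    obtain ⟨a, b, hab⟩ := cop2 ℓ M
    have h1 := congrArg (Int.cast : ℤ → ZMod (2 ^ M)) hab
    rw [Int.cast_add, Int.cast_mul, Int.cast_mul, Int.cast_natCast, ZMod.natCast_self, mul_zero,
      zero_add, Int.cast_one] at h1
    exact IsUnit.of_mul_eq_one_right b h1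
  obtain ⟨c, hc⟩ : 2 ∣ ℓ.1 + 1 := by
    have h1 := ℓ.2.1.eq_two_or_odd
    have h2 : ℓ.1 ≠ 2 := fun h => ℓ.2.2 (by rw [h]; exact dvd_mul_right 2 N)
    omega
  have hk : ∀ k : ℕ, ∃ v, Good M n v ∧
      rv n (((opZ r1 w ^ k) u : ZC (Gm N N₀) w) : Gm N N₀ → Pw w ℤ) = 2 ^ k • v := by
    intro k
    induction k with
    | zero =>
      refine ⟨rv n (u : Gm N N₀ → Pw w ℤ), ⟨fun g h => ?_, fun γ hγ => ?_⟩, by simp⟩
      · funext j
        rw [Pi.add_apply, rv, coc, Pi.add_apply, map_add]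
        exact congrArg (· + _) (act_map _ w _ _ j).symm
      · obtain ⟨p, hp⟩ := hu γ hγ
        funext j
        rw [rv, hp, Pi.smul_apply, map_nsmul, nsmul_eq_mul, ZMod.natCast_self, zero_mul]
        rfl
    | succ k ih =>
      obtain ⟨v, hv, e⟩ := ih
      obtain ⟨v', hv', e'⟩ := step hn none r1 hd (fun i => (cls_alp (dm_spec ℓ M) i).dg) hv
      refine ⟨c • v', hv'.nsmul c, ?_⟩
      rw [pow_succ', AddMonoid.End.coe_mul, Function.comp_apply, opZ_coe, rv_hc, e, hc_nsmul, e',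
        Fintype.card_option, Fintype.card_fin, hc, smul_smul, smul_smul, pow_succ, mul_assoc]
  obtain ⟨v, -, e⟩ := hk n
  set x : ZC (Gm N N₀) w := (opZ r1 w ^ n) u
  have hx : ∀ γ j, ∃ y : ℤ, (x : Gm N N₀ → Pw w ℤ) γ j = 2 ^ n • y := fun γ j => by
    have h1 := congrFun (congrFun e γ) j
    rw [Pi.smul_apply, Pi.smul_apply, nsmul_eq_mul, ZMod.natCast_self, zero_mul] at h1
    obtain ⟨y, hy⟩ := (ZMod.intCast_zmod_eq_zero_iff_dvd _ _).1 h1
    exact ⟨y, by rw [nsmul_eq_mul]; exact hy⟩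
  choose y hy using hx
  have hy' : ∀ γ, (x : Gm N N₀ → Pw w ℤ) γ = 2 ^ n • y γ := fun γ => funext (hy γ)
  have hz : y ∈ ZC (Gm N N₀) w := fun g h => by
    have h1 := coc x g h
    rw [hy', hy', hy', map_nsmul, ← smul_add] at h1
    rw [actM_eq]
    exact nsmul_right_injective (pow_ne_zero n two_ne_zero) h1
  have h1 : x = 2 ^ n • (⟨y, hz⟩ : ZC (Gm N N₀) w) := Subtype.ext (funext hy')
  refine ⟨⟨y, hz⟩, ?_⟩
  rw [map_pow, rW_T, ← h1]
  exact hb n

end Vale.Agent.P022D.G
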