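import Vale.Agent.P022D.G.Rows3
import Vale.Agent.P022D.G.Lat
import Vale.Agent.P022D.G.Nil
import Vale.Agent.P022D.G.Form

/-! # P022 route D, block G: from the deep group to forms -/

set_option linter.all false

open scoped MatrixGroups ModularForm
open UpperHalfPlane CongruenceSubgroup

noncomputable section

namespace Vale.Agent.P022D.G

open Vale.Agent.P022 Vale.Agent.P022.H161.CLat Vale.Agent.P022.H161.COp Vale.Agent.P022.L3
open Vale.Agent.P022.H527.L3 hiding M2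
open Vale.Agent.P022.H420.L3 (M2 Pw act)

theorem fg_Gm {N N₀ : ℕ} [NeZero N] (hN : N₀ ∣ N) : Group.FG (Gm N N₀) := by
  haveI : Group.FG SL(2, ℤ) := by
    refine ⟨⟨{ModularGroup.S, ModularGroup.T}, ?_⟩⟩
    have := SpecialLinearGroup.SL2Z_generators
    simpa using this
  haveI := FormH.fi hN
  infer_instance

/-- a word which maps all cocycles into the saturated coboundaries kills the forms -/
theorem kil_of {N N₀ : ℕ} [NeZero N] (hN : N₀ ∣ N) (w : ℕ) (X : Wd N)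
    (hX : ∀ u : ZC (Gm N N₀) w, rW hN w X u ∈ Bsat (AA (Gm N N₀) w))
    (f : MF N (w + 1 + 1)) (hf : Inv N N₀ f) : sg N (w + 1) X f = 0 := by
  haveI := fg_Gm hN
  obtain ⟨Φ, -, h2, -, -, -, h6⟩ := form N N₀ hN w
  have h1 : ∀ p, actM ℂ (AA (Gm N N₀) w) 1 p = p := by
    intro p
    funext i
    simp [actM_apply, AA_one, Matrix.one_apply]
  obtain ⟨d, c, z, hz, hu⟩ := span_int h1 (h2 f hf)
  exact h6 X f hf d c (fun b => ⟨z b, hz b⟩) (fun b => hX _) hu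

/-- an odd number is a unit if two is nilpotent -/
theorem odd_unit {B : Type} [CommRing B] {s : ℕ} (hs : (2 : B) ^ s = 0) {m : ℕ} (hm : Odd m) :
    IsUnit (m : B) := by
  obtain ⟨k, rfl⟩ := hm
  have h : IsNilpotent ((2 : B) * k) := ⟨s, by rw [mul_pow, hs, zero_mul]⟩
  rw [Nat.cast_add, Nat.cast_mul, Nat.cast_ofNat, Nat.cast_one]
  exact h.isUnit_add_one

theorem key0 : KEY0 := by
  intro N N₀ _ hN K hK B _ s hs β hβ ℓ₀ hT
  haveI := fg_Gm hN
  obtain ⟨e, he, hl⟩ := lat (Gm N N₀) (Wd N) (K.image (· - 1))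
    (fun w => (rW hN w).toRingHom.toAddMonoidHom) fun _ => ⊤
  obtain ⟨a, m, hm, rfl⟩ := Nat.exists_eq_two_pow_mul_odd he
  refine ⟨s + a, fun n M hn hM Q hQ => ?_⟩
  obtain ⟨R, hR⟩ := hl n (wT ℓ₀ ^ n * Q) fun w hw u _ => by
    obtain ⟨i, hi, rfl⟩ := Finset.mem_image.1 hw
    obtain ⟨v, hv⟩ := nil N N₀ hN (i - 1) M n hM ℓ₀ (rW hN (i - 1) Q u)
      (hQ (i - 1) (by rw [Nat.sub_add_cancel (hK i hi)]; exact hi) u)
    refine ⟨v, BZ_le ?_⟩
    show rW hN (i - 1) (wT ℓ₀ ^ n * Q) u - 2 ^ n • v ∈ _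
    rw [map_mul]
    exact hv
  obtain ⟨k, rfl⟩ := Nat.exists_eq_add_of_le hn
  have hY : Kil N N N₀ K (m • (wT ℓ₀ ^ (s + a + k) * Q) - 2 ^ (s + k) • R) := by
    intro i hi f hf
    obtain ⟨w, rfl⟩ := Nat.exists_eq_add_of_le' (hK i hi)
    refine kil_of hN w _ (fun u => ?_) f hf
    obtain ⟨c, hc, hcu⟩ := hR w (Finset.mem_image.2 ⟨w + 1, hi, rfl⟩) u trivial
    refine ⟨c * 2 ^ a, mul_ne_zero hc (by positivity), ?_⟩
    have h1 : (2 ^ a * m) • rW hN w (wT ℓ₀ ^ (s + a + k) * Q) u - 2 ^ (s + a + k) • rW hN w R u =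
        2 ^ a • rW hN w (m • (wT ℓ₀ ^ (s + a + k) * Q) - 2 ^ (s + k) • R) u := by
      rw [map_sub, map_nsmul, map_nsmul]
      show _ = 2 ^ a • (m • rW hN w (wT ℓ₀ ^ (s + a + k) * Q) u - 2 ^ (s + k) • rW hN w R u)
      rw [smul_sub, smul_smul, smul_smul, ← pow_add, add_comm s a, add_assoc]
    have h2 : c • (((2 ^ a * m) • rW hN w (wT ℓ₀ ^ (s + a + k) * Q) u -
        2 ^ (s + a + k) • rW hN w R u : ZC (Gm N N₀) w) : Gm N N₀ → Fin (w + 1) → ℤ) ∈ _ := hcu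
    rw [h1, AddSubgroup.coe_nsmul, ← natCast_zsmul, smul_smul, Nat.cast_pow, Nat.cast_ofNat] at h2
    exact h2
  have h3 := hβ _ hY
  rw [map_sub, map_nsmul, map_nsmul, map_mul, map_pow, nsmul_eq_mul, nsmul_eq_mul, Nat.cast_pow,
    Nat.cast_ofNat, pow_add (2 : B), hs, zero_mul, zero_mul, sub_zero,
    (odd_unit hs hm).mul_right_eq_zero, (hT.pow _).mul_right_eq_zero] at h3
  exact h3

end Vale.Agent.P022D.G
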