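import Vale.Agent.P022D.G.Defs

/-! # P022 route D, block G: complex cocycles killed by integral operators -/

set_option linter.all false

open scoped MatrixGroups

noncomputable section

namespace Vale.Agent.P022D.G

open Vale.Agent.P022 Vale.Agent.P022.H161.CLat Vale.Agent.P022.H161.COp

theorem span_rebase {d : ℕ} (c : Fin d → ℂ) : ∃ (n : ℕ) (e : Fin n → ℂ) (m : Fin d → Fin n → ℤ),
    LinearIndependent ℚ e ∧ ∀ b, c b = ∑ x, (m b x : ℂ) * e x := by
  let W : Submodule ℤ ℂ := Submodule.span ℤ (Set.range c)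
  have : Module.Finite ℤ W := Module.Finite.span_of_finite ℤ (Set.finite_range _)
  have : Module.IsTorsionFree ℤ W := inferInstance
  have : Module.Free ℤ W := inferInstance
  let bs := Module.finBasis ℤ W
  have hc : ∀ b, c b ∈ W := fun b => Submodule.subset_span ⟨b, rfl⟩
  refine ⟨_, fun x => (bs x : ℂ), fun b x => bs.repr ⟨c b, hc b⟩ x, ?_, fun b => ?_⟩
  · exact (LinearIndependent.iff_fractionRing ℤ ℚ).1
      (bs.linearIndependent.map' W.subtype W.ker_subtype)
  · have h4 := congrArg W.subtype (bs.sum_repr ⟨c b, hc b⟩)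
    rw [map_sum] at h4
    simp only [map_smul, Submodule.subtype_apply, zsmul_eq_mul] at h4
    exact h4.symm

theorem span_dual {n : ℕ} {e : Fin n → ℂ} (h : LinearIndependent ℚ e) (b : Fin n) :
    ∃ lam : ℂ →ₗ[ℚ] ℚ, ∀ m : Fin n → ℤ, lam (∑ x, e x * (m x : ℂ)) = m b := by
  obtain ⟨lam, hl⟩ := LinearMap.exists_extend ((Finsupp.lapply b).comp h.repr)
  have k : ∀ x, lam (e x) = (Finsupp.single x (1 : ℚ) : Fin n →₀ ℚ) b := fun x => by
    have := LinearMap.congr_fun hl ⟨e x, Submodule.subset_span ⟨x, rfl⟩⟩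
    rw [LinearMap.comp_apply, LinearMap.comp_apply, h.repr_eq_single x _ rfl] at this
    exact this
  refine ⟨lam, fun m => ?_⟩
  rw [map_sum, Finset.sum_eq_single b]
  · rw [mul_comm, ← zsmul_eq_mul, map_zsmul, k]
    simp
  · intro x _ hx
    rw [mul_comm, ← zsmul_eq_mul, map_zsmul, k, Finsupp.single_eq_of_ne hx.symm, smul_zero]
  · simp

theorem span : SPAN := by
  intro Γ _ w I E F hEF u hu hF
  have h1 : ∀ p, actM ℂ (AA Γ w) 1 p = p := by
    intro p
    funext i
    simp [actM_apply, AA_one, Matrix.one_apply]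
  obtain ⟨d, c, z, hz, hu'⟩ := span_int h1 hu
  obtain ⟨n, e, m, hli, hc⟩ := span_rebase c
  let z' : Fin n → ZC Γ w := fun x => ∑ b, m b x • (⟨z b, hz b⟩ : ZC Γ w)
  have hz' : ∀ x g j, (z' x : Γ → Fin (w + 1) → ℤ) g j = ∑ b, m b x * z b g j := fun x g j => by
    simp only [z', AddSubgroup.val_finset_sum, Finset.sum_apply, AddSubgroup.coe_zsmul,
      Pi.smul_apply, smul_eq_mul]
  have hu2 : u = ∑ x, e x • toC (z' x : Γ → Fin (w + 1) → ℤ) := by
    rw [hu']
    funext g j
    simp only [Finset.sum_apply, Pi.smul_apply, smul_eq_mul, toC, hz', hc, Int.cast_sum,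
      Int.cast_mul, Finset.sum_mul, Finset.mul_sum]
    rw [Finset.sum_comm]
    exact Finset.sum_congr rfl fun x _ => Finset.sum_congr rfl fun b _ => by ring
  clear_value z'
  refine ⟨n, e, z', fun b i => ?_, hu2⟩
  obtain ⟨lam, hl⟩ := span_dual hli b
  obtain ⟨p, hp⟩ := hF i
  rw [hu2, map_sum] at hp
  simp only [map_smul, hEF] at hp
  obtain ⟨k, hk⟩ := IsLocalization.exist_integer_multiples_of_finite (nonZeroDivisors ℤ)
    (fun l => lam (p l))
  choose q hq using hk
  refine ⟨k, nonZeroDivisors.coe_ne_zero k, q, fun g => ?_⟩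
  funext j
  have h2 := congrArg lam (congrFun (hp g) j)
  simp only [Finset.sum_apply, Pi.smul_apply, smul_eq_mul, toC, Pi.sub_apply, actM_apply] at h2
  rw [hl, map_sub, map_sum] at h2
  simp only [← zsmul_eq_mul, map_zsmul] at h2
  have hq' : ∀ l, (q l : ℚ) = (k : ℤ) * lam (p l) := fun l => by
    have := hq l
    rwa [zsmul_eq_mul] at this
  have h3 : (((k : ℤ) * (E i (z' b) : Γ → Fin (w + 1) → ℤ) g j : ℤ) : ℚ) =
      ((∑ l, AA Γ w g j l * q l - q j : ℤ) : ℚ) := by
    push_cast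
    rw [h2, mul_sub, Finset.mul_sum, hq']
    congr 1
    refine Finset.sum_congr rfl fun l _ => ?_
    rw [hq', zsmul_eq_mul]
    ring
  exact Int.cast_injective h3

end Vale.Agent.P022D.G
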