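import Vale.Agent.P022.H231.L3.Hec
import Vale.Agent.P022.H227.PhiC

/-! # P022 route D, block G: matrices for the trace from `Γ₁(M) ∩ Γ₀(q)` to `Γ₁(M)` -/

set_option linter.all false

open UpperHalfPlane CongruenceSubgroup
open scoped MatrixGroups ModularForm Manifold

noncomputable section

namespace Vale.Agent.P022D.Trc

open Vale.Agent.P022 Vale.Agent.P022.H227
open Vale.Agent.P022.H231.L3 (al IsDel exists_coset coset_unique det_al prim_col)

/-- slash by an integral matrix -/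
def sz (k : ℤ) (f : ℍ → ℂ) (A : M2) : ℍ → ℂ := if h : 0 < A.det then f ∣[k] gl A h else 0

theorem sz_eq (k : ℤ) (f : ℍ → ℂ) {A : M2} (h : 0 < A.det) : sz k f A = f ∣[k] gl A h :=
  dif_pos h

theorem sz_mul (k : ℤ) (f : ℍ → ℂ) {A B : M2} (hA : 0 < A.det) (hB : 0 < B.det) :
    sz k f (A * B) = sz k (sz k f A) B := by
  have h : 0 < (A * B).det := by rw [Matrix.det_mul]; exact mul_pos hA hB
  rw [sz_eq k f h, sz_eq k f hA, sz_eq k _ hB, gl_mul A B hA hB h, SlashAction.slash_mul]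

theorem sz_SL (k : ℤ) (f : ℍ → ℂ) (γ : SL(2, ℤ)) : sz k f (γ : M2) = f ∣[k] γ := by
  have h : 0 < (γ : M2).det := by rw [γ.det_coe]; exact one_pos
  rw [sz_eq k f h, gl_SL, ModularForm.SL_slash]

theorem sz_sum {ι : Type} [Fintype ι] (k : ℤ) (f : ι → ℍ → ℂ) {A : M2} (h : 0 < A.det) :
    sz k (∑ i, f i) A = ∑ i, sz k (f i) A := by
  simp only [sz_eq k _ h, SlashAction.sum_slash]

theorem sz_zero (k : ℤ) (A : M2) : sz k 0 A = 0 := by
  unfold sz
  split_ifs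
  · exact SlashAction.zero_slash _ _
  · rfl

theorem sz_add (k : ℤ) (f g : ℍ → ℂ) {A : M2} (h : 0 < A.det) :
    sz k (f + g) A = sz k f A + sz k g A := by
  simp only [sz_eq k _ h, SlashAction.add_slash]

theorem sz_smul (k : ℤ) (c : ℂ) (f : ℍ → ℂ) {A : M2} (h : 0 < A.det) :
    sz k (c • f) A = c • sz k f A := by
  have h' : 0 < (gl A h).det.val := gl_det_pos A h
  rw [sz_eq k _ h, sz_eq k _ h, ModularForm.smul_slash, σ, if_pos h']
  rfl

/-- two families of representatives give the same sum -/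
theorem sum_eq {ι : Type} [Fintype ι] {k : ℤ} {G : Subgroup SL(2, ℤ)} {f : ℍ → ℂ}
    (hf : ∀ γ ∈ G, f ∣[k] γ = f) {A B : ι → M2} (hB : ∀ i, 0 < (B i).det)
    (ex : ∀ i, ∃ j, ∃ γ ∈ G, A i = (γ : M2) * B j)
    (un : ∀ i j (γ : SL(2, ℤ)), A i = (γ : M2) * A j → i = j) :
    ∑ i, sz k f (A i) = ∑ i, sz k f (B i) := by
  choose s γ hγ e using ex
  have hs : Function.Injective s := by
    intro i j hij
    refine un i j (γ i * (γ j)⁻¹) ?_
    rw [e i, e j, hij, ← Matrix.mul_assoc, ← Matrix.SpecialLinearGroup.coe_mul,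
      inv_mul_cancel_right]
  refine Fintype.sum_bijective s (Finite.injective_iff_bijective.1 hs) _ _ fun i => ?_
  have h : 0 < (γ i : M2).det := by rw [(γ i).det_coe]; exact one_pos
  rw [e i, sz_mul k f h (hB _), sz_SL, hf _ (hγ i)]

/-- `Γ₁(M) ∩ Γ₀(q)` -/
def Gq (M q : ℕ) : Subgroup SL(2, ℤ) := Gamma1 M ⊓ Gamma0 q

theorem mem_G1 {M : ℕ} {γ : SL(2, ℤ)} :
    γ ∈ Gamma1 M ↔ (M : ℤ) ∣ γ 1 0 ∧ (M : ℤ) ∣ γ 0 0 - 1 := by
  rw [Gamma1_mem, ← ZMod.intCast_zmod_eq_zero_iff_dvd, ← ZMod.intCast_zmod_eq_zero_iff_dvd]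
  have h := congrArg (fun x : ℤ => (x : ZMod M)) (γ.det_coe.symm.trans (Matrix.det_fin_two _))
  push_cast at h ⊢
  constructor
  · rintro ⟨a, b, c⟩
    exact ⟨c, sub_eq_zero.2 a⟩
  · rintro ⟨c, a⟩
    have a' := sub_eq_zero.1 a
    refine ⟨a', ?_, c⟩
    rw [c, a'] at h
    linear_combination -h

theorem mem_Gq {M q : ℕ} {γ : SL(2, ℤ)} :
    γ ∈ Gq M q ↔ ((M : ℤ) ∣ γ 1 0 ∧ (M : ℤ) ∣ γ 0 0 - 1) ∧ (q : ℤ) ∣ γ 1 0 := by
  rw [Gq, Subgroup.mem_inf, mem_G1, Gamma0_mem, ZMod.intCast_zmod_eq_zero_iff_dvd]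

theorem mul00 (A B : M2) : (A * B) 0 0 = A 0 0 * B 0 0 + A 0 1 * B 1 0 := by
  simp [Matrix.mul_apply, Fin.sum_univ_two]

theorem mul01 (A B : M2) : (A * B) 0 1 = A 0 0 * B 0 1 + A 0 1 * B 1 1 := by
  simp [Matrix.mul_apply, Fin.sum_univ_two]

theorem mul10 (A B : M2) : (A * B) 1 0 = A 1 0 * B 0 0 + A 1 1 * B 1 0 := by
  simp [Matrix.mul_apply, Fin.sum_univ_two]

theorem mul11 (A B : M2) : (A * B) 1 1 = A 1 0 * B 0 1 + A 1 1 * B 1 1 := by
  simp [Matrix.mul_apply, Fin.sum_univ_two]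

/-- upper triangular modulo `M` with upper left entry `a` -/
def Up (M : ℕ) (a : ℤ) (A : M2) : Prop := (M : ℤ) ∣ A 1 0 ∧ (M : ℤ) ∣ A 0 0 - a

theorem Up.mul {M : ℕ} {a b : ℤ} {A B : M2} (hA : Up M a A) (hB : Up M b B) :
    Up M (a * b) (A * B) := by
  obtain ⟨⟨x, hx⟩, ⟨y, hy⟩⟩ := hA
  obtain ⟨⟨z, hz⟩, ⟨w, hw⟩⟩ := hB
  refine ⟨⟨x * B 0 0 + A 1 1 * z, ?_⟩, ⟨y * B 0 0 + a * w + A 0 1 * z, ?_⟩⟩
  · rw [mul10, hx, hz]; ring
  · rw [mul00, hz]; linear_combination B 0 0 * hy + a * hw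

/-- the second row is divisible by `q` -/
def Lo (q : ℕ) (A : M2) : Prop := (q : ℤ) ∣ A 1 0 ∧ (q : ℤ) ∣ A 1 1

theorem Lo.mul_right {q : ℕ} {A : M2} (hA : Lo q A) (B : M2) : Lo q (A * B) := by
  refine ⟨?_, ?_⟩
  · rw [mul10]; exact dvd_add (hA.1.mul_right _) (hA.2.mul_right _)
  · rw [mul11]; exact dvd_add (hA.1.mul_right _) (hA.2.mul_right _)

theorem Lo.mul_left {q : ℕ} {A B : M2} (hA : (q : ℤ) ∣ A 1 0) (hB : Lo q B) : Lo q (A * B) := by
  refine ⟨?_, ?_⟩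
  · rw [mul10]; exact dvd_add (hA.mul_right _) (hB.1.mul_left _)
  · rw [mul11]; exact dvd_add (hA.mul_right _) (hB.2.mul_left _)

theorem mem_up {M : ℕ} {a : ℤ} {B : M2} {g : SL(2, ℤ)} (hA : Up M a ((g : M2) * B))
    (hB : Up M a B) (hc : IsCoprime B.det (M : ℤ)) : g ∈ Gamma1 M := by
  have h0 : IsCoprime (M : ℤ) (B 0 0) := by
    obtain ⟨u, v, h⟩ := hc
    obtain ⟨z, hz⟩ := hB.1
    rw [Matrix.det_fin_two, hz] at h
    exact ⟨v - u * B 0 1 * z, u * B 1 1, by linear_combination h⟩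
  obtain ⟨h1, h2⟩ := hA
  rw [mul10] at h1
  rw [mul00] at h2
  refine mem_G1.2 ⟨h0.dvd_of_dvd_mul_right ?_, h0.dvd_of_dvd_mul_right ?_⟩
  · exact (dvd_add_left (hB.1.mul_left _)).1 h1
  · have := dvd_sub (dvd_sub h2 hB.2) (hB.1.mul_left ((g : M2) 0 1))
    have e : (g : M2) 0 0 * B 0 0 + (g : M2) 0 1 * B 1 0 - a - (B 0 0 - a) -
        (g : M2) 0 1 * B 1 0 = ((g : M2) 0 0 - 1) * B 0 0 := by ring
    rw [e] at this
    exact this

theorem mem_lo {q : ℕ} (hq : q.Prime) {B : M2} {g : SL(2, ℤ)} (hA : Lo q ((g : M2) * B))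
    (hB : Lo q B) {n : ℤ} (hd : B.det = q * n) (hn : ¬ (q : ℤ) ∣ n) : (q : ℤ) ∣ g 1 0 := by
  have hp : Prime (q : ℤ) := Nat.prime_iff_prime_int.1 hq
  by_contra hg
  obtain ⟨h1, h2⟩ := hA
  rw [mul10] at h1
  rw [mul11] at h2
  obtain ⟨x, hx⟩ := (hp.dvd_or_dvd ((dvd_add_left (hB.1.mul_left _)).1 h1)).resolve_left hg
  obtain ⟨y, hy⟩ := (hp.dvd_or_dvd ((dvd_add_left (hB.2.mul_left _)).1 h2)).resolve_left hg
  obtain ⟨⟨z, hz⟩, ⟨w, hw⟩⟩ := hB
  rw [Matrix.det_fin_two, hx, hy, hz, hw] at hd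
  refine hn ⟨x * w - y * z, mul_left_cancel₀ hp.ne_zero ?_⟩
  linear_combination -hd

/-- right division -/
theorem ex_div {A B : M2} {n : ℤ} (hn : n ≠ 0) (hB : B.det = n)
    (h : ∀ i j, n ∣ (A * B.adjugate) i j) : ∃ C : M2, A = C * B := by
  choose c hc using h
  refine ⟨Matrix.of c, ?_⟩
  have e : A * B.adjugate = n • Matrix.of c := by
    ext i j
    rw [hc i j]
    simp
  have e2 : n • A = n • (Matrix.of c * B) := by
    rw [← Matrix.smul_mul, ← e, Matrix.mul_assoc, Matrix.adjugate_mul, hB, Matrix.mul_smul,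
      Matrix.mul_one]
  ext i j
  have := congrFun (congrFun e2 i) j
  simp only [Matrix.smul_apply, smul_eq_mul] at this
  exact mul_left_cancel₀ hn this

theorem cancel {X X' B : M2} (hB : B.det ≠ 0) (h : X * B = X' * B) : X = X' := by
  have e := congrArg (fun Y => Y * B.adjugate) h
  simp only [Matrix.mul_assoc, Matrix.mul_adjugate, Matrix.mul_smul, Matrix.mul_one] at e
  ext i j
  have := congrFun (congrFun e i) j
  simp only [Matrix.smul_apply, smul_eq_mul] at this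
  exact mul_left_cancel₀ hB this

/-- an Atkin-Lehner matrix (same as `P027M.M.IsAL`) -/
def AL (M q : ℕ) (d : SL(2, ℤ)) : Prop := IsDel 1 M q d ∧ (q : ℤ) ∣ d 1 1

section al

variable {M q : ℕ} {d : SL(2, ℤ)}

theorem w00 : al 1 q d none 0 0 = d 0 0 * q := by simp [al, mul00]
theorem w01 : al 1 q d none 0 1 = d 0 1 := by simp [al, mul01]
theorem w10 : al 1 q d none 1 0 = d 1 0 * q := by simp [al, mul10]
theorem w11 : al 1 q d none 1 1 = d 1 1 := by simp [al, mul11]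

theorem up_al {P : ℤ} {l : ℕ} (h : IsDel P M l d) (i : Option (Fin l)) : Up M 1 (al P l d i) :=
  ⟨(H231.L3.RR.al h i).h10, (H231.L3.RR.al h i).h00⟩

theorem lo_al (h : AL M q d) (i : Option (Fin q)) : Lo q (al 1 q d i) := by
  cases i with
  | none => exact ⟨by rw [w10]; exact dvd_mul_left _ _, by rw [w11]; exact h.2⟩
  | some j => exact ⟨by simp [al], by simp [al]⟩

theorem ex_none (hq : q.Prime) (h : AL M q d) {A : M2} (h0 : (q : ℤ) ∣ A 0 0)
    (h1 : (q : ℤ) ∣ A 1 0) : ∃ C : M2, A = C * al 1 q d none := by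
  refine ex_div (by exact_mod_cast hq.ne_zero) (det_al 1 q d none) ?_
  obtain ⟨x, hx⟩ := h0
  obtain ⟨y, hy⟩ := h1
  obtain ⟨z, hz⟩ := h.2
  rw [Matrix.adjugate_fin_two, w00, w01, w10, w11, hz]
  intro i j
  fin_cases i <;> fin_cases j
  · exact ⟨x * (q * z) - A 0 1 * d 1 0, by
      simp [Matrix.mul_apply, Fin.sum_univ_two, hx]; ring⟩
  · exact ⟨-x * d 0 1 + A 0 1 * d 0 0, by
      simp [Matrix.mul_apply, Fin.sum_univ_two, hx]; ring⟩
  · exact ⟨y * (q * z) - A 1 1 * d 1 0, by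
      simp [Matrix.mul_apply, Fin.sum_univ_two, hy]; ring⟩
  · exact ⟨-y * d 0 1 + A 1 1 * d 0 0, by
      simp [Matrix.mul_apply, Fin.sum_univ_two, hy]; ring⟩

theorem ex_lo (hq : q.Prime) (h : AL M q d) {A : M2} (hA : Lo q A) :
    ∃ i, ∃ C : M2, A = C * al 1 q d i := by
  by_cases h0 : (q : ℤ) ∣ A 0 0
  · exact ⟨none, ex_none hq h h0 hA.1⟩
  haveI : Fact q.Prime := ⟨hq⟩
  have h0' : (A 0 0 : ZMod q) ≠ 0 := fun e => h0 ((ZMod.intCast_zmod_eq_zero_iff_dvd _ _).1 e)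
  let c : ZMod q := A 0 1 / A 0 0
  have h3 : (q : ℤ) ∣ A 0 1 - A 0 0 * (c.val : ℤ) := by
    rw [← ZMod.intCast_zmod_eq_zero_iff_dvd]
    push_cast
    rw [ZMod.natCast_zmod_val]
    simp only [c]
    field_simp
    ring
  refine ⟨some ⟨c.val, ZMod.val_lt c⟩,
    ex_div (by exact_mod_cast hq.ne_zero) (det_al 1 q d _) ?_⟩
  obtain ⟨x, hx⟩ := h3
  obtain ⟨⟨y, hy⟩, ⟨z, hz⟩⟩ := hA
  have e : (al 1 q d (some ⟨c.val, ZMod.val_lt c⟩)).adjugate = !![(q : ℤ), -(c.val : ℤ); 0, 1] := by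
    rw [Matrix.adjugate_fin_two]
    simp [al]
  rw [e]
  generalize (c.val : ℤ) = n at hx ⊢
  intro i j
  fin_cases i <;> fin_cases j
  · exact ⟨A 0 0, by simp [Matrix.mul_apply, Fin.sum_univ_two]; ring⟩
  · exact ⟨x, by simp [Matrix.mul_apply, Fin.sum_univ_two]; linear_combination hx⟩
  · exact ⟨A 1 0, by simp [Matrix.mul_apply, Fin.sum_univ_two]; ring⟩
  · exact ⟨z - y * n, by simp [Matrix.mul_apply, Fin.sum_univ_two, hy, hz]; ring⟩

/-- uniqueness of the coset with auxiliary left factors -/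
theorem un_al {P : ℤ} {l : ℕ} (hl : l.Prime) (hP : IsCoprime (l : ℤ) P) {X X' : M2}
    {i j : Option (Fin l)} (e : X * al P l d i = X' * al P l d j)
    (hc : IsCoprime X'.det (l : ℤ)) : i = j := by
  have hl0 : (l : ℤ) ≠ 0 := by exact_mod_cast hl.ne_zero
  have e1 : X'.det • (al P l d j * (al P l d i).adjugate) = (l : ℤ) • (X'.adjugate * X) := by
    have := congrArg (fun Y => X'.adjugate * Y * (al P l d i).adjugate) e
    simp only [← Matrix.mul_assoc] at this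
    rw [Matrix.adjugate_mul, Matrix.mul_assoc _ (al P l d i), Matrix.mul_adjugate, det_al,
      Matrix.mul_smul, Matrix.mul_one, Matrix.smul_mul, Matrix.smul_mul, Matrix.one_mul] at this
    exact this.symm
  obtain ⟨C, hC⟩ := ex_div (A := al P l d j) hl0 (det_al P l d i) fun a b => by
    have := congrFun (congrFun e1 a) b
    simp only [Matrix.smul_apply, smul_eq_mul] at this
    exact hc.symm.dvd_of_dvd_mul_left ⟨_, this⟩
  have hd : C.det = 1 := by
    have := congrArg Matrix.det hC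
    rw [Matrix.det_mul, det_al, det_al] at this
    exact mul_right_cancel₀ hl0 (by linear_combination -this)
  refine (coset_unique hl hP (d := d) (g := ⟨C, hd⟩) (g' := 1) ?_).1
  rw [Matrix.SpecialLinearGroup.coe_one, Matrix.one_mul]
  exact hC.symm

end al

/-- a family of representatives for a Hecke operator prime to `M q` -/
structure Fam (M q : ℕ) {ι : Type} (α : ι → M2) (n a : ℤ) : Prop where
  det : ∀ i, (α i).det = n
  pos : 0 < n
  cop : IsCoprime n (M : ℤ)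
  cq : IsCoprime n (q : ℤ)
  up : ∀ i, Up M a (α i)
  lo : ∀ i, (q : ℤ) ∣ α i 1 0
  ex : ∀ C : M2, C.det = n → ∃ i, ∃ g : SL(2, ℤ), C = (g : M2) * α i
  un : ∀ (X X' : M2) i j, X * α i = X' * α j → IsCoprime X'.det n → i = j

theorem fam_al {M q l : ℕ} (hl : l.Prime) {P : ℤ} (hP : IsCoprime (l : ℤ) P)
    (hc : IsCoprime (l : ℤ) ((M * q : ℕ) : ℤ)) {d : SL(2, ℤ)}
    (h : IsDel P ((M * q : ℕ) : ℤ) l d) : Fam M q (al P l d) l 1 where
  det := det_al P l d
  pos := by exact_mod_cast hl.pos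
  cop := by push_cast at hc; exact hc.of_mul_right_left
  cq := by push_cast at hc; exact hc.of_mul_right_right
  up i := ⟨(Int.natCast_dvd_natCast.2 (dvd_mul_right M q)).trans (up_al h i).1,
    (Int.natCast_dvd_natCast.2 (dvd_mul_right M q)).trans (up_al h i).2⟩
  lo i := (Int.natCast_dvd_natCast.2 (dvd_mul_left q M)).trans (up_al h i).1
  ex C hC := exists_coset hl hP d C hC
  un X X' i j e hc' := un_al hl hP e hc'

theorem fam_dia {M q : ℕ} {d : SL(2, ℤ)} (h : ((M * q : ℕ) : ℤ) ∣ d 1 0) :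
    Fam M q (fun _ : Unit => (d : M2)) 1 (d 0 0) where
  det _ := d.det_coe
  pos := one_pos
  cop := isCoprime_one_left
  cq := isCoprime_one_left
  up _ := ⟨(Int.natCast_dvd_natCast.2 (dvd_mul_right M q)).trans h, by simp⟩
  lo _ := (Int.natCast_dvd_natCast.2 (dvd_mul_left q M)).trans h
  ex C hC := by
    obtain ⟨c, rfl⟩ : ∃ c : SL(2, ℤ), (c : M2) = C := ⟨⟨C, hC⟩, rfl⟩
    exact ⟨(), c * d⁻¹, by rw [← Matrix.SpecialLinearGroup.coe_mul, inv_mul_cancel_right]⟩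
  un _ _ _ _ _ _ := rfl

section fam

variable {M q : ℕ} {ι : Type} [Fintype ι] {α : ι → M2} {n a : ℤ} {d : SL(2, ℤ)} {k : ℤ}
  {f : ℍ → ℂ}

theorem up_SL {γ : SL(2, ℤ)} (h : γ ∈ Gamma1 M) : Up M 1 (γ : M2) := mem_G1.1 h

theorem SL_pos (γ : SL(2, ℤ)) : 0 < (γ : M2).det := by rw [γ.det_coe]; exact one_pos

/-- Hecke operators keep the invariance -/
theorem Fam.inv (F : Fam M q α n a) (hf : ∀ γ ∈ Gq M q, f ∣[k] γ = f) :
    ∀ γ ∈ Gq M q, (∑ i, sz k f (α i)) ∣[k] γ = ∑ i, sz k f (α i) := by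
  intro γ hγ
  have hp : ∀ i, 0 < (α i).det := fun i => (F.det i).symm ▸ F.pos
  rw [← sz_SL, sz_sum _ _ (SL_pos γ)]
  simp only [← sz_mul k f (hp _) (SL_pos γ)]
  refine sum_eq hf hp (fun i => ?_) fun i j g e => ?_
  · obtain ⟨j, g, e⟩ := F.ex (α i * γ) (by rw [Matrix.det_mul, F.det, γ.det_coe, mul_one])
    refine ⟨j, g, ⟨mem_up (a := a) ?_ (F.up j) (by rw [F.det]; exact F.cop), ?_⟩, e⟩
    · rw [← e]
      simpa using (F.up i).mul (up_SL hγ.1)
    · have h1 : (q : ℤ) ∣ ((g : M2) * α j) 1 0 := by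
        rw [← e, mul10]
        exact dvd_add ((F.lo i).mul_right _) ((mem_Gq.1 hγ).2.mul_left _)
      have h0 : IsCoprime (q : ℤ) (α j 0 0) := by
        obtain ⟨u, v, h⟩ := F.cq
        obtain ⟨z, hz⟩ := F.lo j
        rw [← F.det j, Matrix.det_fin_two, hz] at h
        exact ⟨v - u * α j 0 1 * z, u * α j 1 1, by linear_combination h⟩
      rw [mul10] at h1
      exact Gamma0_mem.2 ((ZMod.intCast_zmod_eq_zero_iff_dvd _ _).2
        (h0.dvd_of_dvd_mul_right ((dvd_add_left ((F.lo j).mul_left _)).1 h1)))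
  · rw [← Matrix.mul_assoc] at e
    have e' := cancel (SL_pos γ).ne' e
    exact F.un 1 g i j (by rw [Matrix.one_mul, e']) (by rw [g.det_coe]; exact isCoprime_one_left)

theorem cop_q (hq : q.Prime) (hM : ¬ q ∣ M) : IsCoprime (q : ℤ) (M : ℤ) :=
  Nat.isCoprime_iff_coprime.2 ((Nat.Prime.coprime_iff_not_dvd hq).2 hM)

theorem mem_of {B : M2} {g : SL(2, ℤ)} (hq : q.Prime) (hM : ¬ q ∣ M) (h1 : IsCoprime n (M : ℤ))
    (h2 : IsCoprime n (q : ℤ)) (hd : B.det = q * n) (u : Up M a ((g : M2) * B)) (u' : Up M a B)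
    (l : Lo q ((g : M2) * B)) (l' : Lo q B) : g ∈ Gq M q :=
  ⟨mem_up u u' (by rw [hd]; exact (cop_q hq hM).mul_left h1),
    Gamma0_mem.2 ((ZMod.intCast_zmod_eq_zero_iff_dvd _ _).2 (mem_lo hq l l' hd fun h =>
      (Nat.prime_iff_prime_int.1 hq).not_unit (h2.isUnit_of_dvd' h dvd_rfl)))⟩

/-- every family of `q + 1` inequivalent matrices of the right shape gives the trace -/
theorem tr_eq (hq : q.Prime) (hM : ¬ q ∣ M) (h : AL M q d) (hf : ∀ γ ∈ Gq M q, f ∣[k] γ = f)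
    {A : Option (Fin q) → M2} (hd : ∀ i, (A i).det = q) (hu : ∀ i, Up M 1 (A i))
    (hl : ∀ i, Lo q (A i)) (un : ∀ i j (g : SL(2, ℤ)), A i = (g : M2) * A j → i = j) :
    ∑ i, sz k f (A i) = ∑ i, sz k f (al 1 q d i) := by
  refine sum_eq hf (fun i => by rw [det_al]; exact_mod_cast hq.pos) (fun i => ?_) un
  obtain ⟨j, g, e⟩ := exists_coset hq isCoprime_one_right d (A i) (hd i)
  exact ⟨j, g, mem_of (n := 1) hq hM isCoprime_one_left isCoprime_one_left
    (by rw [det_al, mul_one]) (e ▸ hu i) (up_al h.1 j) (e ▸ hl i) (lo_al h j), e⟩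

/-- the trace has level `Γ₁(M)` -/
theorem tr_inv (hq : q.Prime) (hM : ¬ q ∣ M) (h : AL M q d) (hf : ∀ γ ∈ Gq M q, f ∣[k] γ = f) :
    ∀ γ ∈ Gamma1 M, (∑ i, sz k f (al 1 q d i)) ∣[k] γ = ∑ i, sz k f (al 1 q d i) := by
  intro γ hγ
  have hp : ∀ i, 0 < (al 1 q d i).det := fun i => by rw [det_al]; exact_mod_cast hq.pos
  rw [← sz_SL, sz_sum _ _ (SL_pos γ)]
  simp only [← sz_mul k f (hp _) (SL_pos γ)]
  refine tr_eq hq hM h hf (fun i => by rw [Matrix.det_mul, det_al, γ.det_coe, mul_one])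
    (fun i => by simpa using (up_al h.1 i).mul (up_SL hγ)) (fun i => (lo_al h i).mul_right _)
    fun i j g e => ?_
  rw [← Matrix.mul_assoc] at e
  have e' := cancel (SL_pos γ).ne' e
  exact un_al hq isCoprime_one_right (X := 1) (by rw [Matrix.one_mul]; exact e')
    (by rw [g.det_coe]; exact isCoprime_one_left)

theorem det_left {A C B : M2} (hq : q.Prime) (e : A = C * B) (hA : A.det = q * n)
    (hB : B.det = q) : C.det = n := by
  have := congrArg Matrix.det e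
  rw [Matrix.det_mul, hA, hB] at this
  exact mul_left_cancel₀ (show (q : ℤ) ≠ 0 by exact_mod_cast hq.ne_zero)
    (by linear_combination -this)

/-- the Atkin-Lehner matrix commutes with the Hecke operators -/
theorem Fam.w_comm (F : Fam M q α n a) (hq : q.Prime) (hM : ¬ q ∣ M) (h : AL M q d)
    (hf : ∀ γ ∈ Gq M q, f ∣[k] γ = f) :
    ∑ i, sz k (sz k f (al 1 q d none)) (α i) = sz k (∑ i, sz k f (α i)) (al 1 q d none) := by
  have hp : ∀ i, 0 < (α i).det := fun i => (F.det i).symm ▸ F.pos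
  have hw : 0 < (al 1 q d none).det := by rw [det_al]; exact_mod_cast hq.pos
  rw [sz_sum _ _ hw]
  simp only [← sz_mul k f (hp _) hw, ← sz_mul k f hw (hp _)]
  refine sum_eq hf (fun i => by rw [Matrix.det_mul]; exact mul_pos (hp i) hw) (fun i => ?_)
    fun i j g e => ?_
  · obtain ⟨C, hC⟩ := ex_none hq h (A := al 1 q d none * α i)
      (by rw [mul00, w00]
          exact dvd_add ((dvd_mul_left _ _).mul_right _) ((F.lo i).mul_left _))
      ((lo_al h none).mul_right _).1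
    obtain ⟨j, g, e⟩ := F.ex C (det_left hq hC (by rw [Matrix.det_mul, det_al, F.det])
      (det_al _ _ _ _))
    rw [e, Matrix.mul_assoc] at hC
    refine ⟨j, g, mem_of (a := a) (B := α j * al 1 q d none) hq hM F.cop F.cq
      (by rw [Matrix.det_mul, det_al, F.det, mul_comm]) ?_ ?_ ?_ ?_, hC⟩
    · rw [← hC]; simpa using (up_al h.1 none).mul (F.up i)
    · simpa using (F.up j).mul (up_al h.1 none)
    · rw [← hC]; exact (lo_al h none).mul_right _
    · exact Lo.mul_left (F.lo j) (lo_al h none)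
  · rw [← Matrix.mul_assoc] at e
    exact F.un _ _ i j e (by rw [Matrix.det_mul, g.det_coe, one_mul, det_al]; exact F.cq.symm)

/-- the trace commutes with the Hecke operators -/
theorem Fam.tr_comm (F : Fam M q α n a) (hq : q.Prime) (hM : ¬ q ∣ M) (h : AL M q d)
    (hf : ∀ γ ∈ Gq M q, f ∣[k] γ = f) :
    ∑ j, sz k (∑ i, sz k f (al 1 q d i)) (α j) =
      ∑ i, sz k (∑ j, sz k f (α j)) (al 1 q d i) := by
  have hp : ∀ i, 0 < (α i).det := fun i => (F.det i).symm ▸ F.pos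
  have hw : ∀ i, 0 < (al 1 q d i).det := fun i => by rw [det_al]; exact_mod_cast hq.pos
  simp only [sz_sum _ _ (hw _), sz_sum _ _ (hp _), ← sz_mul k f (hp _) (hw _),
    ← sz_mul k f (hw _) (hp _)]
  rw [Finset.sum_comm (f := fun i j => sz k f (α j * al 1 q d i)), ← Fintype.sum_prod_type',
    ← Fintype.sum_prod_type']
  refine sum_eq (A := fun x : ι × Option (Fin q) => al 1 q d x.2 * α x.1)
    (B := fun x : ι × Option (Fin q) => α x.1 * al 1 q d x.2) hf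
    (fun x => by rw [Matrix.det_mul]; exact mul_pos (hp _) (hw _)) ?_ ?_
  · rintro ⟨j, i⟩
    obtain ⟨i', C, hC⟩ := ex_lo hq h ((lo_al h i).mul_right (α j))
    obtain ⟨j', g, e⟩ := F.ex C (det_left hq hC (by rw [Matrix.det_mul, det_al, F.det])
      (det_al _ _ _ _))
    rw [e, Matrix.mul_assoc] at hC
    refine ⟨(j', i'), g, mem_of (a := a) (B := α j' * al 1 q d i') hq hM F.cop F.cq
      (by rw [Matrix.det_mul, det_al, F.det, mul_comm]) ?_ ?_ ?_ ?_, hC⟩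
    · rw [← hC]; simpa using (up_al h.1 i).mul (F.up j)
    · simpa using (F.up j').mul (up_al h.1 i')
    · rw [← hC]; exact (lo_al h i).mul_right _
    · exact Lo.mul_left (F.lo j') (lo_al h i')
  · rintro ⟨j, i⟩ ⟨j', i'⟩ g e
    simp only [← Matrix.mul_assoc] at e
    obtain rfl := F.un _ _ j j' e
      (by rw [Matrix.det_mul, g.det_coe, one_mul, det_al]; exact F.cq.symm)
    have e' := cancel (hp j).ne' e
    have : i = i' := un_al hq isCoprime_one_right (X := 1) (by rw [Matrix.one_mul]; exact e')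
      (by rw [g.det_coe]; exact isCoprime_one_left)
    rw [this]

/-- the Atkin-Lehner matrix normalises `Γ₁(M) ∩ Γ₀(q)` -/
theorem w_norm (hq : q.Prime) (hM : ¬ q ∣ M) (h : AL M q d) {γ : SL(2, ℤ)} (hγ : γ ∈ Gq M q) :
    ∃ g ∈ Gq M q, al 1 q d none * (γ : M2) = (g : M2) * al 1 q d none := by
  obtain ⟨C, hC⟩ := ex_none hq h (A := al 1 q d none * (γ : M2))
    (by rw [mul00, w00]
        exact dvd_add ((dvd_mul_left _ _).mul_right _) ((mem_Gq.1 hγ).2.mul_left _))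
    ((lo_al h none).mul_right _).1
  have hd : C.det = 1 := det_left hq hC (by rw [Matrix.det_mul, det_al, γ.det_coe])
    (det_al _ _ _ _)
  refine ⟨⟨C, hd⟩, mem_of (n := 1) (a := 1) hq hM isCoprime_one_left isCoprime_one_left
    (by rw [det_al, mul_one]) ?_ (up_al h.1 none) ?_ (lo_al h none), hC⟩
  · show Up M 1 (C * _)
    rw [← hC]; simpa using (up_al h.1 none).mul (up_SL hγ.1)
  · show Lo q (C * _)
    rw [← hC]; exact (lo_al h none).mul_right _

theorem w_inv (hq : q.Prime) (hM : ¬ q ∣ M) (h : AL M q d) (hf : ∀ γ ∈ Gq M q, f ∣[k] γ = f) :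
    ∀ γ ∈ Gq M q, (sz k f (al 1 q d none)) ∣[k] γ = sz k f (al 1 q d none) := by
  intro γ hγ
  have hw : 0 < (al 1 q d none).det := by rw [det_al]; exact_mod_cast hq.pos
  obtain ⟨g, hg, e⟩ := w_norm hq hM h hγ
  rw [← sz_SL, ← sz_mul k f hw (SL_pos γ), e, sz_mul k f (SL_pos g) hw, sz_SL, hf g hg]

end fam

end Vale.Agent.P022D.Trc
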