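import Vale.Agent.P022D.G.Defs
import Vale.Agent.P022D.G.TrcA

/-! # P022 route D, block G: the Atkin-Lehner operator and the trace on forms of level
`Γ₁(M) ∩ Γ₀(q)` commute with the words -/

set_option linter.all false

open UpperHalfPlane CongruenceSubgroup
open scoped MatrixGroups ModularForm Manifold

noncomputable section

namespace Vale.Agent.P022D.Trc

open Vale.Agent.P022 Vale.Agent.P022.H227 Vale.Agent.P022D.G
open Vale.Agent.P022.H231.L3 (al IsDel det_al)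

theorem swap {M : ℕ} {γ : SL(2, ℤ)} (h : (M : ℤ) ∣ γ 1 0) :
    (M : ℤ) ∣ γ 0 0 - 1 ↔ (M : ℤ) ∣ γ 1 1 - 1 := by
  have e := γ.det_coe
  rw [Matrix.det_fin_two] at e
  obtain ⟨x, hx⟩ := h
  constructor
  · rintro ⟨y, hy⟩
    exact ⟨γ 0 1 * x - y * γ 1 1, by linear_combination e - γ 1 1 * hy + γ 0 1 * hx⟩
  · rintro ⟨y, hy⟩
    exact ⟨γ 0 1 * x - y * γ 0 0, by linear_combination e - γ 0 0 * hy + γ 0 1 * hx⟩

theorem inv_G1 {M N k : ℕ} {f : MF N k} :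
    Inv M M f ↔ ∀ γ ∈ Gamma1 M, (f : ℍ → ℂ) ∣[(k : ℤ)] γ = f :=
  ⟨fun h γ hγ => h γ (mem_G1.1 hγ).1 ((swap (mem_G1.1 hγ).1).1 (mem_G1.1 hγ).2),
    fun h γ a b => h γ (mem_G1.2 ⟨a, (swap a).2 b⟩)⟩

theorem inv_Gq {M q N k : ℕ} (hq : q.Prime) (hM : ¬ q ∣ M) {f : MF N k} :
    Inv (M * q) M f ↔ ∀ γ ∈ Gq M q, (f : ℍ → ℂ) ∣[(k : ℤ)] γ = f := by
  constructor
  · intro h γ hγ
    obtain ⟨⟨a, b⟩, c⟩ := mem_Gq.1 hγ
    refine h γ ?_ ((swap a).1 b)
    push_cast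
    exact (cop_q hq hM).symm.mul_dvd a c
  · intro h γ a b
    have a1 : (M : ℤ) ∣ γ 1 0 := (Int.natCast_dvd_natCast.2 (dvd_mul_right M q)).trans a
    exact h γ (mem_Gq.2 ⟨⟨a1, (swap a1).2 b⟩,
      (Int.natCast_dvd_natCast.2 (dvd_mul_left q M)).trans a⟩)

theorem G1_le {M q : ℕ} : Gamma1 (M * q) ≤ Gq M q := fun γ hγ => by
  obtain ⟨a, b⟩ := mem_G1.1 hγ
  exact mem_Gq.2 ⟨⟨(Int.natCast_dvd_natCast.2 (dvd_mul_right M q)).trans a,
    (Int.natCast_dvd_natCast.2 (dvd_mul_right M q)).trans b⟩,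
    (Int.natCast_dvd_natCast.2 (dvd_mul_left q M)).trans a⟩

theorem gl_rat (A : M2) (h : 0 < A.det) : ∃ b : GL (Fin 2) ℚ, b.map (algebraMap ℚ ℝ) = gl A h := by
  refine ⟨Matrix.GeneralLinearGroup.mkOfDetNeZero (A.map (Int.castRingHom ℚ)) (by
    rw [← RingHom.mapMatrix_apply, ← RingHom.map_det]
    simpa using h.ne'), ?_⟩
  ext i j
  simp [gl_val, Matrix.GeneralLinearGroup.mkOfDetNeZero]

/-- an invariant sum of slashes is a form -/
theorem ex_form {N N' k : ℕ} [NeZero N] [NeZero N'] {ι : Type} [Fintype ι] (f : MF N k)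
    {A : ι → M2} (hA : ∀ i, 0 < (A i).det)
    (h : ∀ γ ∈ Gamma1 N', (∑ i, sz k f (A i)) ∣[(k : ℤ)] γ = ∑ i, sz k f (A i)) :
    ∃ g : MF N' k, (g : ℍ → ℂ) = ∑ i, sz k f (A i) := by
  refine ⟨{ toFun := ∑ i, sz k f (A i)
            slash_action_eq' := ?_
            holo' := ?_
            bdd_at_cusps' := ?_ }, rfl⟩
  · rintro _ ⟨γ, hγ, rfl⟩
    exact h γ hγ
  · refine MDifferentiable.sum fun i _ => ?_
    rw [sz_eq _ _ (hA i)]
    exact f.holo'.slash _ _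
  · intro c hc γ hγ
    have hc' : IsCusp c (Gam N) := by
      rw [Subgroup.IsArithmetic.isCusp_iff_isCusp_SL2Z] at hc ⊢
      exact hc
    rw [IsBoundedAtImInfty, Filter.BoundedAtFilter, SlashAction.sum_slash]
    refine Asymptotics.IsBigO.sum fun i _ => ?_
    obtain ⟨b, hb⟩ := gl_rat (A i) (hA i)
    have h1 := f.bdd_at_cusps' (P004H.H181.isCusp_smul_rat hc' b)
    rw [sz_eq _ _ (hA i), ← hb]
    exact OnePoint.IsBoundedAt.smul_iff.1 h1 γ hγ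

theorem gd_del {N : ℕ} (ℓ : PA N) : IsDel 1 N ℓ.1 (gd N ℓ.1 ℓ.coprime) :=
  ⟨dvd_refl (N : ℤ), one_dvd _, by show (N : ℤ) ∣ (ℓ.1 : ℤ) - ℓ.1; simp⟩

theorem dia_sz {N k : ℕ} [NeZero N] (ℓ : PA N) (f : MF N k) :
    (H783.dia k ℓ f : ℍ → ℂ) = ∑ _i : Unit, sz k f (gd N ℓ.1 ℓ.coprime : M2) := by
  rw [H783.dia_coe, Fintype.sum_unique, sz_SL]
  rfl

theorem Tl_sz {N k : ℕ} [NeZero N] (ℓ : PA N) (f : MF N k) :
    (H783.Tl k ℓ f : ℍ → ℂ) = ∑ i, sz k f (al 1 ℓ.1 (gd N ℓ.1 ℓ.coprime) i) := by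
  have h0 := ℓ.2.1.pos
  rw [H783.Tl_coe, tFun, Fintype.sum_option, add_comm]
  congr 1
  · rw [al, sz_mul _ _ (SL_pos _) (dn_pos h0), sz_SL, sz_eq _ _ (dn_pos h0), dn_eq h0]
    rfl
  · refine Finset.sum_congr rfl fun j _ => ?_
    have e : al 1 ℓ.1 (gd N ℓ.1 ℓ.coprime) (some j) = upz ℓ.1 (j.1 : ℤ) := by simp [al, upz]
    rw [e, sz_eq _ _ (upz_pos h0 _), up_eq h0]

section

variable {M q : ℕ} [NeZero (M * q)]

theorem famT (ℓ : PA (M * q)) : Fam M q (al 1 ℓ.1 (gd (M * q) ℓ.1 ℓ.coprime)) ℓ.1 1 :=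
  fam_al ℓ.2.1 isCoprime_one_right (Nat.isCoprime_iff_coprime.2 ℓ.coprime) (gd_del ℓ)

theorem famD (ℓ : PA (M * q)) :
    Fam M q (fun _ : Unit => (gd (M * q) ℓ.1 ℓ.coprime : M2)) 1 (gd (M * q) ℓ.1 ℓ.coprime 0 0) :=
  fam_dia (gd_del ℓ).1

/-- induction over the words for an operator `Φ` on functions -/
theorem word_ind {ι : Type} [Fintype ι] {A : ι → M2} (hA : ∀ i, 0 < (A i).det) (i : ℕ)
    (H : ∀ (κ : Type) [Fintype κ] (α : κ → M2) (n a : ℤ), Fam M q α n a → ∀ f : ℍ → ℂ,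
      (∀ γ ∈ Gq M q, f ∣[((i + 1 : ℕ) : ℤ)] γ = f) →
      ∑ j, sz ((i + 1 : ℕ) : ℤ) (∑ b, sz ((i + 1 : ℕ) : ℤ) f (A b)) (α j) =
        ∑ b, sz ((i + 1 : ℕ) : ℤ) (∑ j, sz ((i + 1 : ℕ) : ℤ) f (α j)) (A b))
    (Q : Wd (M * q)) : ∀ f g : MF (M * q) (i + 1),
      (∀ γ ∈ Gq M q, (f : ℍ → ℂ) ∣[((i + 1 : ℕ) : ℤ)] γ = f) →
      (g : ℍ → ℂ) = ∑ b, sz ((i + 1 : ℕ) : ℤ) f (A b) →
      (∀ γ ∈ Gq M q, (sg (M * q) i Q f : ℍ → ℂ) ∣[((i + 1 : ℕ) : ℤ)] γ = sg (M * q) i Q f) ∧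
      (sg (M * q) i Q g : ℍ → ℂ) = ∑ b, sz ((i + 1 : ℕ) : ℤ) (sg (M * q) i Q f) (A b) := by
  have sm : ∀ (c : ℂ) (f g : MF (M * q) (i + 1)),
      (∀ γ ∈ Gq M q, (f : ℍ → ℂ) ∣[((i + 1 : ℕ) : ℤ)] γ = f) →
      (g : ℍ → ℂ) = ∑ b, sz ((i + 1 : ℕ) : ℤ) f (A b) →
      (∀ γ ∈ Gq M q, ((c • f : MF (M * q) (i + 1)) : ℍ → ℂ) ∣[((i + 1 : ℕ) : ℤ)] γ =
        (c • f : MF (M * q) (i + 1))) ∧
      ((c • g : MF (M * q) (i + 1)) : ℍ → ℂ) =
        ∑ b, sz ((i + 1 : ℕ) : ℤ) (c • f : MF (M * q) (i + 1)) (A b) := by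
    intro c f g hf hg
    rw [FunLike.coe_smul, FunLike.coe_smul]
    refine ⟨fun γ hγ => ?_, ?_⟩
    · rw [← sz_SL, sz_smul _ _ _ (SL_pos γ), sz_SL, hf γ hγ]
    · rw [hg, Finset.smul_sum]
      exact Finset.sum_congr rfl fun b _ => (sz_smul _ _ _ (hA b)).symm
  induction Q using FreeAlgebra.induction with
  | grade0 r =>
    intro f g hf hg
    have e : ∀ x : MF (M * q) (i + 1), sg (M * q) i (algebraMap ℤ _ r) x = (r : ℂ) • x := by
      intro x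
      rw [AlgHom.commutes, Module.algebraMap_end_apply, Int.cast_smul_eq_zsmul]
    rw [e, e]
    exact sm r f g hf hg
  | grade1 s =>
    intro f g hf hg
    rw [sg, FreeAlgebra.lift_ι_apply]
    cases s with
    | inl ℓ =>
      simp only [gHk]
      rw [Tl_sz, Tl_sz, hg]
      exact ⟨(famT ℓ).inv hf, H _ _ _ _ (famT ℓ) _ hf⟩
    | inr ℓ =>
      simp only [gHk, LinearMap.smul_apply]
      refine sm _ _ _ ?_ ?_
      · rw [dia_sz]
        exact (famD ℓ).inv hf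
      · rw [dia_sz, dia_sz, hg]
        exact H _ _ _ _ (famD ℓ) _ hf
  | mul a b ha hb =>
    intro f g hf hg
    rw [map_mul, Module.End.mul_apply, Module.End.mul_apply]
    exact ha _ _ (hb f g hf hg).1 (hb f g hf hg).2
  | add a b ha hb =>
    intro f g hf hg
    rw [map_add, LinearMap.add_apply, LinearMap.add_apply, FunLike.coe_add, FunLike.coe_add]
    refine ⟨fun γ hγ => ?_, ?_⟩
    · rw [SlashAction.add_slash, (ha f g hf hg).1 γ hγ, (hb f g hf hg).1 γ hγ]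
    · rw [(ha f g hf hg).2, (hb f g hf hg).2, ← Finset.sum_add_distrib]
      exact Finset.sum_congr rfl fun b _ => (sz_add _ _ _ (hA b)).symm

end

variable {N M q : ℕ} [NeZero N] {d : SL(2, ℤ)}

theorem pos_al (hq : q.Prime) (d : SL(2, ℤ)) (i : Option (Fin q)) : 0 < (al 1 q d i).det := by
  rw [det_al]; exact_mod_cast hq.pos

/-- the words keep the level -/
theorem inv_word (hN : N = M * q) (hq : q.Prime) (hM : ¬ q ∣ M) {i : ℕ} (Q : Wd N)
    {f : MF N (i + 1)} (hf : Inv N M f) : Inv N M (sg N i Q f) := by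
  subst hN
  refine (inv_Gq hq hM).2 (word_ind (ι := Empty) (A := fun b => b.elim) (fun b => b.elim) i
    (fun κ _ α n a F f _ => ?_) Q f 0 ((inv_Gq hq hM).1 hf) (by simp)).1
  simp [sz_zero]

/-- **the Atkin-Lehner operator**: `f ∣ W` is a form of the same level, `W` commutes with words -/
theorem ex_W (hN : N = M * q) (hq : q.Prime) (hM : ¬ q ∣ M) (h : AL M q d) {i : ℕ}
    {f : MF N (i + 1)} (hf : Inv N M f) : ∃ g : MF N (i + 1), Inv N M g ∧ ∀ Q : Wd N,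
      (sg N i Q g : ℍ → ℂ) = sz ((i + 1 : ℕ) : ℤ) (sg N i Q f) (al 1 q d none) := by
  subst hN
  have hf' := (inv_Gq hq hM).1 hf
  have hw := w_inv hq hM h hf'
  obtain ⟨g, hg⟩ := ex_form (N' := M * q) f (A := fun _ : Unit => al 1 q d none)
    (fun _ => pos_al hq d none) fun γ hγ => by
      rw [Fintype.sum_unique]; exact hw γ (G1_le hγ)
  refine ⟨g, (inv_Gq hq hM).2 (by rw [hg, Fintype.sum_unique]; exact hw), fun Q => ?_⟩
  have := (word_ind (A := fun _ : Unit => al 1 q d none) (fun _ => pos_al hq d none) i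
    (fun κ _ α n a F f hf => by
      simp only [Fintype.sum_unique]; exact F.w_comm hq hM h hf) Q f g hf' hg).2
  rwa [Fintype.sum_unique] at this

/-- **the trace** is a form of level `Γ₁(M)` and commutes with words -/
theorem ex_tr (hN : N = M * q) (hq : q.Prime) (hM : ¬ q ∣ M) (h : AL M q d) {i : ℕ}
    {f : MF N (i + 1)} (hf : Inv N M f) : ∃ g : MF N (i + 1), Inv M M g ∧ ∀ Q : Wd N,
      (sg N i Q g : ℍ → ℂ) = ∑ b, sz ((i + 1 : ℕ) : ℤ) (sg N i Q f) (al 1 q d b) := by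
  subst hN
  have hf' := (inv_Gq hq hM).1 hf
  have hw := tr_inv hq hM h hf'
  obtain ⟨g, hg⟩ := ex_form (N' := M * q) f (pos_al hq d) fun γ hγ => hw γ (G1_le hγ).1
  exact ⟨g, inv_G1.2 (by rw [hg]; exact hw), fun Q => (word_ind (pos_al hq d) i
    (fun κ _ α n a F f hf => F.tr_comm hq hM h hf) Q f g hf' hg).2⟩

/-- `f` has level `Γ₁(M) ∩ Γ₀(q)` and both traces to the level `Γ₁(M)` vanish -/
def New (M q : ℕ) (d : SL(2, ℤ)) (k : ℤ) (f : ℍ → ℂ) : Prop :=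
  (∀ γ ∈ Gq M q, f ∣[k] γ = f) ∧ ∑ b, sz k f (al 1 q d b) = 0 ∧
    ∑ b, sz k (sz k f (al 1 q d none)) (al 1 q d b) = 0

/-- **TRC**: a word which kills the forms of level `M` maps to new forms -/
theorem trc (hN : N = M * q) (hq : q.Prime) (hM : ¬ q ∣ M) (h : AL M q d) {K : Finset ℕ}
    {X : Wd N} (hX : Kil N M M K X) {i : ℕ} (hi : i ∈ K) {f : MF N (i + 1)} (hf : Inv N M f) :
    New M q d ((i + 1 : ℕ) : ℤ) (sg N i X f) := by
  refine ⟨?_, ?_, ?_⟩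
  · have := inv_word hN hq hM X hf
    subst hN
    exact (inv_Gq hq hM).1 this
  · obtain ⟨g, h1, h2⟩ := ex_tr hN hq hM h hf
    rw [← h2, hX i hi g h1]
    rfl
  · obtain ⟨w, h0, h3⟩ := ex_W hN hq hM h hf
    obtain ⟨g, h1, h2⟩ := ex_tr hN hq hM h h0
    rw [← h3, ← h2, hX i hi g h1]
    rfl

section any

variable {k : ℤ} {f : ℍ → ℂ} {ι : Type} [Fintype ι]

/-- every family of `q + 1` inequivalent matrices of the right shape gives the trace -/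
theorem tr_any (hq : q.Prime) (hM : ¬ q ∣ M) (h : AL M q d) (hf : ∀ γ ∈ Gq M q, f ∣[k] γ = f)
    (hc : Fintype.card ι = q + 1) {A : ι → M2} (hd : ∀ i, (A i).det = q) (hu : ∀ i, Up M 1 (A i))
    (hl : ∀ i, Lo q (A i)) (un : ∀ i j (g : SL(2, ℤ)), A i = (g : M2) * A j → i = j) :
    ∑ i, sz k f (A i) = ∑ i, sz k f (al 1 q d i) := by
  obtain ⟨e⟩ : Nonempty (Option (Fin q) ≃ ι) := Fintype.card_eq.1 (by simp [hc])
  rw [← tr_eq hq hM h hf (A := fun i => A (e i)) (fun i => hd _) (fun i => hu _) (fun i => hl _)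
    fun i j g x => e.injective (un _ _ g x)]
  exact (Equiv.sum_comp e fun i => sz k f (A i)).symm

theorem un_of (hq : q.Prime) {W : M2} (hd : W.det = q) (h0 : (q : ℤ) ∣ W 0 0)
    (h1 : (q : ℤ) ∣ W 1 0) {a b g : SL(2, ℤ)} (e : W * (a : M2) = (g : M2) * (W * (b : M2))) :
    (q : ℤ) ∣ (a * b⁻¹) 1 0 := by
  have e1 : W * ((a * b⁻¹ : SL(2, ℤ)) : M2) = (g : M2) * W := by
    rw [Matrix.SpecialLinearGroup.coe_mul, ← Matrix.mul_assoc, e, Matrix.mul_assoc,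
      Matrix.mul_assoc, ← Matrix.SpecialLinearGroup.coe_mul, mul_inv_cancel,
      Matrix.SpecialLinearGroup.coe_one, Matrix.mul_one]
  have e2 := congrArg (fun Y => (W.adjugate * Y) 1 0) e1
  simp only [← Matrix.mul_assoc, Matrix.adjugate_mul, hd, Matrix.smul_mul, Matrix.one_mul,
    Matrix.smul_apply, smul_eq_mul] at e2
  obtain ⟨x, hx⟩ := h0
  obtain ⟨y, hy⟩ := h1
  rw [mul10, mul10, mul11, Matrix.adjugate_fin_two, hx, hy] at e2
  simp only [Matrix.of_apply, Matrix.cons_val', Matrix.cons_val_zero, Matrix.cons_val_one,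
    Matrix.cons_val_fin_one] at e2
  refine ⟨(-y * g 0 0 + x * g 1 0) * x + (-y * g 0 1 + x * g 1 1) * y,
    mul_left_cancel₀ (show (q : ℤ) ≠ 0 by exact_mod_cast hq.ne_zero) ?_⟩
  linear_combination e2

/-- the trace of `f ∣ W'` over any system of representatives of `(Γ₁(M) ∩ Γ₀(q)) \ Γ₁(M)`
vanishes, for any Atkin-Lehner matrix `W'` -/
theorem New.trW (hq : q.Prime) (hM : ¬ q ∣ M) (h : AL M q d) (hf : New M q d k f)
    (hc : Fintype.card ι = q + 1) {γ : ι → SL(2, ℤ)} (hγ : ∀ i, γ i ∈ Gamma1 M)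
    (un : ∀ i j, (q : ℤ) ∣ (γ i * (γ j)⁻¹) 1 0 → i = j) {W : M2} (hd : W.det = q)
    (hu : Up M 1 W) (hl : Lo q W) (h0 : (q : ℤ) ∣ W 0 0) :
    ∑ i, sz k f (W * (γ i : M2)) = 0 := by
  rw [tr_any hq hM h hf.1 hc (fun i => by rw [Matrix.det_mul, hd, (γ i).det_coe, mul_one])
    (fun i => by simpa using hu.mul (up_SL (hγ i))) (fun i => hl.mul_right _)
    fun i j g e => un i j (un_of hq hd h0 hl.1 e)]
  exact hf.2.1

theorem sz_inj {A : M2} (hA : 0 < A.det) (h : sz k f A = 0) : f = 0 := by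
  rw [sz_eq _ _ hA] at h
  have := congrArg (fun x => x ∣[k] (gl A hA)⁻¹) h
  simpa only [← SlashAction.slash_mul, mul_inv_cancel, SlashAction.slash_one,
    SlashAction.zero_slash] using this

/-- the trace of `f` over any system of representatives vanishes -/
theorem New.tr1 (hq : q.Prime) (hM : ¬ q ∣ M) (h : AL M q d) (hf : New M q d k f)
    (hc : Fintype.card ι = q + 1) {γ : ι → SL(2, ℤ)} (hγ : ∀ i, γ i ∈ Gamma1 M)
    (un : ∀ i j, (q : ℤ) ∣ (γ i * (γ j)⁻¹) 1 0 → i = j) : ∑ i, f ∣[k] γ i = 0 := by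
  have hw := pos_al hq d none
  have hq0 : (0 : ℤ) < q := by exact_mod_cast hq.pos
  set W := al 1 q d none with hW
  have a0 : W.adjugate 0 0 = d 1 1 := by rw [Matrix.adjugate_fin_two, ← w11 (q := q)]; rfl
  have a1 : W.adjugate 1 0 = -(d 1 0 * q) := by
    rw [Matrix.adjugate_fin_two, ← w10 (q := q)]; rfl
  have a2 : W.adjugate 1 1 = d 0 0 * q := by rw [Matrix.adjugate_fin_two, ← w00 (q := q)]; rfl
  have hd : W.adjugate.det = q := by rw [Matrix.det_adjugate, det_al]; simp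
  have hl : Lo q W.adjugate := ⟨by rw [a1]; exact (dvd_mul_left _ _).neg_right,
    by rw [a2]; exact dvd_mul_left _ _⟩
  have hu : Up M q W.adjugate := ⟨by rw [a1]; exact (h.1.1.mul_right _).neg_right,
    by rw [a0]; exact h.1.2.2⟩
  have key := tr_any (k := k) hq hM h (w_inv hq hM h hf.1) hc
    (A := fun i => W.adjugate * (γ i : M2) * (d : M2))
    (fun i => by rw [Matrix.det_mul, Matrix.det_mul, hd, (γ i).det_coe, d.det_coe]; simp)
    (fun i => by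
      have := (hu.mul (up_SL (hγ i))).mul (show Up M (d 0 0) (d : M2) from ⟨h.1.1, by simp⟩)
      refine ⟨this.1, ?_⟩
      have e := dvd_add this.2 h.1.mul_sub
      rwa [show ∀ x : ℤ, x - q * 1 * d 0 0 + (d 0 0 * q - 1) = x - 1 from fun x => by ring] at e)
    (fun i => (hl.mul_right _).mul_right _)
    fun i j g e => un i j (un_of (g := g) hq hd (by rw [a0]; exact h.2) hl.1
      (cancel (SL_pos d).ne' (by rw [e]; simp only [Matrix.mul_assoc])))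
  rw [hf.2.2] at key
  have hp : 0 < ((q : ℤ) • (d : M2)).det := by
    rw [Matrix.det_smul, d.det_coe]; simpa using pow_pos hq0 2
  refine sz_inj (k := k) hp ?_
  rw [sz_sum _ _ hp, ← key]
  refine Finset.sum_congr rfl fun i _ => ?_
  rw [← sz_SL, ← sz_mul _ _ (SL_pos _) hp, ← sz_mul _ _ hw (by
    rw [Matrix.det_mul, Matrix.det_mul, hd, (γ i).det_coe, d.det_coe]; simpa using hq.pos)]
  congr 1
  rw [← Matrix.mul_assoc, ← Matrix.mul_assoc, Matrix.mul_adjugate, det_al, Matrix.smul_mul,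
    Matrix.one_mul, Matrix.smul_mul, Matrix.mul_smul]

end any

end Vale.Agent.P022D.Trc
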