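import Vale.Agent.P022D.G.Rows
import Vale.Agent.P022D.G.Trc

/-! # P022 route D, block G: the row `TRC` -/

set_option linter.all false

open UpperHalfPlane CongruenceSubgroup
open scoped MatrixGroups ModularForm Manifold

noncomputable section

namespace Vale.Agent.P022D.Trc

open Vale.Agent.P022 Vale.Agent.P022.H227 Vale.Agent.P022D.G
open Vale.Agent.P022.H231.L3 (al IsDel det_al)

section gen

variable {M q : ℕ} {ι : Type} [Fintype ι] {α : ι → M2} {n a b : ℤ} {k : ℤ} {f : ℍ → ℂ} {W : M2}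

theorem ex_left (hq : q.Prime) (hd : W.det = q) (hl : Lo q W) (h0 : (q : ℤ) ∣ W 0 0) {A : M2}
    (hA : (q : ℤ) ∣ A 1 0) : ∃ C : M2, W * A = C * W := by
  refine ex_div (by exact_mod_cast hq.ne_zero) hd ?_
  obtain ⟨x, hx⟩ := h0
  obtain ⟨⟨y, hy⟩, ⟨z, hz⟩⟩ := hl
  obtain ⟨c, hc⟩ := hA
  rw [Matrix.adjugate_fin_two]
  intro i j
  fin_cases i <;> fin_cases j
  · exact ⟨(W * A) 0 0 * z - (W * A) 0 1 * y, by
      simp [mul00, mul01, hy, hz]; ring⟩
  · exact ⟨-(x * A 0 0 + W 0 1 * c) * W 0 1 + (W * A) 0 1 * x, by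
      simp [mul00, mul01, hx, hc]; ring⟩
  · exact ⟨(W * A) 1 0 * z - (W * A) 1 1 * y, by
      simp [mul10, mul11, hy, hz]; ring⟩
  · exact ⟨-(y * A 0 0 + z * A 1 0) * W 0 1 + (W * A) 1 1 * x, by
      simp [mul10, mul11, hx, hy, hz]; ring⟩

theorem Fam.w_comm' (F : Fam M q α n a) (hq : q.Prime) (hM : ¬ q ∣ M) (hd : W.det = q)
    (hu : Up M b W) (hl : Lo q W) (h0 : (q : ℤ) ∣ W 0 0) (hf : ∀ γ ∈ Gq M q, f ∣[k] γ = f) :
    ∑ i, sz k (sz k f W) (α i) = sz k (∑ i, sz k f (α i)) W := by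
  have hp : ∀ i, 0 < (α i).det := fun i => (F.det i).symm ▸ F.pos
  have hw : 0 < W.det := by rw [hd]; exact_mod_cast hq.pos
  rw [sz_sum _ _ hw]
  simp only [← sz_mul k f (hp _) hw, ← sz_mul k f hw (hp _)]
  refine sum_eq hf (fun i => by rw [Matrix.det_mul]; exact mul_pos (hp i) hw) (fun i => ?_)
    fun i j g e => ?_
  · obtain ⟨C, hC⟩ := ex_left hq hd hl h0 (F.lo i)
    obtain ⟨j, g, e⟩ := F.ex C (det_left hq hC (by rw [Matrix.det_mul, hd, F.det]) hd)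
    rw [e, Matrix.mul_assoc] at hC
    refine ⟨j, g, mem_of (a := a * b) (B := α j * W) hq hM F.cop F.cq
      (by rw [Matrix.det_mul, hd, F.det, mul_comm]) ?_ ((F.up j).mul hu) ?_
      (Lo.mul_left (F.lo j) hl), hC⟩
    · rw [← hC, mul_comm a b]; exact hu.mul (F.up i)
    · rw [← hC]; exact hl.mul_right _
  · rw [← Matrix.mul_assoc] at e
    exact F.un _ _ i j e (by rw [Matrix.det_mul, g.det_coe, one_mul, hd]; exact F.cq.symm)

theorem w_inv' (hq : q.Prime) (hM : ¬ q ∣ M) (hd : W.det = q) (hu : Up M b W) (hl : Lo q W)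
    (h0 : (q : ℤ) ∣ W 0 0) (hf : ∀ γ ∈ Gq M q, f ∣[k] γ = f) :
    ∀ γ ∈ Gq M q, (sz k f W) ∣[k] γ = sz k f W := by
  intro γ hγ
  have hw : 0 < W.det := by rw [hd]; exact_mod_cast hq.pos
  obtain ⟨C, hC⟩ := ex_left hq hd hl h0 (mem_Gq.1 hγ).2
  obtain ⟨g, rfl⟩ : ∃ g : SL(2, ℤ), (g : M2) = C :=
    ⟨⟨C, det_left hq hC (by rw [Matrix.det_mul, hd, γ.det_coe]) hd⟩, rfl⟩
  have hg : g ∈ Gq M q := mem_of (n := 1) (a := b) hq hM isCoprime_one_left isCoprime_one_left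
    (by rw [hd, mul_one]) (by rw [← hC]; simpa using hu.mul (up_SL hγ.1)) hu
    (by rw [← hC]; exact hl.mul_right _) hl
  rw [← sz_SL, ← sz_mul k f hw (SL_pos γ), hC, sz_mul k f (SL_pos g) hw, sz_SL, hf g hg]

theorem sz_scalar (hq : 0 < q) (w : ℕ) (f : ℍ → ℂ) :
    sz ((w + 1 + 1 : ℕ) : ℤ) f ((q : ℤ) • (1 : M2)) = (q : ℂ) ^ w • f := by
  have hd : ((q : ℤ) • (1 : M2)).det = (q : ℤ) ^ 2 := by rw [Matrix.det_smul]; simp
  have hp : 0 < ((q : ℤ) • (1 : M2)).det := by rw [hd]; positivity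
  have hq' : (q : ℂ) ≠ 0 := by exact_mod_cast hq.ne'
  rw [sz_eq _ _ hp, show ((w + 1 + 1 : ℕ) : ℤ) = (w : ℤ) + 2 by push_cast; ring,
    ← slash_eq_of_pos _ (gl_det_pos _ hp)]
  funext τ
  have e0 : ((q : ℤ) • (1 : M2)) 0 0 = q := by rw [Matrix.smul_apply, Matrix.one_apply_eq, smul_eq_mul, mul_one]
  have e1 : ((q : ℤ) • (1 : M2)) 0 1 = 0 := by rw [Matrix.smul_apply, Matrix.one_apply_ne (by decide), smul_zero]
  have e2 : ((q : ℤ) • (1 : M2)) 1 0 = 0 := by rw [Matrix.smul_apply, Matrix.one_apply_ne (by decide), smul_zero]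
  have e3 : ((q : ℤ) • (1 : M2)) 1 1 = q := by rw [Matrix.smul_apply, Matrix.one_apply_eq, smul_eq_mul, mul_one]
  have hden : denom (gl _ hp) τ = q := by
    simp only [denom, gl_val, e2, e3]
    simp
  have hτ : gl _ hp • τ = τ := by
    apply UpperHalfPlane.ext
    rw [coe_smul_of_det_pos (g := gl _ hp) (gl_det_pos _ hp) τ, hden]
    simp only [num, gl_val, e0, e1]
    simp
    field_simp
  rw [hτ, hden, gl_det, hd]
  simp only [Pi.smul_apply, smul_eq_mul]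
  push_cast
  field_simp
  ring

end gen

theorem ex_W' {M q : ℕ} [NeZero (M * q)] (hq : q.Prime) (hM : ¬ q ∣ M) {W : M2} {b : ℤ}
    (hd : W.det = q) (hu : Up M b W) (hl : Lo q W) (h0 : (q : ℤ) ∣ W 0 0) {i : ℕ}
    {f : MF (M * q) (i + 1)} (hf : Inv (M * q) M f) :
    ∃ g : MF (M * q) (i + 1), Inv (M * q) M g ∧ ∀ Q : Wd (M * q),
      (sg (M * q) i Q g : ℍ → ℂ) = sz ((i + 1 : ℕ) : ℤ) (sg (M * q) i Q f) W := by
  have hf' := (inv_Gq hq hM).1 hf
  have hp : 0 < W.det := by rw [hd]; exact_mod_cast hq.pos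
  have hw := w_inv' hq hM hd hu hl h0 hf'
  obtain ⟨g, hg⟩ := ex_form (N' := M * q) f (A := fun _ : Unit => W)
    (fun _ => hp) fun γ hγ => by rw [Fintype.sum_unique]; exact hw γ (G1_le hγ)
  refine ⟨g, (inv_Gq hq hM).2 (by rw [hg, Fintype.sum_unique]; exact hw), fun Q => ?_⟩
  have := (word_ind (A := fun _ : Unit => W) (fun _ => hp) i
    (fun κ _ α n a F f hf => by
      simp only [Fintype.sum_unique]; exact F.w_comm' hq hM hd hu hl h0 hf) Q f g hf' hg).2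
  rwa [Fintype.sum_unique] at this

theorem ex_U {M q : ℕ} [NeZero (M * q)] (hq : q.Prime) (hM : ¬ q ∣ M) {d : SL(2, ℤ)}
    (h : AL M q d) {i : ℕ} {f : MF (M * q) (i + 1)} (hf : Inv (M * q) M f) :
    ∃ g : MF (M * q) (i + 1), ∀ Q : Wd (M * q), (sg (M * q) i Q g : ℍ → ℂ) =
      ∑ j : Fin q, sz ((i + 1 : ℕ) : ℤ) (sg (M * q) i Q f) (al 1 q d (some j)) := by
  obtain ⟨g, -, hg⟩ := ex_tr rfl hq hM h hf
  obtain ⟨w, -, hw⟩ := ex_W rfl hq hM h hf
  refine ⟨g - w, fun Q => ?_⟩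
  rw [map_sub, FunLike.coe_sub, hg, hw, Fintype.sum_option, add_sub_cancel_left]

end Vale.Agent.P022D.Trc

namespace Vale.Agent.P022D.G

open Vale.Agent.P022 Vale.Agent.P022.H227 Vale.Agent.P022D.Trc
open Vale.Agent.P022.H231.L3 (al IsDel det_al)

theorem trc : TRC := by
  intro M q _ hq hM2 γ hγ w
  classical
  have hM : ¬ q ∣ M := fun h => hM2 (h.mul_left 2)
  obtain ⟨z, hz⟩ := hγ.q
  have hdet := γ.det_coe
  rw [Matrix.det_fin_two] at hdet
  have h00 : (M : ℤ) ∣ γ 0 0 - 1 := (swap hγ.c).2 hγ.d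
  let d : SL(2, ℤ) := ⟨!![z, -γ 0 1; -γ 1 0, q * γ 0 0], by
    rw [Matrix.det_fin_two_of]; linear_combination hdet - γ 0 0 * hz⟩
  have hd : AL M q d := by
    refine ⟨⟨hγ.c.neg_right, one_dvd _, ?_⟩, dvd_mul_right _ _⟩
    show (M : ℤ) ∣ q * γ 0 0 - q
    rw [← mul_sub_one]
    exact h00.mul_left _
  have hW : L3.alp 0 q γ none = al 1 q γ none := rfl
  have hU : ∀ j, L3.alp 0 q γ (some j) = al 1 q d (some j) := fun j => by simp [L3.alp, al]
  have wu : Up M q (al 1 q γ none) := ⟨by rw [w10]; exact hγ.c.mul_right _, by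
    rw [w00, ← sub_one_mul]; exact h00.mul_right _⟩
  have wl : Lo q (al 1 q γ none) := ⟨by rw [w10]; exact dvd_mul_left _ _, by
    rw [w11]; exact hγ.q⟩
  have w0 : (q : ℤ) ∣ al 1 q γ none 0 0 := by rw [w00]; exact dvd_mul_left _ _
  have ww : al 1 q γ none * al 1 q d none = (q : ℤ) • (1 : M2) := by
    have d0 : d 0 0 = z := rfl
    have d1 : d 0 1 = -γ 0 1 := rfl
    have d2 : d 1 0 = -γ 1 0 := rfl
    have d3 : d 1 1 = q * γ 0 0 := rfl
    rw [Matrix.eta_fin_two (al 1 q γ none * al 1 q d none), mul00, mul01, mul10, mul11]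
    simp only [w00, w01, w10, w11, d0, d1, d2, d3]
    rw [show γ 0 0 * q * (z * q) + γ 0 1 * (-γ 1 0 * q) = q by
        linear_combination (q : ℤ) * hdet - γ 0 0 * q * hz,
      show γ 0 0 * q * -γ 0 1 + γ 0 1 * (q * γ 0 0) = 0 by ring,
      show γ 1 0 * q * (z * q) + γ 1 1 * (-γ 1 0 * q) = 0 by
        linear_combination (-γ 1 0 * q) * hz,
      show γ 1 0 * q * -γ 0 1 + γ 1 1 * (q * γ 0 0) = q by linear_combination (q : ℤ) * hdet]
    ext i j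
    fin_cases i <;> fin_cases j <;> simp [Matrix.smul_apply, -nsmul_eq_mul, -zsmul_eq_mul]
  choose! U hUs using fun (f : MF (M * q) (w + 1 + 1)) (hf : Inv (M * q) M f) =>
    ex_U hq hM hd hf
  choose! W hW1 hW2 using fun (f : MF (M * q) (w + 1 + 1)) (hf : Inv (M * q) M f) =>
    ex_W' hq hM (det_al 1 q γ none) wu wl w0 hf
  have U1 : ∀ f, Inv (M * q) M f → (U f : ℍ → ℂ) =
      ∑ j : Fin q, sz ((w + 1 + 1 : ℕ) : ℤ) f (al 1 q d (some j)) := fun f hf => by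
    simpa only [map_one, Module.End.one_apply] using hUs f hf 1
  have W1 : ∀ f, Inv (M * q) M f → (W f : ℍ → ℂ) =
      sz ((w + 1 + 1 : ℕ) : ℤ) f (al 1 q γ none) := fun f hf => by
    simpa only [map_one, Module.End.one_apply] using hW2 f hf 1
  refine ⟨U, W, fun f hf => ⟨?_, ?_, ?_, fun Q => ⟨?_, ?_⟩⟩⟩
  · rw [U1 f hf]
    refine Finset.sum_congr rfl fun j _ => ?_
    rw [← hU, sz_eq]
  · rw [W1 f hf, ← hW, sz_eq]
  · have e : (((q : ℂ) ^ w • f + U (W f) : MF (M * q) (w + 1 + 1)) : ℍ → ℂ) =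
        ∑ i, sz ((w + 1 + 1 : ℕ) : ℤ) (W f) (al 1 q d i) := by
      rw [FunLike.coe_add, FunLike.coe_smul, U1 _ (hW1 f hf), Fintype.sum_option, W1 f hf,
        ← sz_mul _ _ (pos_al hq γ none) (pos_al hq d none), ww, sz_scalar hq.pos]
    refine inv_G1.2 ?_
    rw [e]
    exact tr_inv hq hM hd ((inv_Gq hq hM).1 (hW1 f hf))
  · apply DFunLike.coe_injective
    exact (hUs f hf Q).trans (U1 _ (inv_word rfl hq hM Q hf)).symm
  · apply DFunLike.coe_injective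
    exact (hW2 f hf Q).trans (W1 _ (inv_word rfl hq hM Q hf)).symm

end Vale.Agent.P022D.G
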