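import Vale.Agent.P022D.G.Rows3
import Vale.Agent.P022D.G.Lat
import Vale.Agent.P022D.G.Span
import Vale.Agent.P022D.G.Nil
import Vale.Agent.P022D.G.Form
import Vale.Agent.P022D.G.TrcB

/-! # P022 route D, block G, row KEYN -/

set_option linter.all false

open scoped MatrixGroups ModularForm
open UpperHalfPlane CongruenceSubgroup

noncomputable section

namespace Vale.Agent.P022D.G

open Vale.Agent.P022 Vale.Agent.P022.H161.CLat Vale.Agent.P022.H161.COp Vale.Agent.P022.L3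
open Vale.Agent.P022.H527.L3 hiding M2
open Vale.Agent.P022.H420.L3 (M2 Pw act)

namespace KeyN

theorem fg {N N₀ : ℕ} [NeZero N] (hN : N₀ ∣ N) : Group.FG (Gm N N₀) := by
  haveI := FormH.fi hN
  haveI : Group.FG SL(2, ℤ) := ⟨⟨{ModularGroup.S, ModularGroup.T}, by
    simpa using SpecialLinearGroup.SL2Z_generators⟩⟩
  infer_instance

theorem ex_c (Γ : Subgroup SL(2, ℤ)) [Group.FG Γ] (K : Finset ℕ) :
    ∃ c : ℕ, c ≠ 0 ∧ ∀ w ∈ K, ∀ u ∈ Bsat (AA Γ w), c • u ∈ BZ Γ w := by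
  have fin : ∀ w, Module.Finite ℤ (ZC Γ w) := fun w => finite_Z1 fun p => by
    funext i
    simp [actM_apply, AA_one, Matrix.one_apply]
  choose e he hs using fun w => exists_sat (M := ZC Γ w) (BZ Γ w)
  refine ⟨∏ w ∈ K, (e w).natAbs, Finset.prod_ne_zero_iff.2 fun w _ =>
    Int.natAbs_ne_zero.2 (he w), fun w hw u ⟨k, hk, hu⟩ => ?_⟩
  obtain ⟨x, hx⟩ := Finset.dvd_prod_of_mem (fun w => (e w).natAbs) hw
  have h1 : e w • u ∈ BZ Γ w := hs w u k hk hu
  have h2 : (e w).natAbs • u ∈ BZ Γ w := by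
    rw [← natCast_zsmul, ← Int.sign_mul_self, mul_smul]
    exact zsmul_mem h1 _
  rw [hx, mul_comm, mul_smul]
  exact nsmul_mem h2 _

theorem odd_unit {B : Type} [CommRing B] {s : ℕ} (hs : (2 : B) ^ s = 0) {e : ℕ} (he : Odd e) :
    IsUnit (e : B) := by
  obtain ⟨k, rfl⟩ := he
  push_cast
  exact IsNilpotent.isUnit_add_one ⟨s, by rw [mul_pow, hs, zero_mul]⟩

section

variable {M q : ℕ} {γ : SL(2, ℤ)}
  (rU : Rep (rho (Gm (M * q) M)) fun j : Fin q => alp 0 q γ (some j))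
  (rV : Rep (rho (Gm (M * q) M)) fun _ : Unit => alp 0 q γ none) (w : ℕ)

/-- the trace as an endomorphism -/
def E0 : AddMonoid.End (ZC (Gm (M * q) M) w) := q ^ w • 1 + opZ rU w * opZ rV w

theorem E0_apply (u : ZC (Gm (M * q) M) w) : E0 rU rV w u = trZ rU rV w u := rfl

/-- the same on complex functions -/
def F0 : Module.End ℂ (Gm (M * q) M → Fin (w + 1) → ℂ) := (q : ℂ) ^ w • 1 + opC rU w * opC rV w

theorem F0_apply (u : Gm (M * q) M → Fin (w + 1) → ℂ) :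
    F0 rU rV w u = (q : ℂ) ^ w • u + opC rU w (opC rV w u) := rfl

theorem F0_toC (u : ZC (Gm (M * q) M) w) :
    F0 rU rV w (toC (u : Gm (M * q) M → Fin (w + 1) → ℤ)) =
      toC ((E0 rU rV w u : ZC (Gm (M * q) M) w) : Gm (M * q) M → Fin (w + 1) → ℤ) := by
  rw [F0_apply, FormH.opC_toC, FormH.opC_toC, E0_apply, trZ, AddSubgroup.coe_add, toC_add]
  congr 1
  funext g i
  simp [toC]

theorem F0_B1 {u : Gm (M * q) M → Fin (w + 1) → ℂ} (hu : u ∈ B1 (actM ℂ (AA _ w))) :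
    F0 rU rV w u ∈ B1 (actM ℂ (AA (Gm (M * q) M) w)) := by
  rw [F0_apply]
  exact add_mem (B1_smul hu _) (FormH.opC_B1 _ (FormH.opC_B1 _ hu))

/-- the new lattice -/
def A : AddSubgroup (ZC (Gm (M * q) M) w) :=
  (Bsat (AA _ w)).toAddSubgroup.comap (E0 rU rV w) ⊓
    (Bsat (AA _ w)).toAddSubgroup.comap (E0 rU rV w * opZ rV w)

/-- a word which maps the new lattice into the coboundaries kills the new forms -/
theorem kill [NeZero (M * q)] (hq : q.Prime) (hM : ¬ q ∣ 2 * M) (hγ : AL1 M q γ) {X Z : Wd (M * q)}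
    (hX : ∀ f : MF (M * q) (w + 1 + 1), Inv M M f → sg (M * q) (w + 1) X f = 0)
    (hZ : ∀ u ∈ A rU rV w, rW (dvd_mul_right M q) w Z u ∈ Bsat (AA _ w))
    (f : MF (M * q) (w + 1 + 1)) (hf : Inv (M * q) M f) :
    sg (M * q) (w + 1) Z (sg (M * q) (w + 1) X f) = 0 := by
  haveI := fg (dvd_mul_right M q)
  obtain ⟨Φ, f1, f2, f3, -, f5, f6⟩ := form (M * q) M (dvd_mul_right M q) w
  obtain ⟨U, W, t⟩ := trc M q hq hM γ hγ w
  have hU := fun f hf => f5 _ _ rU (fun j => H227.det_alp_pos hq.pos γ (some j)) f (U f) hf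
    (t f hf).1
  have hW := fun f hf => f5 _ _ rV (fun _ => H227.det_alp_pos hq.pos γ none) f (W f) hf
    (by rw [Fintype.sum_unique]; exact (t f hf).2.1)
  have i0 : Inv (M * q) M (0 : MF (M * q) (w + 1 + 1)) := fun g _ _ => SlashAction.zero_slash _ _
  have z0 : Φ 0 = 0 := by
    have := f3 1 0 0 i0 i0
    rw [smul_zero, add_zero, one_smul] at this
    exact left_eq_add.1 this
  have P : ∀ f, Inv (M * q) M f →
      F0 rU rV w (Φ (sg (M * q) (w + 1) X f)) ∈ B1 (actM ℂ (AA (Gm (M * q) M) w)) := by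
    intro f hf
    have hg := f1 X f hf
    have e := hX _ (t f hf).2.2.1
    rw [map_add, map_smul, ((t _ (hW f hf).1).2.2.2 X).1, ((t f hf).2.2.2 X).2] at e
    generalize sg (M * q) (w + 1) X f = g at hg e
    have e2 := f3 ((q : ℂ) ^ w) g (U (W g)) hg (hU _ (hW g hg).1).1
    rw [e, z0] at e2
    have m := add_mem (hU _ (hW g hg).1).2 (FormH.opC_B1 rU (hW g hg).2)
    rw [map_sub, sub_add_sub_cancel] at m
    rw [F0_apply, eq_neg_of_add_eq_zero_left e2.symm, neg_add_eq_sub, ← neg_sub]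
    exact neg_mem m
  have hg := f1 X f hf
  obtain ⟨n, c, z, hz, e⟩ := span (Gm (M * q) M) w Bool
    (fun b => cond b (E0 rU rV w) (E0 rU rV w * opZ rV w))
    (fun b => cond b (F0 rU rV w) (F0 rU rV w * opC rV w)) (by
      rintro (_ | _) u
      · show F0 rU rV w (opC rV w _) = _
        rw [FormH.opC_toC, F0_toC]
        rfl
      · exact F0_toC rU rV w u) _ (f2 _ hg) (by
      rintro (_ | _)
      · show F0 rU rV w (opC rV w _) ∈ _
        have m := sub_mem (P _ (hW f hf).1) (F0_B1 rU rV w (hW _ hg).2)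
        rwa [map_sub, ((t f hf).2.2.2 X).2, sub_sub_cancel] at m
      · exact P f hf)
  exact f6 Z _ hg n c z (fun b => hZ _ ⟨hz b true, hz b false⟩) e

end

end KeyN

open KeyN in
theorem keyn : KEYN := by
  intro M q _ hq hM γ hγ rU rV K hK B _ s hs β hβ ℓ₀ hu
  haveI := fg (dvd_mul_right M q)
  obtain ⟨c, hc, hcs⟩ := ex_c (Gm (M * q) M) (K.image (· - 1))
  obtain ⟨e, he, hl⟩ := lat (Gm (M * q) M) (Wd (M * q)) (K.image (· - 1))
    (fun w => (rW (dvd_mul_right M q) w).toRingHom.toAddMonoidHom) (A rU rV)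
  obtain ⟨a₀, e₁, ho, h2⟩ := Nat.exists_eq_two_pow_mul_odd
    (show e * ((q + 1) * c) ≠ 0 from mul_ne_zero he (mul_ne_zero q.succ_ne_zero hc))
  refine ⟨a₀ + s, fun n a hn ha Y hY X hX => ?_⟩
  obtain ⟨R, hR⟩ := hl n (((q + 1) * c) • (wT ℓ₀ ^ n * Y)) fun w hw u hu => by
    obtain ⟨i, hi, rfl⟩ := Finset.mem_image.1 hw
    have hi' : i - 1 + 1 ∈ K := by rwa [Nat.sub_add_cancel (hK i hi)]
    obtain ⟨v, hv⟩ := nil (M * q) M (dvd_mul_right M q) (i - 1) a n ha ℓ₀ _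
      (hY _ hi' (c • u) (by rw [← E0_apply, map_nsmul]; exact hcs _ hw _ hu.1)
        (by rw [← E0_apply, map_nsmul, map_nsmul]; exact hcs _ hw _ hu.2))
    refine ⟨v, BZ_le ?_⟩
    rw [smul_smul, map_nsmul, map_nsmul] at hv
    show rW _ _ (_ • (_ * _)) u - _ ∈ _
    rw [map_nsmul, map_mul]
    exact hv
  obtain ⟨m, rfl⟩ := Nat.exists_eq_add_of_le hn
  have hZ : Kil (M * q) (M * q) M K ((e₁ • (wT ℓ₀ ^ (a₀ + s + m) * Y) - 2 ^ (s + m) • R) * X) := by
    intro i hi f hf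
    obtain ⟨w, rfl⟩ := Nat.exists_eq_add_of_le' (hK i hi)
    have := kill rU rV w hq hM hγ (hX _ hi)
      (Z := 2 ^ a₀ • (e₁ • (wT ℓ₀ ^ (a₀ + s + m) * Y) - 2 ^ (s + m) • R)) (fun u hu => by
        have h := hR w (Finset.mem_image.2 ⟨w + 1, hi, rfl⟩) u hu
        rw [smul_sub, smul_smul, smul_smul, ← h2, ← pow_add, ← add_assoc, mul_smul, map_sub,
          map_nsmul, map_nsmul _ (2 ^ _)]
        exact h) f hf
    rw [map_nsmul, LinearMap.smul_apply, ← Nat.cast_smul_eq_nsmul ℂ] at this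
    rw [map_mul, Module.End.mul_apply]
    exact (smul_eq_zero.1 this).resolve_left (by exact_mod_cast pow_ne_zero _ two_ne_zero)
  have h := hβ _ hZ
  rw [map_mul, map_sub, map_nsmul, map_nsmul, map_mul, map_pow, nsmul_eq_mul, nsmul_eq_mul,
    Nat.cast_pow, pow_add _ s, Nat.cast_ofNat, hs, zero_mul, zero_mul, sub_zero, mul_assoc,
    mul_assoc] at h
  rw [mul_comm]
  exact (hu.pow _).mul_right_eq_zero.1 ((odd_unit hs ho).mul_right_eq_zero.1 h)

end Vale.Agent.P022D.G
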