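import Vale.Agent.P022D.G.New
import Vale.Agent.P022D.G.I1g
import Vale.Agent.P022D.G.Key0
import Vale.Agent.P022D.G.KeyN

/-! # P022 route D, block G: closed terms -/

set_option linter.all false

namespace Vale.Agent.P022D.G

theorem gal2 : GAL2 := gal2_of key0 igug

theorem i2 : I2 := i2_of key0 keyn

theorem sub0 : SUB := sub frob

theorem uniq0 : UNIQ := uniq frob

end Vale.Agent.P022D.G
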