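import Vale.Agent.P022D.G.Defs

/-! # P022 route D, block G: the abstract pseudo-character -/

set_option linter.all false

noncomputable section

namespace Vale.Agent.P022D.G

open Vale.Agent.P022

section

variable {G R : Type} [Group G] [Ring R]

/-- the trace of `ρ` with determinant `D` -/
def tV (ρ D : G →* R) (g : G) : R := ρ g + D g * ρ g⁻¹

theorem tV_mul (ρ D : G →* R) (h1 : ∀ g h, Commute (D g) (ρ h)) (h2 : ∀ g h, Commute (D g) (D h))
    (g h : G) (hc : Commute (tV ρ D h) (ρ g⁻¹)) :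
    tV ρ D g * tV ρ D h = tV ρ D (g * h) + D h * tV ρ D (g * h⁻¹) := by
  have e1 : tV ρ D g * tV ρ D h = ρ g * tV ρ D h + D g * (tV ρ D h * ρ g⁻¹) := by
    rw [hc.eq, ← mul_assoc, ← add_mul]; rfl
  have e2 : D h * D (g * h⁻¹) = D g := by
    rw [map_mul, ← mul_assoc, (h2 h g).eq, mul_assoc, ← map_mul, mul_inv_cancel, map_one, mul_one]
  have e3 : ρ g * (D h * ρ h⁻¹) = D h * (ρ g * ρ h⁻¹) := by
    rw [← mul_assoc, ← (h1 h g).eq, mul_assoc]
  rw [e1]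
  unfold tV
  rw [mul_add (D h), ← mul_assoc (D h) (D (g * h⁻¹)), e2, mul_inv_rev, mul_inv_rev, inv_inv,
    map_mul ρ g h, map_mul ρ h⁻¹ g⁻¹, map_mul ρ g h⁻¹, map_mul ρ h g⁻¹, map_mul D g h, mul_add,
    e3, add_mul, mul_add, mul_assoc (D h), mul_assoc (D g) (D h)]
  abel

theorem tV_comm (ρ D : G →* R) (h1 : ∀ g h, Commute (D g) (ρ h)) (h2 : ∀ g h, Commute (D g) (D h))
    (g h : G) (hc : Commute (tV ρ D (g * h)) (ρ h)) : tV ρ D (g * h) = tV ρ D (h * g) := by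
  have e1 : tV ρ D (g * h) = ρ h * tV ρ D (g * h) * ρ h⁻¹ := by
    rw [← hc.eq, mul_assoc, ← map_mul, mul_inv_cancel, map_one, mul_one]
  have e2 : D (g * h) = D (h * g) := by rw [map_mul, map_mul, (h2 g h).eq]
  rw [e1]
  unfold tV
  rw [mul_add, add_mul, ← mul_assoc (ρ h) (D (g * h)), ← (h1 (g * h) h).eq, mul_assoc (D (g * h)),
    mul_assoc (D (g * h)), ← map_mul, ← map_mul, ← map_mul, ← map_mul, e2,
    show h * (g * h) * h⁻¹ = h * g by group, show h * (g * h)⁻¹ * h⁻¹ = (h * g)⁻¹ by group]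

theorem tV_ker (ρ D : G →* R) (g u : G) (hu : u ∈ ρ.ker ⊓ D.ker) :
    tV ρ D (g * u) = tV ρ D g ∧ D (g * u) = D g := by
  have a : ρ u = 1 := hu.1
  have b : D u = 1 := hu.2
  have c : ρ u⁻¹ = 1 := (ρ.ker.inv_mem hu.1)
  have e : D (g * u) = D g := by rw [map_mul, b, mul_one]
  refine ⟨?_, e⟩
  unfold tV
  rw [e, mul_inv_rev, map_mul, map_mul, a, c, mul_one, one_mul]

theorem tV_pow {W : Type} [Ring W] (α : W →+* R) (ρ D : G →* R)
    (h1 : ∀ g h, Commute (D g) (ρ h)) (h2 : ∀ g h, Commute (D g) (D h))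
    (h3 : ∀ Q g, Commute (α Q) (ρ g)) (φ : G) (a b : W) (ha : α a = tV ρ D φ) (hb : α b = D φ)
    (k : ℕ) : (∃ P, α P = tV ρ D (φ ^ k)) ∧ ∃ P, α P = tV ρ D (φ ^ (k + 1)) := by
  induction k with
  | zero =>
    refine ⟨⟨2, ?_⟩, ⟨a, by rw [zero_add, pow_one, ha]⟩⟩
    unfold tV
    rw [pow_zero, inv_one, map_one, map_one, mul_one, map_ofNat, one_add_one_eq_two]
  | succ k ih =>
    obtain ⟨⟨P, hP⟩, ⟨Q, hQ⟩⟩ := ih
    refine ⟨⟨Q, hQ⟩, ⟨Q * a - b * P, ?_⟩⟩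
    have e := tV_mul ρ D h1 h2 (φ ^ (k + 1)) φ (by rw [← ha]; exact h3 _ _)
    rw [← pow_succ, pow_succ φ k, mul_inv_cancel_right, ← pow_succ] at e
    rw [map_sub, map_mul, map_mul, hP, hQ, ha, hb, e, add_sub_cancel_right]

end

theorem gala (HF : FROB) : GALA := by
  intro N R _ α ρ D hN c1 c2 c3 c4 c5 o1 o2 hI hF B _ β hβ
  have wd : ∀ P Q, α P = α Q → β P = β Q := fun P Q h => by
    have := hβ (P - Q) (by rw [map_sub, h, sub_self])
    rwa [map_sub, sub_eq_zero] at this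
  have hUn : (ρ.ker ⊓ D.ker).Normal := inferInstance
  have hUo : IsOpen ((ρ.ker ⊓ D.ker : Subgroup GQ) : Set GQ) := o1.inter o2
  have key : ∀ g, (∃ P, α P = tV ρ D g) ∧ ∃ Q, α Q = D g := by
    intro g
    obtain ⟨ℓ, φ, k, hp, hS, hφ, hu⟩ := HF _ hUn hUo g (2 * N).primeFactors
    have hl : ¬ ℓ ∣ 2 * N := fun h => hS (Nat.mem_primeFactors.2 ⟨hp, h, by omega⟩)
    obtain ⟨a, b⟩ := hF ⟨ℓ, hp, hl⟩ φ hφ
    have e := tV_ker ρ D g _ hu
    rw [mul_inv_cancel_left] at e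
    refine ⟨?_, ⟨wS ⟨ℓ, hp, hl⟩ ^ k, ?_⟩⟩
    · rw [← e.1]
      exact (tV_pow α ρ D c4 c5 c2 φ _ _ a b k).1
    · rw [map_pow, b, ← map_pow, e.2]
  choose P hP using fun g => (key g).1
  choose Q hQ using fun g => (key g).2
  let d0 : GQ →* B :=
    { toFun := fun g => β (Q g)
      map_one' := by rw [← map_one β]; exact wd _ _ (by rw [hQ, map_one, map_one])
      map_mul' := fun g h => by
        rw [← map_mul β]; exact wd _ _ (by rw [map_mul α, hQ, hQ, hQ, map_mul]) }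
  have hd : ∀ g, ((d0.toHomUnits g : Bˣ) : B) = β (Q g) := fun g => rfl
  refine ⟨fun g => β (P g), d0.toHomUnits, ⟨⟨?_, ?_, ?_⟩, ⟨ρ.ker ⊓ D.ker, hUn, hUo, ?_, ?_⟩, ?_, ?_⟩,
    fun g => ⟨P g, Q g, hP g, hQ g, rfl, rfl⟩⟩
  · have : β (P 1) = β 2 := wd _ _ (by
      rw [hP, map_ofNat]
      unfold tV
      rw [inv_one, map_one, map_one, mul_one, one_add_one_eq_two])
    rw [this, map_ofNat]
  · intro g h
    refine wd _ _ ?_
    rw [hP, hP]
    exact tV_comm ρ D c4 c5 g h (by rw [← hP]; exact c2 _ _)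
  · intro g h
    rw [hd, ← map_mul, ← map_mul, ← map_add]
    refine wd _ _ ?_
    rw [map_add, map_mul, map_mul, hP, hP, hP, hP, hQ]
    exact tV_mul ρ D c4 c5 g h (by rw [← hP]; exact c2 _ _)
  · intro ℓ g hg
    exact hI ℓ g hg
  · intro u hu
    refine ⟨Units.ext ?_, fun g => wd _ _ ?_⟩
    · rw [hd, Units.val_one, ← map_one β]
      exact wd _ _ (by rw [hQ, map_one]; exact hu.2)
    · rw [hP, hP]; exact (tV_ker ρ D g u hu).1
  · intro ℓ φ hφ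
    exact wd _ _ (by rw [hP, (hF ℓ φ hφ).1]; rfl)
  · intro ℓ φ hφ
    rw [hd]
    exact wd _ _ (by rw [hQ, (hF ℓ φ hφ).2])

end Vale.Agent.P022D.G
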