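import Vale.Agent.P022D.G.Res
import Vale.Agent.P022D.G.GalA
import Vale.Agent.P022D.G.Frob
import Vale.Agent.P027M.J.All

/-! # P022 route D, block G: words and the Galois group on the Kummer classes -/

set_option linter.all false

open scoped MatrixGroups
open CongruenceSubgroup

noncomputable section

namespace Vale.Agent.P022D.G

open Vale.Agent.P022 Vale.Agent.P022.H161.CLat Vale.Agent.P022.H161.COp
open Vale.Agent.P022.L3 (IsDel alp)
open Vale.Agent.P022.H527.L3 (rho rho_apply)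
open Vale.Agent.P022.H420.L3 (M2 coe_mul cast_iff det_alp word_gen)
open Vale.Agent.P019P P025H816 P025H492
open Vale.Agent.P027M.M (Mdl GH L Lv Act)
open Vale.Agent.P027M.TW (HA)
open Vale.Agent.P027M.Th (Kap)
open Vale.Agent.P022.H853 (cyc cyc_spec cyc_frob cyc_conj isOpen_cyc)

theorem comm_word {N : ℕ} {R : Type} [Ring R] (f : Wd N →+* R) (x : R)
    (h : ∀ s, Commute (f (FreeAlgebra.ι ℤ s)) x) (Q : Wd N) : Commute (f Q) x := by
  induction Q using FreeAlgebra.induction with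
  | grade0 m => rw [eq_intCast, map_intCast]; exact Int.cast_commute _ _
  | grade1 s => exact h s
  | mul a b ha hb => rw [map_mul]; exact ha.mul_left hb
  | add a b ha hb => rw [map_add]; exact ha.add_left hb

theorem pair {N M E : ℕ} (hE : E = N * 2 ^ M * 2 ^ M) {a : ℤ} {d : SL(2, ℤ)}
    (hd : H231.L3.IsDel 1 E a d) :
    ∃ δ : SL(2, ℤ), IsDel N M a δ ∧ δ 1 1 = d 1 1 ∧ (δ : M2) * Dd M = Dd M * (d : M2) := by
  subst hE
  obtain ⟨δ, e⟩ := cj_up (M := M) 1 d ((dr _ M).trans hd.1)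
  obtain ⟨-, b, c, k⟩ := cj_iff.1 e
  rw [Units.val_one, one_mul] at b c k
  refine ⟨δ, ⟨?_, (dvd_mul_right _ _).trans (dvd_of_eq b.symm), ?_⟩, k, by simpa using e⟩
  · refine Int.dvd_of_mul_dvd_mul_right (p2_ne M) ?_
    rw [← Nat.cast_mul]
    exact hd.1.trans (dvd_of_eq c.symm)
  · rw [k]
    exact (dl _ M).trans hd.2.2

theorem alp_cj {M l : ℕ} {δ d : SL(2, ℤ)} (e : (δ : M2) * Dd M = Dd M * (d : M2))
    (i : Option (Fin l)) : alp M l δ i * Dd M = Dd M * H231.L3.al 1 l d i := by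
  cases i with
  | some j =>
    ext a b
    fin_cases a <;> fin_cases b <;> simp [alp, H231.L3.al, Dd, Matrix.mul_apply, Fin.sum_univ_two]
  | none =>
    have c : (!![(l : ℤ), 0; 0, 1] : M2) * Dd M = Dd M * !![(l : ℤ), 0; 0, 1] := by
      ext a b
      fin_cases a <;> fin_cases b <;> simp [Dd, Matrix.mul_apply, Fin.sum_univ_two, mul_comm]
    rw [alp, H231.L3.al, mul_assoc, c, ← mul_assoc, e, mul_assoc]

theorem copE {N M E : ℕ} (hE : E = N * 2 ^ M * 2 ^ M) (ℓ : PA N) : Nat.Coprime ℓ.1 E := by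
  have := Nat.isCoprime_iff_coprime.1 (cop2 ℓ M).symm
  rw [hE]
  exact (ℓ.coprime.mul_right this).mul_right this

/-- a module with Hecke operators and a Galois action -/
structure Sy (E n : ℕ) (Y : Type) [AddCommGroup Y] where
  act : GQ →* AddMonoid.End Y
  T : ℕ → AddMonoid.End Y
  dia : (ZMod E)ˣ →* AddMonoid.End Y
  tor : ∀ a b : ℤ, (a : ZMod (2 ^ n)) = b → ∀ y : Y, a • y = b • y
  c1 : ∀ l l', Commute (T l) (T l')
  c2 : ∀ l a, Commute (T l) (dia a)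
  c3 : ∀ l g, Commute (T l) (act g)
  c4 : ∀ a g, Commute (dia a) (act g)
  neg : dia (-1) = 1
  opn : IsOpen {g : GQ | act g = 1}
  unr : ∀ l : ℕ, l.Prime → ¬ l ∣ E → ∀ g, Inert l g → act g = 1
  es : ∀ l : ℕ, l.Prime → ¬ l ∣ E → ∀ g, IsFrob l g → ∀ a : (ZMod E)ˣ, (a : ZMod E) = l →
    ∀ x, T l x = act g x + l • act g⁻¹ (dia a x)

section abs

variable {N M n E : ℕ} {Y : Type} [AddCommGroup Y] (A : Sy E n Y) (hE : E = N * 2 ^ M * 2 ^ M)

/-- words on the module, one twist for every exponent -/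
def aE : Wd N →+* (ℕ → AddMonoid.End Y) :=
  (FreeAlgebra.lift ℤ (Sum.elim (fun (ℓ : PA N) (e : ℕ) => ℓ.1 ^ e • A.T ℓ.1)
    fun (ℓ : PA N) (e : ℕ) =>
      ℓ.1 ^ (2 * e + 1) • A.dia (ZMod.unitOfCoprime ℓ.1 (copE hE ℓ)))).toRingHom

theorem aE_T (ℓ : PA N) (e : ℕ) : aE A hE (wT ℓ) e = ℓ.1 ^ e • A.T ℓ.1 :=
  congrFun (FreeAlgebra.lift_ι_apply _ _) e

theorem aE_S (ℓ : PA N) (e : ℕ) :
    aE A hE (wS ℓ) e = ℓ.1 ^ (2 * e + 1) • A.dia (ZMod.unitOfCoprime ℓ.1 (copE hE ℓ)) :=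
  congrFun (FreeAlgebra.lift_ι_apply _ _) e

include A in
theorem torE {a b : ℕ} (e : (a : ZMod (2 ^ n)) = b) (x : AddMonoid.End Y) : a • x = b • x := by
  refine AddMonoidHom.ext fun y => ?_
  change a • x y = b • x y
  rw [← natCast_zsmul, ← natCast_zsmul]
  exact A.tor _ _ (by rw [Int.cast_natCast, Int.cast_natCast, e]) _

variable [NeZero E]

/-- the cyclotomic character as a natural number -/
def kk (E : ℕ) [NeZero E] (g : GQ) : ℕ := (cyc E g : ZMod E).val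

theorem kk_cast {m : ℕ} (hd : m ∣ E) (g : GQ) :
    (kk E g : ZMod m) = ZMod.castHom hd (ZMod m) (cyc E g) := by
  rw [kk, ZMod.castHom_apply, ZMod.natCast_val]

theorem kk_cyc {m : ℕ} [NeZero m] (hd : m ∣ E) (g : GQ) : (kk E g : ZMod m) = cyc m g := by
  rw [kk, (ZMod.natCast_eq_natCast_iff _ _ _).2 (H853.cyc_mod E hd g), ZMod.natCast_zmod_val]

/-- twists by powers of the cyclotomic character -/
def tw (hd : 2 ^ n ∣ E) (f : GQ →* AddMonoid.End Y) (p : ℕ → ℕ) :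
    GQ →* (ℕ → AddMonoid.End Y) where
  toFun g e := kk E g ^ p e • f g
  map_one' := funext fun e => by
    rw [map_one, torE A (b := 1) (by rw [Nat.cast_pow, kk_cyc hd]; simp), one_smul]; rfl
  map_mul' g k := funext fun e => by
    rw [Pi.mul_apply, smul_mul_smul_comm, map_mul]
    exact torE A (by simp only [Nat.cast_pow, Nat.cast_mul, kk_cyc hd, map_mul, Units.val_mul,
      mul_pow]) _

theorem tw_one (hd : 2 ^ n ∣ E) (f : GQ →* AddMonoid.End Y) (p : ℕ → ℕ) {g : GQ}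
    (h1 : cyc (2 ^ n) g = 1) (e : ℕ) : tw A hd f p g e = f g :=
  (torE A (a := kk E g ^ p e) (b := 1) (by rw [Nat.cast_pow, kk_cyc hd, h1]; simp) _).trans
    (one_smul _ _)

theorem cyc_low {m : ℕ} [NeZero m] (hd : m ∣ E) {g : GQ} (h : cyc E g = 1) : cyc m g = 1 :=
  Units.ext (by rw [← kk_cyc hd, kk_cast hd, h, Units.val_one, map_one, Units.val_one])

theorem cyc_inert {m l : ℕ} [NeZero m] (hl : l.Prime) (hm : ¬ l ∣ m) {g : GQ} (hg : Inert l g) :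
    cyc m g = 1 := by
  obtain ⟨c, -, c2, -, -, c5⟩ := P027M.TW.cy.2 m (Nat.pos_of_ne_zero (NeZero.ne m))
  obtain ⟨P, a, b, i⟩ := hg
  rw [c2 g (cyc m g) fun ζ h => cyc_spec g h, (c5 l hl hm).2 P a b g i]

/-- the twisted Galois action -/
abbrev rE (hd : 2 ^ n ∣ E) := tw A hd A.act id

/-- the determinant -/
abbrev dE (hd : 2 ^ n ∣ E) := tw A hd (A.dia.comp (cyc E)) fun e => 2 * e + 1

/-- the trace in closed form -/
theorem tE (hd : 2 ^ n ∣ E) (g : GQ) {l : ℕ} (hl : (cyc (2 ^ n) g : ZMod (2 ^ n)) = l) (e : ℕ) :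
    (rE A hd g + dE A hd g * rE A hd g⁻¹) e =
      l ^ e • (A.act g + l • (A.dia (cyc E g) * A.act g⁻¹)) ∧
    dE A hd g e = l ^ (2 * e + 1) • A.dia (cyc E g) := by
  refine ⟨?_, torE A (a := kk E g ^ (2 * e + 1))
    (by rw [Nat.cast_pow, kk_cyc hd, hl, Nat.cast_pow]) _⟩
  change kk E g ^ e • A.act g +
    (kk E g ^ (2 * e + 1) • A.dia (cyc E g)) * (kk E g⁻¹ ^ e • A.act g⁻¹) = _
  rw [smul_mul_smul_comm]
  refine Eq.trans ?_ (nsmul_add _ _ _).symm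
  rw [← mul_nsmul']
  congr 1
  · exact torE A (by rw [Nat.cast_pow, kk_cyc hd, hl, Nat.cast_pow]) _
  · refine torE A ?_ _
    have e1 : (cyc (2 ^ n) g : ZMod (2 ^ n)) * cyc (2 ^ n) g⁻¹ = 1 := by
      rw [← Units.val_mul, ← map_mul, mul_inv_cancel, map_one, Units.val_one]
    simp only [Nat.cast_pow, Nat.cast_mul, kk_cyc hd, ← hl]
    calc _ = ((cyc (2 ^ n) g : ZMod (2 ^ n)) * cyc (2 ^ n) g⁻¹) ^ e *
          ((cyc (2 ^ n) g : ZMod (2 ^ n)) ^ e * cyc (2 ^ n) g) := by ring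
      _ = _ := by rw [e1, one_pow, one_mul]

theorem galL (hd : 2 ^ n ∣ E) {B : Type} [CommRing B] (β : Wd N →+* B)
    (hβ : ∀ Q, aE A hE Q = 0 → β Q = 0) :
    ∃ t d, PS0 N β t d ∧ ∀ g, ∃ P Q, aE A hE P = rE A hd g + dE A hd g * rE A hd g⁻¹ ∧
      aE A hE Q = dE A hd g ∧ t g = β P ∧ (d g : B) = β Q := by
  have c5 : ∀ a b, Commute (A.dia a) (A.dia b) := fun a b => (Commute.all a b).map A.dia
  have cm : ∀ {a b : AddMonoid.End Y} (_ : Commute a b) (m k : ℕ),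
      Commute (m • a) (k • b) := fun h m k => (h.smul_left m).smul_right k
  have op : ∀ (f : GQ →* AddMonoid.End Y) p, IsOpen {g : GQ | f g = 1} →
      IsOpen {g : GQ | tw A hd f p g = 1} :=
    fun f p hf => Subgroup.isOpen_mono (H₁ := f.ker ⊓ (cyc (2 ^ n)).ker) (H₂ := (tw A hd f p).ker)
      (fun g hg => funext fun e => (tw_one A hd f p hg.2 e).trans hg.1)
      (hf.inter (isOpen_cyc (2 ^ n)))
  have nd : ∀ ℓ : PA N, ¬ ℓ.1 ∣ E := fun ℓ => (Nat.Prime.coprime_iff_not_dvd ℓ.2.1).1 (copE hE ℓ)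
  refine gala frob N _ (aE A hE) _ _ (fun h0 => NeZero.ne E (by rw [hE, h0]; simp))
    (fun P Q => comm_word _ _ (fun s => (comm_word _ _ (fun s' => ?_) Q).symm) P)
    (fun Q g => comm_word _ _ ?_ Q) (fun Q g => comm_word _ _ ?_ Q)
    (fun g k => Commute.pi fun e => cm (A.c4 _ _) _ _)
    (fun g k => Commute.pi fun e => cm (c5 _ _) _ _)
    (op _ _ A.opn) (op _ _ ?_) (fun ℓ g hg => ?_) (fun ℓ φ hφ => ?_) B β hβ
  · refine Commute.pi fun e => ?_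
    rcases s with ℓ | ℓ <;> rcases s' with ℓ' | ℓ'
    · change Commute (aE A hE (wT ℓ') e) (aE A hE (wT ℓ) e)
      rw [aE_T, aE_T]; exact cm (A.c1 _ _) _ _
    · change Commute (aE A hE (wS ℓ') e) (aE A hE (wT ℓ) e)
      rw [aE_T, aE_S]; exact cm (A.c2 _ _).symm _ _
    · change Commute (aE A hE (wT ℓ') e) (aE A hE (wS ℓ) e)
      rw [aE_T, aE_S]; exact cm (A.c2 _ _) _ _
    · change Commute (aE A hE (wS ℓ') e) (aE A hE (wS ℓ) e)
      rw [aE_S, aE_S]; exact cm (c5 _ _) _ _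
  · rintro (ℓ | ℓ) <;> refine Commute.pi fun e => ?_
    · change Commute (aE A hE (wT ℓ) e) _
      rw [aE_T]; exact cm (A.c3 _ _) _ _
    · change Commute (aE A hE (wS ℓ) e) _
      rw [aE_S]; exact cm (A.c4 _ _) _ _
  · rintro (ℓ | ℓ) <;> refine Commute.pi fun e => ?_
    · change Commute (aE A hE (wT ℓ) e) _
      rw [aE_T]; exact cm (A.c2 _ _) _ _
    · change Commute (aE A hE (wS ℓ) e) _
      rw [aE_S]; exact cm (c5 _ _) _ _
  · exact Subgroup.isOpen_mono (H₁ := (cyc E).ker) (H₂ := (A.dia.comp (cyc E)).ker)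
      (fun g hg => by rw [MonoidHom.mem_ker, MonoidHom.comp_apply, hg, map_one]) (isOpen_cyc E)
  · have h1 : cyc E g = 1 := cyc_inert ℓ.2.1 (nd ℓ) hg
    exact ⟨funext fun e => (tw_one A hd _ _ (cyc_low hd h1) e).trans (A.unr ℓ.1 ℓ.2.1 (nd ℓ) g hg),
      funext fun e => (tw_one A hd _ _ (cyc_low hd h1) e).trans (by
        rw [MonoidHom.comp_apply, h1, map_one]; rfl)⟩
  · have h1 := cyc_frob ℓ.2.1 (nd ℓ) hφ
    have h2 : ZMod.unitOfCoprime ℓ.1 (copE hE ℓ) = cyc E φ := Units.ext h1.symm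
    have h3 := tE A hd φ (cyc_frob ℓ.2.1 (fun h => nd ℓ (h.trans hd)) hφ)
    refine ⟨funext fun e => ?_, funext fun e => by rw [aE_S, (h3 e).2, h2]⟩
    rw [aE_T, (h3 e).1, (A.c4 _ _).eq]
    congr 1
    exact AddMonoidHom.ext (A.es ℓ.1 ℓ.2.1 (nd ℓ) φ hφ _ h1)

theorem galP (hd : 2 ^ n ∣ E) {B : Type} [CommRing B] (β : Wd N →+* B)
    (hβ : ∀ Q, aE A hE Q = 0 → β Q = 0)
    (hI : ∀ M₀ q : ℕ, N = M₀ * q → q.Prime → ¬ q ∣ M₀ → ∀ σ, Inert q σ → ¬ q ∣ 2 ∧ ∀ y z,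
      z = A.act σ y - y → A.act σ z = A.dia (cyc E σ) z) : ∃ t d, PS N β t d := by
  obtain ⟨t, d, h0, h⟩ := galL A hE hd β hβ
  have eq : ∀ {P Q}, aE A hE P = aE A hE Q → β P = β Q := fun e =>
    sub_eq_zero.1 (by rw [← map_sub]; exact hβ _ (by rw [map_sub, e, sub_self]))
  refine ⟨t, d, h0, ⟨M + M, fun g hg => ?_⟩, fun c hc => ?_, fun M₀ q e hq hM σ hσ => ?_⟩
  · obtain ⟨P, Q, -, a, -, b⟩ := h g
    have h1 : cyc E g = 1 := by
      obtain ⟨c, -, c2, -⟩ := P027M.TW.cy.2 E (Nat.pos_of_ne_zero (NeZero.ne E))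
      refine (c2 g (cyc E g) fun ζ h => cyc_spec g h).trans
        ((c2 g (cyc E 1) fun ζ h => ?_).symm.trans (map_one _))
      rw [← cyc_spec 1 h]
      exact hg ζ (by rw [show 2 ^ (M + M) * N = E by rw [hE]; ring]; exact h)
    refine Units.ext (b.trans ((eq (Q := 1) ?_).trans (map_one β)))
    rw [a, map_one]
    exact funext fun e => (tw_one A hd _ _ (cyc_low hd h1) e).trans (by
      rw [MonoidHom.comp_apply, h1, map_one]; rfl)
  · obtain ⟨P, Q, -, a, -, b⟩ := h c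
    refine b.trans ((eq (Q := -1) ?_).trans (by rw [map_neg, map_one]))
    rw [a, map_neg, map_one]
    refine funext fun e => AddMonoidHom.ext fun y => ?_
    change kk E c ^ (2 * e + 1) • A.dia (cyc E c) y = -y
    rw [show cyc E c = -1 from Units.ext (cyc_conj hc), A.neg, ← natCast_zsmul, ← neg_one_zsmul]
    refine A.tor _ _ ?_ y
    rw [Int.cast_natCast, Nat.cast_pow, kk_cyc hd, cyc_conj hc, pow_succ, pow_mul]
    simp
  · obtain ⟨P, Q, a, a', b, b'⟩ := h σ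
    obtain ⟨h2, hi⟩ := hI M₀ q e hq hM σ hσ
    have h1 : cyc (2 ^ n) σ = 1 := cyc_inert hq (fun h => h2 (hq.dvd_of_dvd_pow h)) hσ
    have h3 := tE A hd σ (l := 1) (by rw [h1, Units.val_one, Nat.cast_one])
    rw [b, b', ← map_one β, ← map_add]
    refine eq (funext fun k => ?_)
    rw [a, map_add, map_one, a', (h3 k).1, Pi.add_apply, (h3 k).2, one_pow, one_pow, one_smul,
      one_smul, one_smul]
    refine AddMonoidHom.ext fun y => ?_
    have h4 : A.act σ (A.act σ⁻¹ y) = y := by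
      change (A.act σ * A.act σ⁻¹) y = y
      rw [← map_mul, mul_inv_cancel, map_one]; rfl
    have h5 := hi (A.act σ⁻¹ y) _ rfl
    rw [h4, map_sub, map_sub, h4] at h5
    change A.act σ y + A.dia (cyc E σ) (A.act σ⁻¹ y) = y + A.dia (cyc E σ) y
    rw [sub_eq_sub_iff_add_eq_add] at h5
    rw [h5, add_comm]

end abs

section lev

variable {X : Mdl} {N N₀ M n E : ℕ} {H : Subgroup (ZMod E)ˣ} [CFF Qb (L (GH E H))]
  (A : Act X E H (2 ^ n)) (hE : E = N * 2 ^ M * 2 ^ M)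
  {κ : Additive (HK Qb (L (GH E H)) (2 ^ n)) →+ (SL(2, ℤ) → ZMod (2 ^ n))}

/-- the Kummer classes as a module with operators -/
def sy (hκ : Kap (GH E H) (2 ^ n) κ) (hd : 2 ^ n ∣ E) (hL : Lv E) (hH : -1 ∈ H) :
    Sy E n (HA Qb (L (GH E H)) (2 ^ n)) where
  act := A.act
  T := A.T
  dia := A.dia
  tor _ _ e y := tor hκ e y
  c1 := ((P027M.J.j_min X).comm E H hL hH _ A).1
  c2 := ((P027M.J.j_min X).comm E H hL hH _ A).2.1
  c3 := ((P027M.J.j_min X).comm E H hL hH _ A).2.2.1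
  c4 := ((P027M.J.j_min X).comm E H hL hH _ A).2.2.2.1
  neg := ((P027M.J.j_min X).comm E H hL hH _ A).2.2.2.2 _ hH
  opn := (P027M.J.j_min X).opn E H hL hH _ A (by positivity)
  unr l hl h g hg := (P027M.J.j_min X).unr E H hL hH _ A l hl h (fun k => h (k.trans hd)) g hg
  es l hl h g hg a ha := (P027M.J.j_min X).es E H hL hH _ A l hl h (fun k => h (k.trans hd)) g hg a ha

theorem rs_congr (h : Lk N N₀ M (GH E H)) (hn : 2 * n ≤ M) (hκ : Kap (GH E H) (2 ^ n) κ) {w : ℕ}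
    (j : Fin (w + 1)) {u v : ZC (Gm N N₀) w} (e : u - v ∈ BZ _ w) :
    rs h hn hκ j u = rs h hn hκ j v :=
  sub_eq_zero.1 ((map_sub (rs h hn hκ j) u v).symm.trans (rs_BZ h hn hκ j e))

include hE in
theorem rs_T (h : Lk N N₀ M (GH E H)) (hn : 2 * n ≤ M) (hκ : Kap (GH E H) (2 ^ n) κ) {w : ℕ}
    (j : Fin (w + 1)) (ℓ : PA N) (u : ZC (Gm N N₀) w) :
    rs h hn hκ j (rW h.dvd w (wT ℓ) u) = ((ℓ.1 ^ (w - j) : ℕ) : ℤ) • A.T ℓ.1 (rs h hn hκ j u) := by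
  obtain ⟨d, hd⟩ := H231.L3.IsDel.exists 1 E ℓ.1 (by
    rw [one_mul]; exact Nat.isCoprime_iff_coprime.2 (copE hE ℓ))
  obtain ⟨δ, h1, -, h2⟩ := pair hE hd
  rw [rW_T, rs_congr h hn hκ j (opZ_equiv (repT h.dvd ℓ h1) _
    (equivT h.dvd ℓ h1 (dm_spec ℓ 0)) (equivT h.dvd ℓ (dm_spec ℓ 0) h1) u),
    rs_op h hn hκ X _ (fun i => (cls_alp h1 i).dg) (fun i => by rw [det_alp]; exact cop2 ℓ M)
      (alp_cj h2) (H231.L3.al_pos ℓ.2.1.pos d) (T := A.T ℓ.1)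
      (A.T_rep _ ℓ.2.1 ((Nat.Prime.coprime_iff_not_dvd ℓ.2.1).1 (copE hE ℓ)) d hd),
    one_pow, one_mul, Nat.cast_pow]
  rfl

theorem rs_S (h : Lk N N₀ M (GH E H)) (hn : 2 * n ≤ M) (hκ : Kap (GH E H) (2 ^ n) κ) {w : ℕ}
    (j : Fin (w + 1)) (ℓ : PA N) (u : ZC (Gm N N₀) w) :
    rs h hn hκ j (rW h.dvd w (wS ℓ) u) = ((ℓ.1 ^ (2 * (w - j) + 1) : ℕ) : ℤ) •
      A.dia (ZMod.unitOfCoprime ℓ.1 (copE hE ℓ)) (rs h hn hκ j u) := by
  obtain ⟨d, hd⟩ := H231.L3.IsDel.exists 1 E ℓ.1 (by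
    rw [one_mul]; exact Nat.isCoprime_iff_coprime.2 (copE hE ℓ))
  obtain ⟨δ, h1, -, h2⟩ := pair hE hd
  have hu : ((ZMod.unitOfCoprime ℓ.1 (copE hE ℓ) : (ZMod E)ˣ) : ZMod E) = ((d 1 1 : ℤ) : ZMod E) := by
    rw [(cast_iff E _ _).2 hd.2.2, ZMod.coe_unitOfCoprime, Int.cast_natCast]
  have e0 : rW h.dvd w (wS ℓ) u = ((ℓ.1 ^ (w + 1) : ℕ) : ℤ) • opZ (repD h.dvd (dm_spec ℓ 0)) w u := by
    rw [rW_S, natCast_zsmul]; rfl
  rw [e0]
  refine (map_zsmul (rs h hn hκ j) _ _).trans ?_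
  rw [rs_congr h hn hκ j (opZ_equiv (repD h.dvd h1) _
    (equivD h.dvd h1 (dm_spec ℓ 0)) (equivD h.dvd (dm_spec ℓ 0) h1) u),
    rs_op h hn hκ X _ (fun _ => (cls_del h1).dg) (fun _ => by
        rw [Matrix.SpecialLinearGroup.det_coe]; exact isCoprime_one_right)
      (β := fun _ => (d : M2)) (fun _ => h2) (fun _ => H227.det_SL_pos d) (T := A.dia _)
      ((A.dia_rep _ d hd.1 hu).congr fun x _ _ => by simp [Mdl.pg])]
  refine (mul_zsmul (α := HA Qb (L (GH E H)) (2 ^ n)) _ _ _).symm.trans (tor hκ ?_ _)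
  have e := (cast_iff (2 ^ n) _ _).2
    (((p2_dvd (show n ≤ M by omega)).trans (dr N M)).trans (del_cls h1))
  obtain ⟨k, hk⟩ := Nat.exists_eq_add_of_le (Nat.lt_succ_iff.1 j.2)
  have hk' : w - j = k := by omega
  rw [hk']
  push_cast at e ⊢
  calc _ = ((ℓ.1 : ZMod (2 ^ n)) * (δ 0 0 : ℤ)) ^ (j : ℕ) * (ℓ.1 : ZMod (2 ^ n)) ^ (2 * k + 1) := by
        rw [congrArg ((ℓ.1 : ZMod (2 ^ n)) ^ ·) (show w + 1 = j + k + 1 by omega)]
        ring
    _ = _ := by rw [e, one_pow, one_mul]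

theorem rs_W (h : Lk N N₀ M (GH E H)) (hn : 2 * n ≤ M) (hκ : Kap (GH E H) (2 ^ n) κ)
    (hd : 2 ^ n ∣ E) (hL : Lv E) (hH : -1 ∈ H) {w : ℕ}
    (j : Fin (w + 1)) (Q : Wd N) (u : ZC (Gm N N₀) w) :
    rs h hn hκ j (rW h.dvd w Q u) = aE (sy A hκ hd hL hH) hE Q (w - j) (rs h hn hκ j u) := by
  refine word_gen (A := ZC (Gm N N₀) w) (B := HA Qb (L (GH E H)) (2 ^ n)) (rs h hn hκ j)
    (rW h.dvd w).toRingHom
    ((Pi.evalRingHom _ (w - j)).comp (aE (sy A hκ hd hL hH) hE)) ?_ Q u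
  rintro (ℓ | ℓ) u
  · refine (rs_T A hE h hn hκ j ℓ u).trans ((natCast_zsmul _ _).trans ?_)
    exact (DFunLike.congr_fun (aE_T (sy A hκ hd hL hH) hE ℓ (w - j)) _).symm
  · refine (rs_S A hE h hn hκ j ℓ u).trans ((natCast_zsmul _ _).trans ?_)
    exact (DFunLike.congr_fun (aE_S (sy A hκ hd hL hH) hE ℓ (w - j)) _).symm

end lev

end Vale.Agent.P022D.G
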