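import Vale.Agent.P022D.I.I1f

/-! # P022 route D, block G: inertia at `q` for the group of the units `≡ ± 1` (statement) -/

set_option linter.all false

open scoped MatrixGroups IntermediateField

noncomputable section

namespace Vale.Agent.P022D.G

open NumberField Vale.Agent.P022 Vale.Agent.P019P P025H816 P025H492 Vale.Agent.P027M
  Vale.Agent.P027M.M Vale.Agent.P027M.TW

/-- the quadratic relation for inertia at `q`; `H` is the group of the units `≡ ± 1` modulo
`n q` (which is not split) -/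
def IGUg (X : Mdl) : Prop := ∀ (M q m n : ℕ) (H : Subgroup (ZMod (M * q))ˣ), Lv M →
  q.Prime → ¬ q ∣ M → ¬ q ∣ m → 8 ∣ n → n ∣ M →
  (∀ (u : (ZMod (M * q))ˣ) (x : ℤ), (x : ZMod (M * q)) = u →
    (u ∈ H ↔ ((n * q : ℕ) : ℤ) ∣ x - 1 ∨ ((n * q : ℕ) : ℤ) ∣ x + 1)) →
  ∀ [CFF Qb (L (GH (M * q) H))] (A : Act X (M * q) H m) (σ : GQ), IsInert q σ →
  ∀ s, IsCy (M * q) σ s → ∀ y z, z = A.act σ y - y → A.act σ z = A.dia s z

end Vale.Agent.P022D.G
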