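import Vale.Agent.P022D.G.Rows

/-! # P022 route D, block G: from the deep group to forms (statements) -/

set_option linter.all false

open scoped MatrixGroups ModularForm
open UpperHalfPlane CongruenceSubgroup

noncomputable section

namespace Vale.Agent.P022D.G

open Vale.Agent.P022 Vale.Agent.P022.H161.CLat Vale.Agent.P022.H161.COp Vale.Agent.P022.L3
open Vale.Agent.P022.H527.L3 hiding M2
open Vale.Agent.P022.H420.L3 (M2 Pw act)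

/-- a word which kills the restrictions of all cocycles to the deep group lies in the kernel -/
def KEY0 : Prop := ∀ (N N₀ : ℕ) [NeZero N] (hN : N₀ ∣ N) (K : Finset ℕ), (∀ i ∈ K, 1 ≤ i) →
  ∀ (B : Type) [CommRing B] (s : ℕ), (2 : B) ^ s = 0 → ∀ β : Wd N →+* B,
  (∀ Q, Kil N N N₀ K Q → β Q = 0) → ∀ ℓ₀ : PA N, IsUnit (β (wT ℓ₀)) →
  ∃ n₀ : ℕ, ∀ n M : ℕ, n₀ ≤ n → n ≤ M → ∀ Q : Wd N,
    (∀ w, w + 1 ∈ K → ∀ u : ZC (Gm N N₀) w, Van M n (rW hN w Q u)) → β Q = 0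

/-- `q ^ w` times the trace to level `M`, on cocycles of `Γ₀(q) ∩ Γ₁(M)` -/
def trZ {M q : ℕ} {γ : SL(2, ℤ)}
    (rU : Rep (rho (Gm (M * q) M)) fun j : Fin q => alp 0 q γ (some j))
    (rV : Rep (rho (Gm (M * q) M)) fun _ : Unit => alp 0 q γ none) (w : ℕ)
    (u : ZC (Gm (M * q) M) w) : ZC (Gm (M * q) M) w := q ^ w • u + opZ rU w (opZ rV w u)

/-- the same on the new part -/
def KEYN : Prop := ∀ (M q : ℕ) [NeZero (M * q)], q.Prime → ¬ q ∣ 2 * M → ∀ γ : SL(2, ℤ),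
  AL1 M q γ → ∀ (rU : Rep (rho (Gm (M * q) M)) fun j : Fin q => alp 0 q γ (some j))
  (rV : Rep (rho (Gm (M * q) M)) fun _ : Unit => alp 0 q γ none) (K : Finset ℕ),
  (∀ i ∈ K, 1 ≤ i) → ∀ (B : Type) [CommRing B] (s : ℕ), (2 : B) ^ s = 0 →
  ∀ β : Wd (M * q) →+* B, (∀ Q, Kil (M * q) (M * q) M K Q → β Q = 0) →
  ∀ ℓ₀ : PA (M * q), IsUnit (β (wT ℓ₀)) →
  ∃ n₀ : ℕ, ∀ n a : ℕ, n₀ ≤ n → n ≤ a → ∀ Y : Wd (M * q),
    (∀ w, w + 1 ∈ K → ∀ u : ZC (Gm (M * q) M) w, trZ rU rV w u ∈ BZ _ w →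
      trZ rU rV w (opZ rV w u) ∈ BZ _ w →
      Van a n (rW (dvd_mul_right M q) w Y ((q + 1) • u))) →
    ∀ X, Kil (M * q) M M K X → β X * β Y = 0

end Vale.Agent.P022D.G
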