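import Vale.Agent.P022D.G.Gal
import Vale.Agent.P022D.G.Rows2
import Vale.Agent.P022D.G.Rows3

/-! # P022 route D, block G: assembly of `GAL2` -/

set_option linter.all false

open scoped MatrixGroups
open CongruenceSubgroup

noncomputable section

namespace Vale.Agent.P022D.G

open Vale.Agent.P022 Vale.Agent.P022.H161.CLat Vale.Agent.P022.H161.COp
open Vale.Agent.P022.H527.L3 (det_eq)
open Vale.Agent.P022.H420.L3 (cast_iff)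
open Vale.Agent.P019P P025H816 P025H492
open Vale.Agent.P027M.M (Mdl GH L Lv Act)
open Vale.Agent.P027M.TW (HA)
open Vale.Agent.P027M.Th (Kap)
open Vale.Agent.P022.H853 (cyc cyc_spec)

/-- the units `≡ ± 1` modulo `m` -/
def Hp {E m : ℕ} (hd : m ∣ E) : Subgroup (ZMod E)ˣ :=
  (Units.map (Int.castRingHom (ZMod m) : ℤ →* ZMod m)).range.comap (ZMod.unitsMap hd)

theorem um_int {E m : ℕ} (hd : m ∣ E) {u : (ZMod E)ˣ} {x : ℤ} (hx : (x : ZMod E) = u) :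
    (x : ZMod m) = (ZMod.unitsMap hd u : (ZMod m)ˣ) := by
  rw [ZMod.unitsMap_val, ← hx, ZMod.cast_intCast hd]

theorem mem_Hp {E m : ℕ} (hd : m ∣ E) (u : (ZMod E)ˣ) (x : ℤ) (hx : (x : ZMod E) = u) :
    u ∈ Hp hd ↔ ∃ s : ℤˣ, (m : ℤ) ∣ s * x - 1 := by
  refine exists_congr fun s => ?_
  have hs : (s : ℤ) * s = 1 := by rw [← Units.val_mul, Int.units_mul_self, Units.val_one]
  rw [Units.ext_iff, ← um_int hd hx]
  refine (cast_iff m s x).trans ⟨fun ⟨k, h⟩ => ⟨-s * k, ?_⟩, fun ⟨k, h⟩ => ⟨-s * k, ?_⟩⟩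
  · linear_combination -(s : ℤ) * h + hs
  · linear_combination -(s : ℤ) * h + x * hs

theorem lk_of {N N₀ M E : ℕ} (hN : Odd N) (h0 : N₀ ∣ N) (hM : 3 ≤ M) (hE : E = N * 2 ^ M * 2 ^ M)
    {H : Subgroup (ZMod E)ˣ} (hH : ∀ (u : (ZMod E)ˣ) (x : ℤ), (x : ZMod E) = u →
      (u ∈ H ↔ ∃ s : ℤˣ, ((N₀ * 2 ^ M : ℕ) : ℤ) ∣ s * x - 1)) : Lk N N₀ M (GH E H) := by
  refine ⟨hN, h0, hM, fun g => ?_⟩
  rw [← hE]
  refine ⟨fun ⟨a, u, hu, e⟩ => ⟨a, (hH u _ e.symm).1 hu⟩, fun ⟨a, b⟩ => ?_⟩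
  have h5 : ((g 1 1 : ℤ) : ZMod E) * ((g 0 0 : ℤ) : ZMod E) = 1 := by
    have h6 := congrArg (Int.cast : ℤ → ZMod E) (det_eq g)
    push_cast at h6
    rw [(ZMod.intCast_zmod_eq_zero_iff_dvd _ _).2 a, mul_zero, sub_zero] at h6
    exact (mul_comm _ _).trans h6
  exact ⟨a, Units.mkOfMulEqOne _ _ h5, (hH _ (g 1 1) rfl).2 b, rfl⟩

theorem neg_mem {E m : ℕ} {H : Subgroup (ZMod E)ˣ} (hH : ∀ (u : (ZMod E)ˣ) (x : ℤ),
    (x : ZMod E) = u → (u ∈ H ↔ ∃ s : ℤˣ, (m : ℤ) ∣ s * x - 1)) : -1 ∈ H :=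
  (hH _ (-1) (by simp)).2 ⟨-1, by simp⟩

theorem lv_of {N M : ℕ} (hN : N ≠ 0) (hM : 2 ≤ M) : Lv (N * 2 ^ M * 2 ^ M) :=
  ⟨by positivity, (pow_dvd_pow 2 hM).mul_left _⟩

theorem ex_lev (X : Mdl) {E : ℕ} {H : Subgroup (ZMod E)ˣ} (hL : Lv E) (hH : -1 ∈ H) (n : ℕ) :
    ∃ (_ : CFF Qb (L (GH E H))) (_ : Act X E H (2 ^ n)), ∃ κ, Kap (GH E H) (2 ^ n) κ := by
  have hX := P027M.J.j_min X
  have m := I12.mid hX.grp hL hH
  haveI : CFF Qb (L (GH E H)) := hX.cffs _ m.hi (I12.fidx hX.grp hL hH)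
  obtain ⟨A⟩ := hX.act E H hL hH (2 ^ n)
  exact ⟨this, A, P027M.Th.kap0 E _ m _ (by positivity)⟩

theorem i1_of {X : Mdl} (hI : IGUg X) {E M q m n : ℕ} [NeZero E] (hE : E = M * q)
    {H : Subgroup (ZMod E)ˣ} [CFF Qb (L (GH E H))] (A : Act X E H m) (hL : Lv M) (hq : q.Prime)
    (h1 : ¬ q ∣ M) (h2 : ¬ q ∣ m) (h3 : 8 ∣ n) (h4 : n ∣ M)
    (hH : ∀ (u : (ZMod E)ˣ) (x : ℤ), (x : ZMod E) = u →
      (u ∈ H ↔ ∃ s : ℤˣ, ((n * q : ℕ) : ℤ) ∣ s * x - 1)) {σ : GQ} (hσ : Inert q σ) :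
    ∀ y z, z = A.act σ y - y → A.act σ z = A.dia (cyc E σ) z := by
  subst hE
  refine hI M q m n H hL hq h1 h2 h3 h4 (fun u x hx => (hH u x hx).trans ?_) A σ hσ _
    fun ζ h => cyc_spec σ h
  constructor
  · rintro ⟨s, h⟩
    rcases Int.units_eq_one_or s with rfl | rfl
    · exact Or.inl (by simpa using h)
    · exact Or.inr (by simpa [sub_eq_add_neg, add_comm] using h.neg_right)
  · rintro (h | h)
    · exact ⟨1, by simpa using h⟩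
    · exact ⟨-1, by simpa [sub_eq_add_neg, add_comm] using h.neg_right⟩

theorem gal2_of (hK : KEY0) (hI : ∀ X, IGUg X) : GAL2 := by
  intro N _ hN K hK1 B _ s hs β hβ ℓ₀ h0
  obtain ⟨X⟩ := P027M.M.mdl
  obtain ⟨n₀, hn₀⟩ := hK N N dvd_rfl K hK1 B s hs β
    (fun Q h => hβ Q fun i hi => LinearMap.ext fun f => h i hi f fun γ a b =>
      f.slash_action_eq' _ ⟨γ, ((mem_Gm' (dvd_refl N)).2 ⟨a, b⟩).2, rfl⟩) ℓ₀ h0
  obtain ⟨n, h1, h2⟩ : ∃ n, n₀ ≤ n ∧ 2 ≤ n := ⟨n₀ + 2, by omega, by omega⟩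
  obtain ⟨M, hM⟩ : ∃ M, M = 2 * n := ⟨_, rfl⟩
  have hL := lv_of (M := M) (NeZero.ne N) (by omega)
  haveI : NeZero (N * 2 ^ M * 2 ^ M) := ⟨hL.pos.ne'⟩
  have hH := mem_Hp (dvd_mul_right (N * 2 ^ M) (2 ^ M))
  obtain ⟨_, A, κ, hκ⟩ := ex_lev X hL (neg_mem hH) n
  have lk := lk_of hN dvd_rfl (by omega) rfl hH
  have hd : 2 ^ n ∣ N * 2 ^ M * 2 ^ M := (pow_dvd_pow 2 (by omega)).mul_left _
  refine galP (sy A hκ hd hL (neg_mem hH)) rfl hd β (fun Q hQ => hn₀ n M h1 (by omega) Q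
    fun w _ u => rs_van lk hM.ge hκ fun j => ?_) fun M₀ q e hq hM₀ σ hσ => ?_
  · rw [rs_W A rfl lk hM.ge hκ hd hL (neg_mem hH), hQ]
    rfl
  · have q2 : ¬ q ∣ 2 := fun h => by
      obtain rfl := (Nat.prime_dvd_prime_iff_eq hq Nat.prime_two).1 h
      exact (Nat.not_even_iff_odd.2 hN) (e ▸ even_two.mul_left M₀)
    have q3 : ∀ k, ¬ q ∣ 2 ^ k := fun k h => q2 (hq.dvd_of_dvd_pow h)
    refine ⟨q2, i1_of (hI X) (M := M₀ * 2 ^ M * 2 ^ M) (n := M₀ * 2 ^ M) (by rw [e]; ring) A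
      (lv_of (fun h => NeZero.ne N (by rw [e, h, zero_mul])) (by omega)) hq (fun h => ?_) (q3 n)
      ((pow_dvd_pow 2 (show 3 ≤ M by omega)).mul_left _) (dvd_mul_right _ _)
      (fun u x hx => ?_) hσ⟩
    · exact ((hq.dvd_mul.1 h).elim (fun h => (hq.dvd_mul.1 h).elim hM₀ (q3 M)) (q3 M))
    · rw [show M₀ * 2 ^ M * q = N * 2 ^ M by rw [e]; ring]
      exact hH u x hx

end Vale.Agent.P022D.G
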