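import Vale.Agent.P022D.G.KeyN

/-! # P022 route D, block G: the key lemma for the words which kill the new forms -/

set_option linter.all false

open scoped MatrixGroups ModularForm
open UpperHalfPlane CongruenceSubgroup

noncomputable section

namespace Vale.Agent.P022D.G

open Vale.Agent.P022 Vale.Agent.P022.H161.CLat Vale.Agent.P022.H161.COp Vale.Agent.P022.L3
open Vale.Agent.P022.H527.L3 hiding M2
open Vale.Agent.P022.H420.L3 (M2 Pw act)
open Vale.Agent.P022D.Trc (sz sz_eq)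

/-- `q ^ w` times the trace to level `M`, on functions: `q ^ w f + U_q W_q f` -/
def trF (q : ℕ) (γ : SL(2, ℤ)) (w : ℕ) (f : ℍ → ℂ) : ℍ → ℂ :=
  (q : ℂ) ^ w • f + ∑ j : Fin q, sz ((w + 1 + 1 : ℕ) : ℤ)
    (sz ((w + 1 + 1 : ℕ) : ℤ) f (alp 0 q γ none)) (alp 0 q γ (some j))

/-- new forms at `q` -/
def NewF (M q : ℕ) (γ : SL(2, ℤ)) (w : ℕ) (f : MF (M * q) (w + 1 + 1)) : Prop :=
  Inv (M * q) M f ∧ trF q γ w f = 0 ∧ trF q γ w (sz ((w + 1 + 1 : ℕ) : ℤ) f (alp 0 q γ none)) = 0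

/-- the word kills the new forms -/
def KilN (M q : ℕ) [NeZero (M * q)] (γ : SL(2, ℤ)) (K : Finset ℕ) (Q : Wd (M * q)) : Prop :=
  ∀ w, w + 1 ∈ K → ∀ f, NewF M q γ w f → sg (M * q) (w + 1) Q f = 0

/-- **I2N**: Frobenius at `q` on the new part -/
def I2N : Prop := ∀ (M q : ℕ) [NeZero (M * q)], Odd (M * q) → q.Prime → ¬ q ∣ M →
  ∀ γ : SL(2, ℤ), AL1 M q γ → ∀ K : Finset ℕ, (∀ i ∈ K, 1 ≤ i) →
  ∀ (B : Type) [CommRing B] (s : ℕ), (2 : B) ^ s = 0 → ∀ β : Wd (M * q) →+* B,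
  ∀ ℓ₀ : PA (M * q), IsUnit (β (wT ℓ₀)) → (∀ Q, KilN M q γ K Q → β Q = 0) →
  ∀ t d, PS0 (M * q) β t d → ∀ φ, IsFrob q φ → q * t φ ^ 2 = (q + 1) ^ 2 * (d φ : B)

namespace KeyN

variable {M q : ℕ} {γ : SL(2, ℤ)}
  (rU : Rep (rho (Gm (M * q) M)) fun j : Fin q => alp 0 q γ (some j))
  (rV : Rep (rho (Gm (M * q) M)) fun _ : Unit => alp 0 q γ none) (w : ℕ)

theorem kill2 [NeZero (M * q)] (hq : q.Prime) (hM : ¬ q ∣ 2 * M) (hγ : AL1 M q γ) {Z : Wd (M * q)}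
    (hZ : ∀ u ∈ A rU rV w, rW (dvd_mul_right M q) w Z u ∈ Bsat (AA _ w))
    (g : MF (M * q) (w + 1 + 1)) (hn : NewF M q γ w g) : sg (M * q) (w + 1) Z g = 0 := by
  haveI := fg (dvd_mul_right M q)
  obtain ⟨Φ, f1, f2, f3, -, f5, f6⟩ := form (M * q) M (dvd_mul_right M q) w
  obtain ⟨U, W, t⟩ := trc M q hq hM γ hγ w
  have hU := fun f hf => f5 _ _ rU (fun j => H227.det_alp_pos hq.pos γ (some j)) f (U f) hf
    (t f hf).1
  have hW := fun f hf => f5 _ _ rV (fun _ => H227.det_alp_pos hq.pos γ none) f (W f) hf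
    (by rw [Fintype.sum_unique]; exact (t f hf).2.1)
  have i0 : Inv (M * q) M (0 : MF (M * q) (w + 1 + 1)) := fun g _ _ => SlashAction.zero_slash _ _
  have z0 : Φ 0 = 0 := by
    have := f3 1 0 0 i0 i0
    rw [smul_zero, add_zero, one_smul] at this
    exact left_eq_add.1 this
  have cW : ∀ g, Inv (M * q) M g →
      (W g : ℍ → ℂ) = sz ((w + 1 + 1 : ℕ) : ℤ) g (alp 0 q γ none) := fun g hg => by
    rw [(t g hg).2.1, sz_eq]
  have P : ∀ g, Inv (M * q) M g → trF q γ w g = 0 →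
      F0 rU rV w (Φ g) ∈ B1 (actM ℂ (AA (Gm (M * q) M) w)) := by
    intro g hg h0
    have e : (q : ℂ) ^ w • g + U (W g) = 0 := by
      apply DFunLike.coe_injective
      show (((q : ℂ) ^ w • g + U (W g) : MF (M * q) (w + 1 + 1)) : ℍ → ℂ) = 0
      rw [FunLike.coe_add, FunLike.coe_smul, (t _ (hW g hg).1).1, cW g hg, ← h0, trF]
      simp only [sz_eq _ _ (H227.det_alp_pos hq.pos γ (some _))]
    have e2 := f3 ((q : ℂ) ^ w) g (U (W g)) hg (hU _ (hW g hg).1).1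
    rw [e, z0] at e2
    have m := add_mem (hU _ (hW g hg).1).2 (FormH.opC_B1 rU (hW g hg).2)
    rw [map_sub, sub_add_sub_cancel] at m
    rw [F0_apply, eq_neg_of_add_eq_zero_left e2.symm, neg_add_eq_sub, ← neg_sub]
    exact neg_mem m
  have hg := hn.1
  obtain ⟨n, c, z, hz, e⟩ := span (Gm (M * q) M) w Bool
    (fun b => cond b (E0 rU rV w) (E0 rU rV w * opZ rV w))
    (fun b => cond b (F0 rU rV w) (F0 rU rV w * opC rV w)) (by
      rintro (_ | _) u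
      · show F0 rU rV w (opC rV w _) = _
        rw [FormH.opC_toC, F0_toC]
        rfl
      · exact F0_toC rU rV w u) _ (f2 _ hg) (by
      rintro (_ | _)
      · show F0 rU rV w (opC rV w _) ∈ _
        have m := sub_mem (P _ (hW g hg).1 (by rw [cW g hg]; exact hn.2.2))
          (F0_B1 rU rV w (hW _ hg).2)
        rwa [map_sub, sub_sub_cancel] at m
      · exact P g hg hn.2.1)
  exact f6 Z _ hg n c z (fun b => hZ _ ⟨hz b true, hz b false⟩) e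

end KeyN

open KeyN in
/-- `KEYN` for a system which factors through the new forms -/
theorem keyn2 (M q : ℕ) [NeZero (M * q)] (hq : q.Prime) (hM : ¬ q ∣ 2 * M) (γ : SL(2, ℤ))
    (hγ : AL1 M q γ) (rU : Rep (rho (Gm (M * q) M)) fun j : Fin q => alp 0 q γ (some j))
    (rV : Rep (rho (Gm (M * q) M)) fun _ : Unit => alp 0 q γ none) (K : Finset ℕ)
    (hK : ∀ i ∈ K, 1 ≤ i) (B : Type) [CommRing B] (s : ℕ) (hs : (2 : B) ^ s = 0)
    (β : Wd (M * q) →+* B) (hβ : ∀ Q, KilN M q γ K Q → β Q = 0) (ℓ₀ : PA (M * q))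
    (hu : IsUnit (β (wT ℓ₀))) : ∃ n₀ : ℕ, ∀ n a : ℕ, n₀ ≤ n → n ≤ a → ∀ Y : Wd (M * q),
    (∀ w, w + 1 ∈ K → ∀ u : ZC (Gm (M * q) M) w, trZ rU rV w u ∈ BZ _ w →
      trZ rU rV w (opZ rV w u) ∈ BZ _ w →
      Van a n (rW (dvd_mul_right M q) w Y ((q + 1) • u))) → β Y = 0 := by
  haveI := fg (dvd_mul_right M q)
  obtain ⟨c, hc, hcs⟩ := ex_c (Gm (M * q) M) (K.image (· - 1))
  obtain ⟨e, he, hl⟩ := lat (Gm (M * q) M) (Wd (M * q)) (K.image (· - 1))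
    (fun w => (rW (dvd_mul_right M q) w).toRingHom.toAddMonoidHom) (A rU rV)
  obtain ⟨a₀, e₁, ho, h2⟩ := Nat.exists_eq_two_pow_mul_odd
    (show e * ((q + 1) * c) ≠ 0 from mul_ne_zero he (mul_ne_zero q.succ_ne_zero hc))
  refine ⟨a₀ + s, fun n a hn ha Y hY => ?_⟩
  obtain ⟨R, hR⟩ := hl n (((q + 1) * c) • (wT ℓ₀ ^ n * Y)) fun w hw u hu => by
    obtain ⟨i, hi, rfl⟩ := Finset.mem_image.1 hw
    have hi' : i - 1 + 1 ∈ K := by rwa [Nat.sub_add_cancel (hK i hi)]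
    obtain ⟨v, hv⟩ := nil (M * q) M (dvd_mul_right M q) (i - 1) a n ha ℓ₀ _
      (hY _ hi' (c • u) (by rw [← E0_apply, map_nsmul]; exact hcs _ hw _ hu.1)
        (by rw [← E0_apply, map_nsmul, map_nsmul]; exact hcs _ hw _ hu.2))
    refine ⟨v, BZ_le ?_⟩
    rw [smul_smul, map_nsmul, map_nsmul] at hv
    show rW _ _ (_ • (_ * _)) u - _ ∈ _
    rw [map_nsmul, map_mul]
    exact hv
  obtain ⟨m, rfl⟩ := Nat.exists_eq_add_of_le hn
  have hZ : KilN M q γ K (e₁ • (wT ℓ₀ ^ (a₀ + s + m) * Y) - 2 ^ (s + m) • R) := by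
    intro w hi f hf
    have := kill2 rU rV w hq hM hγ
      (Z := 2 ^ a₀ • (e₁ • (wT ℓ₀ ^ (a₀ + s + m) * Y) - 2 ^ (s + m) • R)) (fun u hu => by
        have h := hR w (Finset.mem_image.2 ⟨w + 1, hi, rfl⟩) u hu
        rw [smul_sub, smul_smul, smul_smul, ← h2, ← pow_add, ← add_assoc, mul_smul, map_sub,
          map_nsmul, map_nsmul _ (2 ^ _)]
        exact h) f hf
    rw [map_nsmul, LinearMap.smul_apply, ← Nat.cast_smul_eq_nsmul ℂ] at this
    exact (smul_eq_zero.1 this).resolve_left (by exact_mod_cast pow_ne_zero _ two_ne_zero)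
  have h := hβ _ hZ
  rw [map_sub, map_nsmul, map_nsmul, map_mul, map_pow, nsmul_eq_mul, nsmul_eq_mul,
    Nat.cast_pow, pow_add _ s, Nat.cast_ofNat, hs, zero_mul, zero_mul, sub_zero] at h
  exact (hu.pow _).mul_right_eq_zero.1 ((odd_unit hs ho).mul_right_eq_zero.1 h)

end Vale.Agent.P022D.G
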