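import Vale.Agent.P022D.G.Rows

/-! # P022 route D, block G: the representatives of `U_q` and `W_q` -/

set_option linter.all false

open scoped MatrixGroups ModularForm
open UpperHalfPlane CongruenceSubgroup

noncomputable section

namespace Vale.Agent.P022D.G

open Vale.Agent.P022 Vale.Agent.P022.H161.CLat Vale.Agent.P022.H161.COp Vale.Agent.P022.L3
open Vale.Agent.P022.H527.L3 hiding M2
open Vale.Agent.P022.H420.L3 (M2 Pw act det_alp)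

namespace RepUA

theorem alp_some (a q : ℕ) (γ : SL(2, ℤ)) (j : Fin q) :
    alp a q γ (some j) = !![1, 2 ^ a * (j : ℤ); 0, q] := by
  rw [alp]; push_cast; rfl

theorem copTwo {M q : ℕ} (hq : q.Prime) (h : ¬ q ∣ 2 * M) (a : ℕ) : IsCoprime (q : ℤ) (2 ^ a) := by
  have h2 : ¬ q ∣ 2 := fun k => h (k.mul_right _)
  have := Nat.isCoprime_iff_coprime.2 ((Nat.Prime.coprime_iff_not_dvd hq).2 h2)
  exact IsCoprime.pow_right (by simpa using this)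

theorem keyU {M q : ℕ} (hq : q.Prime) (h : ¬ q ∣ 2 * M) (a : ℕ) (γ : SL(2, ℤ)) (x y c d : ℤ)
    (hd : x * d - y * c = 1) (hx : IsCoprime (q : ℤ) x) (hc : (M : ℤ) ∣ c)
    (h1 : (M : ℤ) ∣ d - 1) : ∃ (j : Fin q) (δ : Gm (M * q) M),
      !![x, y; q * c, q * d] = rho _ δ * alp a q γ (some j) := by
  obtain ⟨u, v, huv⟩ := (copTwo hq h a).mul_right hx
  have q0 : (0 : ℤ) < q := by exact_mod_cast hq.pos
  have j0 := Int.emod_nonneg (v * y) q0.ne'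
  have j1 := Int.emod_lt_of_pos (v * y) q0
  have j2 := Int.emod_add_mul_ediv (v * y) q
  obtain ⟨j, hj⟩ := Int.eq_ofNat_of_zero_le j0
  rw [hj] at j1 j2
  set e : ℤ := u * y + 2 ^ a * x * (v * y / q) with he
  have hy : y = x * (2 ^ a * j) + e * q := by
    rw [he]; linear_combination (-y) * huv - 2 ^ a * x * j2
  refine ⟨⟨j, by exact_mod_cast j1⟩, ⟨⟨!![x, e; q * c, d - 2 ^ a * j * c], by
    rw [Matrix.det_fin_two_of]; linear_combination hd + c * hy⟩,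
    (mem_Gm' (dvd_mul_right M q)).2 ⟨?_, ?_⟩⟩, ?_⟩
  · obtain ⟨k, hk⟩ := hc
    exact ⟨k, by show (q : ℤ) * c = _; rw [hk]; push_cast; ring⟩
  · show (M : ℤ) ∣ d - 2 ^ a * j * c - 1
    have : d - 2 ^ a * j * c - 1 = d - 1 - 2 ^ a * j * c := by ring
    rw [this]
    exact dvd_sub h1 (hc.mul_left _)
  · rw [alp_some, rho_apply]
    show _ = !![x, e; q * c, d - 2 ^ a * j * c] * _
    rw [Matrix.mul_fin_two]
    ext i k
    fin_cases i <;> fin_cases k <;> simp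
    · exact hy
    · ring

theorem keyW {M q : ℕ} (a a' : ℕ) {γ γ' : SL(2, ℤ)} (h : AL1 M q γ) (h' : AL1 M q γ')
    (x y c d : ℤ) (hd : x * d - y * (q * c) = 1) (hc : (M : ℤ) ∣ c) (h1 : (M : ℤ) ∣ d - 1) :
    ∃ δ : Gm (M * q) M,
      alp a' q γ' none * !![x, y; q * c, d] = rho _ δ * alp a q γ none := by
  have g := det_eq γ
  have g' := det_eq γ'
  refine ⟨⟨⟨!![(γ' 0 0 * x + γ' 0 1 * c) * γ 1 1 - (γ' 0 0 * q * y + γ' 0 1 * d) * γ 1 0,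
      -((γ' 0 0 * x + γ' 0 1 * c) * γ 0 1) + (γ' 0 0 * q * y + γ' 0 1 * d) * γ 0 0;
      (γ' 1 0 * x + γ' 1 1 * c) * γ 1 1 - (γ' 1 0 * q * y + γ' 1 1 * d) * γ 1 0,
      -((γ' 1 0 * x + γ' 1 1 * c) * γ 0 1) + (γ' 1 0 * q * y + γ' 1 1 * d) * γ 0 0], by
    rw [Matrix.det_fin_two_of]
    linear_combination (γ' 0 0 * γ' 1 1 - γ' 0 1 * γ' 1 0) * (x * d - y * (q * c)) * g +
      (x * d - y * (q * c)) * g' + hd⟩, (mem_Gm' (dvd_mul_right M q)).2 ⟨?_, ?_⟩⟩, ?_⟩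
  · show ((M * q : ℕ) : ℤ) ∣
      (γ' 1 0 * x + γ' 1 1 * c) * γ 1 1 - (γ' 1 0 * q * y + γ' 1 1 * d) * γ 1 0
    push_cast
    refine dvd_sub (mul_dvd_mul (dvd_add (h'.c.mul_right _) (hc.mul_left _)) h.q) ?_
    rw [mul_comm (M : ℤ)]
    exact mul_dvd_mul (dvd_add ((dvd_mul_left _ _).mul_right _) (h'.q.mul_right _)) h.c
  · show (M : ℤ) ∣
      -((γ' 1 0 * x + γ' 1 1 * c) * γ 0 1) + (γ' 1 0 * q * y + γ' 1 1 * d) * γ 0 0 - 1
    obtain ⟨k1, e1⟩ := h.c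
    obtain ⟨k2, e2⟩ := h.d
    obtain ⟨k3, e3⟩ := h'.c
    obtain ⟨k4, e4⟩ := h'.d
    obtain ⟨k5, e5⟩ := hc
    obtain ⟨k6, e6⟩ := h1
    exact ⟨-((k3 * x + γ' 1 1 * k5) * γ 0 1) + k3 * q * y * γ 0 0 + k4 * d * γ 0 0 +
      k6 * γ 0 0 - k2 * γ 0 0 + γ 0 1 * k1, by
      linear_combination (-x * γ 0 1 + q * y * γ 0 0) * e3 - γ' 1 1 * γ 0 1 * e5 +
        d * γ 0 0 * e4 + γ 0 0 * e6 - γ 0 0 * e2 + γ 0 1 * e1 + g⟩
  · show _ = !![(γ' 0 0 * x + γ' 0 1 * c) * γ 1 1 - (γ' 0 0 * q * y + γ' 0 1 * d) * γ 1 0,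
      -((γ' 0 0 * x + γ' 0 1 * c) * γ 0 1) + (γ' 0 0 * q * y + γ' 0 1 * d) * γ 0 0;
      (γ' 1 0 * x + γ' 1 1 * c) * γ 1 1 - (γ' 1 0 * q * y + γ' 1 1 * d) * γ 1 0,
      -((γ' 1 0 * x + γ' 1 1 * c) * γ 0 1) + (γ' 1 0 * q * y + γ' 1 1 * d) * γ 0 0] *
        alp a q γ none
    rw [alp_none a' q γ', alp_none a q γ, Matrix.mul_fin_two, Matrix.mul_fin_two]
    ext i k
    fin_cases i <;> fin_cases k <;> simp
    · linear_combination (-(γ' 0 0 * x + γ' 0 1 * c) * q) * g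
    · linear_combination (-(γ' 0 0 * q * y + γ' 0 1 * d)) * g
    · linear_combination (-(γ' 1 0 * x + γ' 1 1 * c) * q) * g
    · linear_combination (-(γ' 1 0 * q * y + γ' 1 1 * d)) * g

theorem eta (ξ : SL(2, ℤ)) : (ξ : M2) = !![ξ 0 0, ξ 0 1; ξ 1 0, ξ 1 1] := Matrix.eta_fin_two _

end RepUA

open RepUA

theorem repu : REPU := by
  intro M q hq h a γ hγ
  have q0 : ((q : ℕ) : ℤ) ≠ 0 := by exact_mod_cast hq.pos.ne'
  have hm := fun ξ : Gm (M * q) M => (mem_Gm' (dvd_mul_right M q)).1 ξ.2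
  refine ⟨⟨fun i ξ => ?_, fun i j ξ ξ' e => ?_⟩, ⟨fun i ξ => ?_, fun i j ξ ξ' e => ?_⟩,
    fun a' γ' hγ' => ⟨fun k => ?_, ?_⟩⟩
  · obtain ⟨⟨k, hk⟩, h2⟩ := hm ξ
    have g := det_eq ξ.1
    push_cast at hk
    obtain ⟨j, δ, e⟩ := keyU hq h a γ (ξ.1 0 0 + 2 ^ a * i * ξ.1 1 0)
      (ξ.1 0 1 + 2 ^ a * i * ξ.1 1 1) (ξ.1 1 0) (ξ.1 1 1) (by linear_combination g)
      ⟨-((ξ.1 0 1 + 2 ^ a * i * ξ.1 1 1) * (M * k)), ξ.1 1 1, by
        linear_combination g + (ξ.1 0 1 + 2 ^ a * i * ξ.1 1 1) * hk⟩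
      ⟨q * k, by rw [hk]; ring⟩ h2
    refine ⟨j, δ, Eq.trans ?_ e⟩
    rw [alp_some, rho_apply, eta ξ.1, Matrix.mul_fin_two]
    simp
  · have hij : i = j := by
      obtain ⟨⟨k, hk⟩, h2⟩ := hm ξ
      have g := det_eq ξ.1
      push_cast at hk
      simp only [alp_some, rho_apply] at e
      have e0 := congrFun (congrFun e 0) 0
      have e1 := congrFun (congrFun e 0) 1
      simp [Matrix.mul_apply, Fin.sum_univ_two] at e0 e1
      have c1 : IsCoprime (q : ℤ) (ξ.1 0 0) :=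
        ⟨-(ξ.1 0 1 * (M * k)), ξ.1 1 1, by linear_combination g + ξ.1 0 1 * hk⟩
      have c2 : (q : ℤ) ∣ ((i : ℤ) - j) * (2 ^ a * ξ.1 0 0) :=
        ⟨ξ'.1 0 1 - ξ.1 0 1, by linear_combination e1 - 2 ^ a * (j : ℤ) * e0⟩
      have c3 := ((copTwo hq h a).mul_right c1).dvd_of_dvd_mul_right c2
      have c4 := Int.eq_zero_of_abs_lt_dvd c3 (by
        have := i.2
        have := j.2
        rw [abs_lt]; constructor <;> omega)
      exact Fin.ext (by omega)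
    subst hij
    exact ⟨rfl, Subtype.ext (Subtype.ext (cancel_right (by rw [det_alp]; exact q0) e))⟩
  · obtain ⟨⟨k, hk⟩, h2⟩ := hm ξ
    have g := det_eq ξ.1
    push_cast at hk
    have hk' : ξ.1 1 0 = q * (M * k) := by rw [hk]; ring
    obtain ⟨δ, e⟩ := keyW a a hγ hγ (ξ.1 0 0) (ξ.1 0 1) (M * k) (ξ.1 1 1) (by rw [← hk']; exact g)
      (dvd_mul_right _ _) h2
    refine ⟨(), δ, Eq.trans ?_ e⟩
    rw [rho_apply, ← hk', ← eta ξ.1]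
  · exact ⟨rfl, Subtype.ext (Subtype.ext (cancel_right (by rw [det_alp]; exact q0) e))⟩
  · obtain ⟨j, δ, e⟩ := keyU hq h a γ 1 (2 ^ a' * k) 0 1 (by ring) isCoprime_one_right
      (dvd_zero _) (by simp)
    refine ⟨j, δ, Eq.trans ?_ e⟩
    rw [alp_some]
    simp
  · obtain ⟨δ, e⟩ := keyW a a' hγ hγ' 1 0 0 1 (by ring) (dvd_zero _) (by simp)
    refine ⟨δ, Eq.trans ?_ e⟩
    rw [mul_zero, ← Matrix.one_fin_two, mul_one]

end Vale.Agent.P022D.G
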