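import Vale.Agent.P022D.G.Gal2
import Vale.Agent.P022D.G.Sub
import Vale.Agent.P022D.G.RepU

/-! # P022 route D, block G: Frobenius at `q` on the new part -/

set_option linter.all false

open scoped MatrixGroups
open CongruenceSubgroup

noncomputable section

namespace Vale.Agent.P022D.G

open Vale.Agent.P022 Vale.Agent.P022.H161.CLat Vale.Agent.P022.H161.COp
open Vale.Agent.P022.L3 (IsDel alp)
open Vale.Agent.P022.H527.L3 (rho)
open Vale.Agent.P022.H420.L3 (M2 cast_iff det_alp)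
open Vale.Agent.P019P P025H816 P025H492
open Vale.Agent.P027M.M (Mdl GH L Lv Act up FF)
open Vale.Agent.P027M.TW (HA)
open Vale.Agent.P027M.Th (Kap)
open Vale.Agent.P022.H853 (cyc cyc_frob)

theorem new_abs {Z Y Y₀ : Type} [AddCommGroup Z] [AddCommGroup Y] [AddCommGroup Y₀] (r : Z →+ Y)
    (U V : Z → Z) (T W : Y →+ Y) (io : Y₀ →+ Y) (nm : Y →+ Y₀) {q w j : ℕ} (hj : j ≤ w)
    (hU : ∀ u, r (U u) = ((1 : ℤ) ^ j * (q : ℤ) ^ (w - j)) • T (r u))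
    (hV : ∀ u, r (V u) = ((q : ℤ) ^ j * (1 : ℤ) ^ (w - j)) • W (r u))
    (h1 : ∀ y, io (nm y) = y + T (W y)) (h2 : ∀ x, nm (io x) = (q + 1) • x)
    (hq : ∀ (k : ℕ) (y : Y), q ^ k • y = 0 → y = 0) (u : Z) (a : r (q ^ w • u + U (V u)) = 0)
    (b : r (q ^ w • V u + U (V (V u))) = 0) :
    nm (r ((q + 1) • u)) = 0 ∧ nm (W (r ((q + 1) • u))) = 0 := by
  obtain ⟨k, rfl⟩ := Nat.exists_eq_add_of_le hj
  simp only [Nat.add_sub_cancel_left, one_pow, one_mul, mul_one, ← Nat.cast_pow, natCast_zsmul]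
    at hU hV
  have key : ∀ u, r (q ^ (j + k) • u + U (V u)) = q ^ (j + k) • io (nm (r u)) := fun u => by
    rw [map_add, map_nsmul, hU, hV, map_nsmul, h1, smul_smul, smul_add, ← pow_add, add_comm k]
  have k2 : ∀ y, io (nm y) = 0 → (q + 1) • nm y = 0 := fun y h => by rw [← h2, h, map_zero]
  rw [key] at a b
  rw [hV, map_nsmul, map_nsmul] at b
  exact ⟨by rw [map_nsmul, map_nsmul]; exact k2 _ (hq _ _ a),
    by rw [map_nsmul, map_nsmul, map_nsmul]; exact k2 _ (hq _ _ (hq _ _ b))⟩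

theorem frob_abs {Y : Type} [AddCommGroup Y] (a b D : AddMonoid.End Y) (ab : a * b = 1)
    (ba : b * a = 1) (Da : Commute D a) (Db : Commute D b) (q e : ℕ) (y : Y)
    (h : ∀ z, z = a (a y) - D y → a (a z) = q ^ 2 • D z) :
    (q • (q ^ e • (a + q • (D * b))) ^ 2 - (q + 1) ^ 2 • (q ^ (2 * e + 1) • D)) y = 0 := by
  have h1 : ∀ x, a (b x) = x := DFunLike.congr_fun ab
  have h2 : ∀ x, b (a x) = x := DFunLike.congr_fun ba
  have h3 : ∀ x, a (D x) = D (a x) := DFunLike.congr_fun Da.symm.eq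
  have h4 : ∀ x, b (D x) = D (b x) := DFunLike.congr_fun Db.symm.eq
  have h5 := congrArg (fun x => b (b x)) (h _ rfl)
  simp only [map_nsmul, map_sub, h2, h4] at h5
  rw [pow_two]
  change q • (q ^ e • (a (q ^ e • (a y + q • D (b y))) + q • D (b (q ^ e • (a y + q • D (b y)))))) -
    (q + 1) ^ 2 • q ^ (2 * e + 1) • D y = 0
  simp only [map_nsmul, map_add, h1, h2, h3, h4]
  linear_combination (norm := module) q ^ (2 * e + 1) • h5

theorem rep_add {Γ Γ' : Subgroup SL(2, ℤ)} [CFF Qb (L Γ)] [CFF Qb (L Γ')] {m : ℕ} {φ ψ : FF → FF}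
    {f g k : HA Qb (L Γ) m →+ HA Qb (L Γ') m} (hf : P027M.M.Rep φ f) (hg : P027M.M.Rep ψ g)
    (hk : P027M.M.Rep (fun x => φ x * ψ x) k) (y : HA Qb (L Γ) m) : k y = f y + g y := by
  obtain ⟨x, hx, rfl⟩ := P027M.TW.cl_surj y
  obtain ⟨y, hy, h1, h2⟩ := hf x hx
  obtain ⟨z, hz, h3, h4⟩ := hg x hx
  obtain ⟨v, hv, h5, h6⟩ := hk x hx
  obtain rfl : v = y * z := Units.ext (Subtype.ext (h5.trans (congrArg₂ (· * ·) h1 h3).symm))
  rw [h2, h4, h6]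
  rfl

theorem odd_inj {E n : ℕ} {Y : Type} [AddCommGroup Y] (A : Sy E n Y) {q : ℕ}
    (hq : IsCoprime ((2 ^ n : ℕ) : ℤ) q) (k : ℕ) (y : Y) (h : q ^ k • y = 0) : y = 0 := by
  obtain ⟨s, t, e⟩ := hq.pow_right (n := k)
  rw [← one_zsmul y, A.tor 1 (t * (q ^ k : ℕ)) ((cast_iff _ _ _).2 ⟨s, by
    rw [Nat.cast_pow q]; linear_combination -e⟩), mul_zsmul, natCast_zsmul, h, zsmul_zero]

theorem i2_of (hK : KEY0) (hN : KEYN) : I2 := by
  intro N _ hN2 K hK1 B _ s hs β ℓ₀ h0 M q e hq hM hβ t d hP Xw hXw φ hφ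
  subst e
  obtain ⟨X⟩ := P027M.M.mdl
  have hX := P027M.J.j_min X
  have q2 : ¬ q ∣ 2 := fun h => by
    obtain rfl := (Nat.prime_dvd_prime_iff_eq hq Nat.prime_two).1 h
    exact (Nat.not_even_iff_odd.2 hN2) (even_two.mul_left M)
  have q3 : ∀ k, ¬ q ∣ 2 ^ k := fun k h => q2 (hq.dvd_of_dvd_pow h)
  have q4 : ¬ q ∣ 2 * M := fun h => (hq.dvd_mul.1 h).elim q2 hM
  have cq : ∀ k, IsCoprime ((2 ^ k : ℕ) : ℤ) q := fun k =>
    Nat.isCoprime_iff_coprime.2 (hq.coprime_iff_not_dvd.2 (q3 k)).symm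
  have M0 : M ≠ 0 := fun h => hM (h ▸ dvd_zero q)
  obtain ⟨γ₀, g1, g2⟩ := P027M.J.exists_AL (M := M) (q := q)
    (Nat.isCoprime_iff_coprime.2 (hq.coprime_iff_not_dvd.2 hM).symm)
  have g0 : AL1 M q γ₀ := ⟨g1.c, g2, g1.d⟩
  obtain ⟨rU, rV, eq0⟩ := repu M q hq q4 0 γ₀ g0
  obtain ⟨n₀, hn₀⟩ := hK _ M (dvd_mul_right M q) K hK1 B s hs β hβ ℓ₀ h0
  obtain ⟨n₁, hn₁⟩ := hN M q hq q4 γ₀ g0 rU rV K hK1 B s hs β hβ ℓ₀ h0
  obtain ⟨n, h1, h1', h2⟩ : ∃ n, n₀ ≤ n ∧ n₁ ≤ n ∧ 2 ≤ n :=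
    ⟨n₀ + n₁ + 2, by omega, by omega, by omega⟩
  obtain ⟨a, ha⟩ : ∃ a, a = 2 * n := ⟨_, rfl⟩
  obtain ⟨E, hE0⟩ : ∃ E, E = M * 2 ^ a * 2 ^ a := ⟨_, rfl⟩
  have hL0 : Lv E := hE0 ▸ lv_of M0 (by omega)
  have hL := I12.lv_mul hL0 hq.pos
  have qE : ¬ q ∣ E := fun h => by
    rw [hE0] at h
    exact (hq.dvd_mul.1 h).elim (fun h => (hq.dvd_mul.1 h).elim hM (q3 a)) (q3 a)
  have cE : IsCoprime (E : ℤ) q := Nat.isCoprime_iff_coprime.2 (hq.coprime_iff_not_dvd.2 qE).symm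
  haveI : NeZero (E * q) := ⟨hL.pos.ne'⟩
  haveI : NeZero E := ⟨hL0.pos.ne'⟩
  have hE : E * q = M * q * 2 ^ a * 2 ^ a := by rw [hE0]; ring
  have d0 : M * 2 ^ a ∣ E := hE0 ▸ dvd_mul_right _ _
  have hH0 := mem_Hp d0
  have hH : ∀ (u : (ZMod (E * q))ˣ) (x : ℤ), (x : ZMod (E * q)) = u →
      (u ∈ up (Hp d0) q ↔ ∃ s : ℤˣ, ((M * 2 ^ a : ℕ) : ℤ) ∣ s * x - 1) := fun u x hx =>
    hH0 _ x (um_int (dvd_mul_right E q) hx)
  obtain ⟨_, A₀, -⟩ := ex_lev X hL0 (neg_mem hH0) n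
  obtain ⟨_, A, κ, hκ⟩ := ex_lev X hL (neg_mem hH) n
  have lk := lk_of hN2 (dvd_mul_right M q) (by omega) hE hH
  have hd : 2 ^ n ∣ E * q := hE ▸ (pow_dvd_pow 2 (by omega)).mul_left _
  have rW' := fun w j => rs_W (w := w) A hE lk ha.ge hκ hd hL (neg_mem hH) j
  obtain ⟨t', d', hP', hg⟩ := galL (sy A hκ hd hL (neg_mem hH)) hE hd β fun Q hQ =>
    hn₀ n a h1 (by omega) Q fun w _ u => rs_van lk ha.ge hκ fun j => by rw [rW', hQ]; rfl
  obtain ⟨rfl, rfl⟩ := uniq frob _ B β β t t' d d' (NeZero.ne _) hP hP' ∅ fun _ _ => ⟨rfl, rfl⟩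
  obtain ⟨P, Q, p1, p2, p3, p4⟩ := hg φ
  -- the operators on Kummer classes
  obtain ⟨g, a1, a2⟩ := P027M.J.exists_AL cE
  obtain ⟨γ, c1, c2, c3⟩ := pair (a := 1) (d := g) hE0 ⟨a1.c, one_dvd _, a2⟩
  have c0 : AL1 M q γ := ⟨(dl M a).trans c1.1, (dl M a).trans c1.2.2, c2 ▸ a1.d⟩
  obtain ⟨sU, sV, eq1⟩ := repu M q hq q4 a γ c0
  obtain ⟨dd, hdd⟩ := P027M.TW.In.ex_al hq qE
  have le := P027M.J.up_le (q := q) (Hp d0)
  obtain ⟨io, nm, i0, n0, -, -, -, -, n3, n4⟩ := hX.lev E (E * q) (dvd_mul_right E q) _ _ hL0 hL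
    (neg_mem hH0) (neg_mem hH) le _ A₀ A
  rw [P027M.J.relIndex_up hq cE] at n4
  obtain ⟨-, W, w1, -, -, -, w3⟩ := hX.alk E q hq _ hL0 (neg_mem hH0) qE dd hdd _ A
  obtain ⟨δ, e1, e2⟩ := P027M.J.Wq_change X hq.pos cE (P027M.J.AL.of_isAL hdd) a1
  obtain ⟨-, v, -, hv⟩ : δ ∈ GH (E * q) ⊤ := ⟨e1, by
    obtain ⟨x, hx⟩ := e1
    exact ⟨Units.mkOfMulEqOne ((δ 1 1 : ℤ) : ZMod (E * q)) ((δ 0 0 : ℤ) : ZMod (E * q)) (by
      rw [← Int.cast_mul]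
      exact ((cast_iff _ _ 1).2 ⟨δ 0 1 * x, by
        linear_combination H527.L3.det_eq δ + δ 0 1 * hx⟩).trans Int.cast_one), trivial, rfl⟩⟩
  have w4 : P027M.M.Rep (P027M.J.Wq X hq.pos g) ((W : _ →+ _).comp (A.dia v)) :=
    (P027M.M.Rep.comp w1 (A.dia_rep v δ e1 hv)).congr fun x _ _ => (e2 x).symm
  have n5 : P027M.M.Rep (fun x => x * X.U hq.pos (P027M.J.Wq X hq.pos g x)) nm :=
    (P027M.M.rep_iff fun x => P027M.J.norm_up X hX.grp (P027M.M.x_normf X) hq cE hL0 (neg_mem hH0)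
      le a1 (P027M.J.mem_GH_one _ a1.c a2) x).2 n0
  have n6 := rep_add P027M.M.rep_id ((A.U_rep q hq (dvd_mul_left q E)).comp w4) (i0.comp n5)
  have key := hn₁ n a h1' (by omega) (q • P ^ 2 - (q + 1) ^ 2 • Q) (fun w _ u b1 b2 =>
    rs_van lk ha.ge hκ fun j => ?_) Xw hXw
  · rw [map_sub, map_nsmul, map_nsmul, map_pow, ← p3, ← p4, nsmul_eq_mul, nsmul_eq_mul] at key
    simpa using key
  obtain ⟨y1, y2⟩ := new_abs (Y := HA Qb (L (GH (E * q) (up (Hp d0) q))) (2 ^ n))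
    (Y₀ := HA Qb (L (GH E (Hp d0))) (2 ^ n)) (rs lk ha.ge hκ j) (opZ rU w) (opZ rV w) (A.T q)
    ((W : _ →+ _).comp (A.dia v)) io nm (Nat.lt_succ_iff.1 j.2)
    (fun u => (rs_congr lk ha.ge hκ j (opZ_equiv sU rU (eq1 0 γ₀ g0).1 (eq0 a γ c0).1 u)).trans
      (rs_op lk ha.ge hκ X sU (fun i => by constructor <;> simp [alp])
        (fun i => by rw [det_alp]; exact cq a) (β := fun i => H231.L3.al 1 q 1 (some i))
        (fun i => alp_cj (δ := 1) (d := 1) (by simp) (some i))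
        (fun i => H231.L3.al_pos hq.pos 1 (some i)) (A.U_rep q hq (dvd_mul_left q E)) j u))
    (fun u => (rs_congr lk ha.ge hκ j (opZ_equiv sV rV (fun _ => ⟨(), (eq1 0 γ₀ g0).2⟩)
        (fun _ => ⟨(), (eq0 a γ c0).2⟩) u)).trans
      (rs_op lk ha.ge hκ X sV (fun _ => by
          have c4 := (cls_del c1).dg
          have c5 := (dr M a).trans (del_cls c1)
          rw [alp_none]
          exact ⟨c4.h10.mul_right _, c4.h01, by
            show _ ∣ γ 0 0 * q - q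
            rw [← sub_one_mul, ← one_mul (γ 0 0)]
            exact c5.mul_right _, c4.h11⟩)
        (fun _ => by rw [det_alp]; exact cq a) (β := fun _ => H231.L3.al 1 q g none)
        (fun _ => alp_cj c3 none) (fun _ => H231.L3.al_pos hq.pos g none)
        (w4.congr fun x _ _ => by simp [P027M.J.Wq]) j u))
    n6 n4 (odd_inj (sy A hκ hd hL (neg_mem hH)) (cq n)) u
    (rs_BZ lk ha.ge hκ j b1) (rs_BZ lk ha.ge hκ j b2)
  have y3 : nm (W (rs lk ha.ge hκ j ((q + 1) • u))) = 0 := by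
    have y4 := (congrArg nm (DFunLike.congr_fun (w3 v).eq _)).symm.trans y2
    have y5 := (n3 v _).symm.trans y4
    have y6 := congrArg (A₀.dia (ZMod.unitsMap (dvd_mul_right E q) v)⁻¹) y5
    have y7 := DFunLike.congr_fun ((map_mul A₀.dia _ _).symm.trans
      ((congrArg A₀.dia (inv_mul_cancel (ZMod.unitsMap (dvd_mul_right E q) v))).trans
        (map_one A₀.dia))) (nm (W (rs lk ha.ge hκ j ((q + 1) • u))))
    exact y7.symm.trans (y6.trans (map_zero _))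
  have h3 := tE (sy A hκ hd hL (neg_mem hH)) hd φ (cyc_frob hq (q3 n) hφ) (w - j)
  rw [rW', map_sub, map_nsmul, map_nsmul, map_pow, p1, p2, Pi.sub_apply, Pi.smul_apply,
    Pi.smul_apply, Pi.pow_apply, h3.1, h3.2]
  refine frob_abs _ _ _ (by rw [← map_mul, mul_inv_cancel, map_one])
    (by rw [← map_mul, inv_mul_cancel, map_one]) (Sy.c4 _ _ _) (Sy.c4 _ _ _) q _ _
    (I12.i2m X E q _ hq _ hL0 (neg_mem hH0) qE (q3 n) dd hdd le A nm W n0 w1 φ hφ _ ?_ _ y1 y3)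
  rw [ZMod.unitsMap_val, ← ZMod.castHom_apply (h := dvd_mul_right E q), ← kk_cast, kk_cyc
    (dvd_mul_right E q), cyc_frob hq qE hφ]

end Vale.Agent.P022D.G
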