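import Vale.Agent.P022D.G.Rows
import Vale.Agent.P027M.Th.All

/-! # P022 route D, block G: the coefficients of a cocycle as Kummer classes -/

set_option linter.all false

open scoped MatrixGroups
open CongruenceSubgroup

noncomputable section

namespace Vale.Agent.P022D.G

open Vale.Agent.P022 Vale.Agent.P022.H161.CLat Vale.Agent.P022.H161.COp
open Vale.Agent.P022.H527.L3 (rho rho_apply cancel_right det_eq)
open Vale.Agent.P022.H420.L3 (M2 Pw act act_one act_diag act_one_mod coe_mul cast_iff)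
open Vale.Agent.P019P P025H816 P025H492
open Vale.Agent.P027M.M (Mdl GH L Lv Act)
open Vale.Agent.P027M.TW (HA)
open Vale.Agent.P027M.Th (Kap Par pT)

/-- `diag(2 ^ M, 1)` -/
def Dd (M : ℕ) : M2 := !![((2 ^ M : ℕ) : ℤ), 0; 0, 1]

theorem p2_ne (M : ℕ) : ((2 ^ M : ℕ) : ℤ) ≠ 0 := by positivity

theorem cj_iff {M : ℕ} {s : ℤ} {A B : M2} : A * Dd M = s • (Dd M * B) ↔
    A 0 0 = s * B 0 0 ∧ A 0 1 = s * ((2 ^ M : ℕ) * B 0 1) ∧ A 1 0 * (2 ^ M : ℕ) = s * B 1 0 ∧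
      A 1 1 = s * B 1 1 := by
  have h := p2_ne M
  generalize hp : ((2 ^ M : ℕ) : ℤ) = p at h
  rw [← Matrix.ext_iff]
  simp only [Dd, hp, Fin.forall_fin_two, Matrix.mul_apply, Fin.sum_univ_two, Matrix.smul_apply,
    smul_eq_mul, Matrix.of_apply, Matrix.cons_val', Matrix.cons_val_zero, Matrix.cons_val_one,
    Matrix.cons_val_fin_one, mul_zero, add_zero, zero_add, mul_one, zero_mul, one_mul]
  constructor
  · rintro ⟨⟨a, b⟩, c, d⟩
    exact ⟨mul_right_cancel₀ h (by linear_combination a), b, c, d⟩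
  · rintro ⟨a, b, c, d⟩
    exact ⟨⟨by linear_combination p * a, b⟩, c, d⟩

theorem Dd_cancel {M : ℕ} {A B : M2} (h : Dd M * A = Dd M * B) : A = B := by
  have h0 := p2_ne M
  have e := fun i j => congrFun (congrFun h i) j
  simp only [Dd, Matrix.mul_apply, Fin.sum_univ_two] at e
  ext i j
  fin_cases i
  · exact mul_left_cancel₀ h0 (by simpa using e 0 j)
  · simpa using e 1 j

theorem cj_up {M : ℕ} (s : ℤˣ) (g : SL(2, ℤ)) (h : ((2 ^ M : ℕ) : ℤ) ∣ g 1 0) :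
    ∃ γ : SL(2, ℤ), (γ : M2) * Dd M = (s : ℤ) • (Dd M * (g : M2)) := by
  obtain ⟨c, hc⟩ := h
  have hs : (s : ℤ) * s = 1 := by rw [← Units.val_mul, Int.units_mul_self, Units.val_one]
  refine ⟨⟨!![s * g 0 0, s * ((2 ^ M : ℕ) * g 0 1); s * c, s * g 1 1], ?_⟩,
    cj_iff.2 ⟨rfl, rfl, ?_, rfl⟩⟩
  · rw [Matrix.det_fin_two_of]
    linear_combination (s : ℤ) * s * det_eq g + hs + (s : ℤ) * s * g 0 1 * hc
  · show (s : ℤ) * c * _ = s * g 1 0
    rw [hc]; ring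

theorem cj_dn {M : ℕ} (s : ℤˣ) (γ : SL(2, ℤ)) (h : ((2 ^ M : ℕ) : ℤ) ∣ γ 0 1) :
    ∃ g : SL(2, ℤ), (γ : M2) * Dd M = (s : ℤ) • (Dd M * (g : M2)) := by
  obtain ⟨c, hc⟩ := h
  have hs : (s : ℤ) * s = 1 := by rw [← Units.val_mul, Int.units_mul_self, Units.val_one]
  refine ⟨⟨!![s * γ 0 0, s * c; s * (γ 1 0 * (2 ^ M : ℕ)), s * γ 1 1], ?_⟩,
    cj_iff.2 ⟨?_, ?_, ?_, ?_⟩⟩
  · rw [Matrix.det_fin_two_of]
    linear_combination (s : ℤ) * s * det_eq γ + hs + (s : ℤ) * s * γ 1 0 * hc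
  · show γ 0 0 = s * (s * γ 0 0)
    linear_combination -γ 0 0 * hs
  · show γ 0 1 = s * (_ * (s * c))
    linear_combination hc - (2 ^ M : ℕ) * c * hs
  · show γ 1 0 * _ = s * (s * (γ 1 0 * _))
    linear_combination -(γ 1 0 * (2 ^ M : ℕ)) * hs
  · show γ 1 1 = s * (s * γ 1 1)
    linear_combination -γ 1 1 * hs

/-- `γ ≡ 1` modulo `2 ^ M` is conjugate to `± g` -/
def Rl {Γ : Subgroup SL(2, ℤ)} (M : ℕ) (γ : Γ) (g : SL(2, ℤ)) : Prop :=
  Dg M 1 1 (rho Γ γ) ∧ ∃ s : ℤˣ, rho Γ γ * Dd M = (s : ℤ) • (Dd M * (g : M2))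

theorem not_dvd4 {M : ℕ} (h : 3 ≤ M) : ¬ ((2 ^ M : ℕ) : ℤ) ∣ 4 := fun d => by
  have h1 : ((2 ^ 3 : ℕ) : ℤ) ∣ 4 := (Int.natCast_dvd_natCast.2 (pow_dvd_pow 2 h)).trans d
  norm_num at h1

section rl

variable {Γ : Subgroup SL(2, ℤ)} {M : ℕ} {γ δ : Γ} {g k : SL(2, ℤ)}

theorem Rl.uniq (hM : 3 ≤ M) (h : Rl M γ g) (h' : Rl M δ g) : γ = δ := by
  obtain ⟨c, s, e⟩ := h
  obtain ⟨c', s', e'⟩ := h'
  have hss : s = s' := by
    have a := (cj_iff.1 e).2.2.2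
    have b := (cj_iff.1 e').2.2.2
    have c1 := c.h11
    have c2 := c'.h11
    rw [a] at c1
    rw [b] at c2
    by_contra hne
    apply not_dvd4 hM
    rcases Int.units_eq_one_or s with rfl | rfl <;> rcases Int.units_eq_one_or s' with rfl | rfl
    · exact absurd rfl hne
    · obtain ⟨x, hx⟩ := dvd_add c1 c2
      simp only [Units.val_neg, Units.val_one] at hx
      exact ⟨-2 * x, by linear_combination -2 * hx⟩
    · obtain ⟨x, hx⟩ := dvd_add c1 c2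
      simp only [Units.val_neg, Units.val_one] at hx
      exact ⟨-2 * x, by linear_combination -2 * hx⟩
    · exact absurd rfl hne
  subst hss
  exact Subtype.ext (Subtype.ext (cancel_right (Z := Dd M)
    (by rw [Dd, Matrix.det_fin_two_of]; simp) (e.trans e'.symm)))

theorem Rl.mul (h : Rl M γ g) (h' : Rl M δ k) : Rl M (γ * δ) (g * k) := by
  obtain ⟨c, s, e⟩ := h
  obtain ⟨c', s', e'⟩ := h'
  refine ⟨by rw [map_mul]; exact c.mul_one c' dvd_rfl, s * s', ?_⟩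
  rw [map_mul, mul_assoc, e', Matrix.mul_smul, ← mul_assoc, e, Matrix.smul_mul, smul_smul,
    coe_mul, mul_assoc, Units.val_mul, mul_comm (s : ℤ)]

theorem dg_one (M : ℕ) : Dg M 1 1 (1 : M2) := by constructor <;> simp

theorem rl_neg : Rl M (1 : Γ) (-1) := ⟨by rw [map_one]; exact dg_one M, -1, by
  rw [map_one]; simp⟩

end rl

section cf

variable {Γ : Subgroup SL(2, ℤ)} {w M n : ℕ}

/-- the coefficient of index `j` modulo `2 ^ n` -/
def ev (n : ℕ) (u : ZC Γ w) (j : Fin (w + 1)) (γ : Γ) : ZMod (2 ^ n) :=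
  (((u : Γ → Fin (w + 1) → ℤ) γ j : ℤ) : ZMod (2 ^ n))

theorem p2_dvd (h : n ≤ M) : ((2 ^ n : ℕ) : ℤ) ∣ ((2 ^ M : ℕ) : ℤ) :=
  Int.natCast_dvd_natCast.2 (pow_dvd_pow 2 h)

theorem ev_mul (hn : n ≤ M) (u : ZC Γ w) (j : Fin (w + 1)) (γ : Γ) {δ : Γ}
    (h : Dg M 1 1 (rho Γ δ)) : ev n u j (γ * δ) = ev n u j γ + ev n u j δ := by
  have d := p2_dvd hn
  rw [ev, coc, Pi.add_apply, Int.cast_add,
    act_one_mod w _ _ (d.trans h.h01) (d.trans h.h10) (d.trans h.h00) (d.trans h.h11)]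
  rfl

theorem ev_one (u : ZC Γ w) (j : Fin (w + 1)) : ev n u j 1 = 0 := by
  have := ev_mul (le_refl n) u j 1 (δ := 1) (by rw [map_one]; exact dg_one n)
  rw [mul_one] at this
  simpa using this

theorem ev_pow (u : ZC Γ w) (j : Fin (w + 1)) {δ : Γ} (h : Dg n 1 1 (rho Γ δ)) (k : ℕ) :
    ev n u j (δ ^ k) = k * ev n u j δ := by
  induction k with
  | zero => rw [pow_zero, ev_one, Nat.cast_zero, zero_mul]
  | succ k ih => rw [pow_succ, ev_mul le_rfl u j _ h, ih, Nat.cast_succ, add_mul, one_mul]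

open Classical in
/-- the same on the conjugate group -/
def cf (M n : ℕ) (u : ZC Γ w) (j : Fin (w + 1)) (g : SL(2, ℤ)) : ZMod (2 ^ n) :=
  if h : ∃ γ : Γ, Rl M γ g then ev n u j h.choose else 0

theorem cf_eq (hM : 3 ≤ M) (u : ZC Γ w) (j : Fin (w + 1)) {γ : Γ} {g : SL(2, ℤ)} (h : Rl M γ g) :
    cf M n u j g = ev n u j γ := by
  have h' : ∃ γ : Γ, Rl M γ g := ⟨γ, h⟩
  rw [cf, dif_pos h', h'.choose_spec.uniq hM h]

end cf

/-- unipotent matrices -/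
def un (a b c : ℤ) (h : a * a + b * c = 0) (t : ℤ) : SL(2, ℤ) :=
  ⟨!![1 + t * a, t * b; t * c, 1 - t * a], by
    rw [Matrix.det_fin_two_of]; linear_combination -(t * t) * h⟩

theorem un_pow (a b c : ℤ) (h : a * a + b * c = 0) (t : ℤ) (k : ℕ) :
    un a b c h t ^ k = un a b c h (k * t) := by
  induction k with
  | zero =>
    rw [pow_zero]
    ext i j
    fin_cases i <;> fin_cases j <;> simp [un]
  | succ k ih =>
    rw [pow_succ, ih]
    ext i j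
    rw [coe_mul]
    fin_cases i <;> fin_cases j <;> simp [un, Matrix.mul_apply, Fin.sum_univ_two]
    · linear_combination (k * t * t) * h
    · ring
    · ring
    · linear_combination (k * t * t) * h

theorem tr_pT (g : SL(2, ℤ)) (h : ℤ) : pT g h 0 0 + pT g h 1 1 = 2 := by
  have : ((pT g h : SL(2, ℤ)) : M2).trace = 2 := by
    rw [pT, coe_mul, coe_mul, Matrix.trace_mul_cycle, ← coe_mul, inv_mul_cancel,
      Matrix.SpecialLinearGroup.coe_one, one_mul, ModularGroup.coe_T_zpow, Matrix.trace_fin_two_of]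
    rfl
  rwa [Matrix.trace_fin_two] at this

theorem cop_odd {N : ℕ} (hN : Odd N) (M : ℕ) : IsCoprime (N : ℤ) ((2 ^ M : ℕ) : ℤ) :=
  Nat.isCoprime_iff_coprime.2 ((Nat.coprime_two_right.2 hN).pow_right M)

/-- the level data: `G` is the group of the matrices `≡ ± [1, *; 0, 1]` -/
structure Lk (N N₀ M : ℕ) (G : Subgroup SL(2, ℤ)) : Prop where
  odd : Odd N
  dvd : N₀ ∣ N
  le : 3 ≤ M
  mem : ∀ g, g ∈ G ↔ ((N * 2 ^ M * 2 ^ M : ℕ) : ℤ) ∣ g 1 0 ∧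
    ∃ s : ℤˣ, ((N₀ * 2 ^ M : ℕ) : ℤ) ∣ s * g 1 1 - 1

namespace Lk

variable {N N₀ M : ℕ} {G : Subgroup SL(2, ℤ)} (h : Lk N N₀ M G)
include h

theorem ex {g : SL(2, ℤ)} (hg : g ∈ G) : ∃ γ : Gm N N₀, Rl M γ g := by
  obtain ⟨h1, s, h2⟩ := (h.mem g).1 hg
  obtain ⟨γ, e⟩ := cj_up (M := M) s g ((dr _ M).trans h1)
  obtain ⟨a, b, c, d⟩ := cj_iff.1 e
  have c1 : ((N * 2 ^ M : ℕ) : ℤ) ∣ γ 1 0 := by
    refine Int.dvd_of_mul_dvd_mul_right (p2_ne M) ?_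
    rw [← Nat.cast_mul]
    exact c ▸ h1.mul_left _
  have c2 : ((N₀ * 2 ^ M : ℕ) : ℤ) ∣ γ 1 1 - 1 := d ▸ h2
  refine ⟨⟨γ, (mem_Gm' h.dvd).2 ⟨(dl N M).trans c1, (dl N₀ M).trans c2⟩⟩,
    ⟨(dr N M).trans c1, ((dvd_mul_right _ _).mul_left _).trans (dvd_of_eq b.symm), ?_, (dr N₀ M).trans c2⟩, s, e⟩
  obtain ⟨x, hx⟩ := (dr N M).trans c1
  obtain ⟨y, hy⟩ := (dr N₀ M).trans c2
  exact ⟨-(γ 0 0 * y) + γ 0 1 * x, by
    show γ 0 0 - 1 = _
    linear_combination det_eq γ + γ 0 1 * hx - γ 0 0 * hy⟩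

theorem mem_of {γ : Gm N N₀} {g : SL(2, ℤ)} (r : Rl M γ g) : g ∈ G := by
  obtain ⟨c, s, e⟩ := r
  obtain ⟨-, -, e1, e2⟩ := cj_iff.1 e
  obtain ⟨m1, m2⟩ := (mem_Gm' h.dvd).1 γ.2
  refine (h.mem g).2 ⟨?_, s, ?_⟩
  · rw [← Units.dvd_mul_left (u := s), ← e1, Nat.cast_mul, Nat.cast_mul]
    exact mul_dvd_mul_right ((cop_odd h.odd M).mul_dvd m1 c.h10) _
  · rw [← e2, Nat.cast_mul]
    exact (cop_odd (h.odd.of_dvd_nat h.dvd) M).mul_dvd m2 c.h11

theorem par {w n : ℕ} (hn : 2 * n ≤ M) (u : ZC (Gm N N₀) w) (j : Fin (w + 1)) :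
    Par G (cf M n u j) where
  add g hg k hk := by
    obtain ⟨γ, r⟩ := h.ex hg
    obtain ⟨δ, r'⟩ := h.ex hk
    rw [cf_eq h.le u j (r.mul r'), cf_eq h.le u j r, cf_eq h.le u j r',
      ev_mul (by omega) u j γ r'.1]
  neg := by rw [cf_eq h.le u j rl_neg, ev_one]
  out g hg := dif_neg fun ⟨γ, r⟩ => hg (h.mem_of r)
  par g k hg := by
    obtain ⟨γ, r⟩ := h.ex hg
    rw [cf_eq h.le u j r]
    obtain ⟨c, s, e⟩ := r
    obtain ⟨e0, -, -, e1⟩ := cj_iff.1 e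
    obtain ⟨a, ha⟩ := c.h00
    obtain ⟨b, hb⟩ := c.h01
    obtain ⟨x, hx⟩ := c.h10
    obtain ⟨y, hy⟩ := c.h11
    have tr := tr_pT g k
    rw [rho_apply] at ha hb hx hy e0 e1
    have hs : (s : ℤ) = 1 := by
      rcases Int.units_eq_one_or s with rfl | rfl
      · rfl
      · refine absurd ⟨-a - y, ?_⟩ (not_dvd4 h.le)
        simp only [Units.val_neg, Units.val_one] at e0 e1
        linear_combination -ha - hy + e0 + e1 - tr
    rw [hs] at e0 e1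
    obtain rfl : y = -a := mul_left_cancel₀ (p2_ne M) (by linear_combination e0 + e1 + tr - ha - hy)
    have hd : a * a + b * x = 0 := mul_left_cancel₀ (mul_ne_zero (p2_ne M) (p2_ne M)) (by
      have := det_eq (γ : SL(2, ℤ))
      rw [hb, hx, sub_eq_iff_eq_add.1 ha, sub_eq_iff_eq_add.1 hy] at this
      linear_combination -this)
    obtain ⟨m1, m2⟩ := (mem_Gm' h.dvd).1 γ.2
    rw [hx] at m1
    rw [hy] at m2
    have m3 := (cop_odd h.odd M).dvd_of_dvd_mul_left m1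
    have m4 := (cop_odd (h.odd.of_dvd_nat h.dvd) M).dvd_of_dvd_mul_left m2
    have mm : un a b x hd (2 ^ (M - n) : ℕ) ∈ Gm N N₀ :=
      (mem_Gm' h.dvd).2 ⟨m3.mul_left _, by
        show _ ∣ 1 - _ * a - 1
        rw [sub_sub_cancel_left, ← mul_neg]
        exact m4.mul_left _⟩
    have dd : ∀ z, ((2 ^ n : ℕ) : ℤ) ∣ (2 ^ (M - n) : ℕ) * z := fun z =>
      (p2_dvd (by omega)).mul_right z
    have hγ : γ = ⟨_, mm⟩ ^ 2 ^ n := by
      refine Subtype.ext ?_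
      rw [Subgroup.coe_pow, un_pow, ← Nat.cast_mul, ← pow_add, Nat.add_sub_cancel' (by omega)]
      ext i j
      fin_cases i <;> fin_cases j
      · exact (sub_eq_iff_eq_add'.1 ha)
      · exact hb
      · exact hx
      · exact (sub_eq_iff_eq_add'.1 hy).trans (by
          show _ = 1 - _ * a
          ring)
    rw [hγ, ev_pow u j ⟨dd x, dd b, by
        show _ ∣ 1 + _ * a - 1
        rw [add_sub_cancel_left]; exact dd a, by
        show _ ∣ 1 - _ * a - 1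
        rw [sub_sub_cancel_left]; exact (dd a).neg_right⟩, ZMod.natCast_self, zero_mul]

end Lk

section rs

variable {N N₀ M n w : ℕ} {G : Subgroup SL(2, ℤ)} [CFF Qb (L G)] (h : Lk N N₀ M G) (hn : 2 * n ≤ M)
  {κ : Additive (HK Qb (L G) (2 ^ n)) →+ (SL(2, ℤ) → ZMod (2 ^ n))} (hκ : Kap G (2 ^ n) κ)

theorem ext' (h : Lk N N₀ M G) (hκ : Kap G (2 ^ n) κ) {x y : HA Qb (L G) (2 ^ n)}
    (e : ∀ (γ : Gm N N₀) g, Rl M γ g → κ x g = κ y g) : x = y :=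
  hκ.ext fun g hg => (h.ex hg).elim fun γ r => e γ g r

/-- the Kummer class of a coefficient -/
def rs (j : Fin (w + 1)) : ZC (Gm N N₀) w →+ HA Qb (L G) (2 ^ n) :=
  AddMonoidHom.mk' (fun u => (hκ.onto _ (h.par hn u j)).choose) fun u v => ext' h hκ fun γ g r => by
    rw [map_add, Pi.add_apply, (hκ.onto _ (h.par hn u j)).choose_spec,
      (hκ.onto _ (h.par hn v j)).choose_spec, (hκ.onto _ (h.par hn (u + v) j)).choose_spec,
      cf_eq h.le _ j r, cf_eq h.le _ j r, cf_eq h.le _ j r]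
    exact Int.cast_add _ _

theorem rs_ev (j : Fin (w + 1)) (u : ZC (Gm N N₀) w) {γ : Gm N N₀} {g : SL(2, ℤ)} (r : Rl M γ g) :
    κ (rs h hn hκ j u) g = ev n u j γ :=
  (congrFun (hκ.onto _ (h.par hn u j)).choose_spec g).trans (cf_eq h.le u j r)

theorem rs_BZ (j : Fin (w + 1)) {u : ZC (Gm N N₀) w} (hu : u ∈ BZ _ w) : rs h hn hκ j u = 0 := by
  obtain ⟨p, hp⟩ := mem_BZ.1 hu
  refine ext' h hκ fun γ g r => ?_
  have d := p2_dvd (show n ≤ M by omega)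
  rw [rs_ev h hn hκ j u r, map_zero, ev, hp, Pi.sub_apply, Int.cast_sub, act_one_mod w _ _
    (d.trans r.1.h01) (d.trans r.1.h10) (d.trans r.1.h00) (d.trans r.1.h11), sub_self]
  rfl

theorem rs_van {u : ZC (Gm N N₀) w} (hu : ∀ j, rs h hn hκ j u = 0) : Van M n u := by
  intro γ c
  obtain ⟨g, e⟩ := cj_dn (M := M) 1 γ c.h01
  have hj : ∀ j, ∃ x : ℤ, (u : Gm N N₀ → Fin (w + 1) → ℤ) γ j = (2 ^ n : ℕ) * x := fun j => by
    have := rs_ev h hn hκ j u (g := g) ⟨c, 1, e⟩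
    rw [hu, map_zero] at this
    exact (ZMod.intCast_zmod_eq_zero_iff_dvd _ _).1 this.symm
  choose p hp using hj
  exact ⟨p, funext fun j => by rw [hp, Pi.smul_apply, nsmul_eq_mul]⟩

theorem kz (κ : Additive (HK Qb (L G) (2 ^ n)) →+ (SL(2, ℤ) → ZMod (2 ^ n))) (a : ℤ)
    (y : HA Qb (L G) (2 ^ n)) (g : SL(2, ℤ)) : κ (a • y) g = a * κ y g :=
  (congrFun (map_zsmul κ a y) g).trans (zsmul_eq_mul _ _)

theorem tor (hκ : Kap G (2 ^ n) κ) {a b : ℤ} (e : (a : ZMod (2 ^ n)) = b)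
    (y : HA Qb (L G) (2 ^ n)) : a • y = b • y :=
  hκ.ext fun g _ => by
    rw [kz, kz, e]

/-- **operators** -/
theorem rs_op (X : Mdl) {ι : Type} [Fintype ι] {α β : ι → M2}
    (r : H527.L3.Rep (rho (Gm N N₀)) α) {a d : ℤ} (hα : ∀ i, Dg M a d (α i))
    (hc : ∀ i, IsCoprime ((2 ^ M : ℕ) : ℤ) (α i).det) (e : ∀ i, α i * Dd M = Dd M * β i)
    (hβ : ∀ i, 0 < (β i).det) {T : HA Qb (L G) (2 ^ n) →+ HA Qb (L G) (2 ^ n)}
    (hT : P027M.M.Rep (fun x => ∏ i, X.pb (β i) (hβ i) x) T) (j : Fin (w + 1))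
    (u : ZC (Gm N N₀) w) :
    rs h hn hκ j (opZ r w u) = (a ^ (j : ℕ) * d ^ (w - (j : ℕ))) • T (rs h hn hκ j u) := by
  refine ext' h hκ fun γ g rl => ?_
  obtain ⟨c, s, es⟩ := id rl
  have c1 : ∀ i, Dg M 1 1 (rho _ (r.el γ i)) := fun i =>
    ((hα i).mul_one c dvd_rfl).cancel (hα _) dvd_rfl dvd_rfl (hc _) (r.eq γ i)
  choose k hk using fun i => cj_dn (M := M) s (r.el γ i) (c1 i).h01
  have r1 : ∀ i, Rl M (r.el γ i) (k i) := fun i => ⟨c1 i, s, hk i⟩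
  have dv := p2_dvd (show n ≤ M by omega)
  rw [rs_ev h hn hκ j _ rl, kz, hκ.prod (by positivity) X β hβ hT _
    (h.mem_of rl) (r.perm γ) k (fun i => h.mem_of (r1 i)) fun i => ?_, ev, opZ_coe,
    H527.L3.Rep.hc, Finset.sum_apply, Int.cast_sum, Finset.mul_sum]
  · refine Finset.sum_congr rfl fun i _ => ?_
    have c2 := hα (r.nx γ i)
    rw [act_diag w _ (2 ^ n) a d (dv.trans c2.h01) (dv.trans c2.h10) (dv.trans c2.h00)
      (dv.trans c2.h11), rs_ev h hn hκ j u (r1 i), Int.cast_mul, Int.cast_pow,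
      Int.cast_pow]
    rfl
  · refine Dd_cancel (M := M) (smul_right_injective M2 s.ne_zero ?_)
    have e1 := hk i
    rw [← rho_apply] at e1
    show (s : ℤ) • (Dd M * (β i * g)) = (s : ℤ) • (Dd M * (k i * β (r.nx γ i)))
    rw [← mul_assoc, ← e, mul_assoc, ← Matrix.mul_smul, ← es, ← mul_assoc, r.eq γ i, mul_assoc, e,
      ← mul_assoc, e1, Matrix.smul_mul, mul_assoc]

end rs

end Vale.Agent.P022D.G
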