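import Vale.Agent.P022D.G.Tw

/-! # P022 route D, block G: statements of the rows on cocycles and forms -/

set_option linter.all false

open scoped MatrixGroups ModularForm
open UpperHalfPlane CongruenceSubgroup

noncomputable section

namespace Vale.Agent.P022D.G

open Vale.Agent.P022 Vale.Agent.P022.H161.CLat Vale.Agent.P022.H161.COp Vale.Agent.P022.L3
open Vale.Agent.P022.H527.L3 hiding M2
open Vale.Agent.P022.H420.L3 (M2 Pw act)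

/-- a cocycle which is divisible by `2 ^ n` on the matrices `≡ 1` modulo `2 ^ M` -/
def Van {Γ : Subgroup SL(2, ℤ)} {w : ℕ} (M n : ℕ) (u : ZC Γ w) : Prop :=
  ∀ γ : Γ, Dg M 1 1 (rho Γ γ) → ∃ p, (u : Γ → Fin (w + 1) → ℤ) γ = 2 ^ n • p

/-- `T_ℓ` is nilpotent on the kernel of the restriction to the deep group -/
def NIL : Prop := ∀ (N N₀ : ℕ) (hN : N₀ ∣ N) (w M n : ℕ), n ≤ M → ∀ (ℓ : PA N)
  (u : ZC (Gm N N₀) w), Van M n u →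
  ∃ v : ZC (Gm N N₀) w, rW hN w (wT ℓ ^ n) u - 2 ^ n • v ∈ BZ (Gm N N₀) w

/-- forms and cocycles: words keep the invariant forms; a word which maps `A` into the saturated
coboundaries kills every invariant form whose cocycle is spanned by `A` -/
def FORM : Prop := ∀ (N N₀ : ℕ) [NeZero N] (hN : N₀ ∣ N) (w : ℕ),
  ∃ Φ : MF N (w + 1 + 1) → (Gm N N₀ → Fin (w + 1) → ℂ),
  (∀ Q f, Inv N N₀ f → Inv N N₀ (sg N (w + 1) Q f)) ∧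
  (∀ f, Inv N N₀ f → Φ f ∈ Z1 (actM ℂ (AA (Gm N N₀) w))) ∧
  (∀ (c : ℂ) f g, Inv N N₀ f → Inv N N₀ g → Φ (c • f + g) = c • Φ f + Φ g) ∧
  (∀ f, Inv N N₀ f → Φ f ∈ B1 (actM ℂ (AA (Gm N N₀) w)) → f = 0) ∧
  (∀ (ι : Type) [Fintype ι] (α : ι → M2) (r : Rep (rho (Gm N N₀)) α) (hα : ∀ i, 0 < (α i).det)
    (f g : MF N (w + 1 + 1)), Inv N N₀ f →
    (g : ℍ → ℂ) = ∑ i, (f : ℍ → ℂ) ∣[((w + 1 + 1 : ℕ) : ℤ)] H227.gl (α i) (hα i) →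
    Inv N N₀ g ∧ Φ g - opC r w (Φ f) ∈ B1 (actM ℂ (AA (Gm N N₀) w))) ∧
  ∀ (Q : Wd N) (f : MF N (w + 1 + 1)), Inv N N₀ f → ∀ (n : ℕ) (c : Fin n → ℂ)
    (z : Fin n → ZC (Gm N N₀) w), (∀ b, rW hN w Q (z b) ∈ Bsat (AA (Gm N N₀) w)) →
    Φ f = ∑ b, c b • toC (z b : Gm N N₀ → Fin (w + 1) → ℤ) → sg N (w + 1) Q f = 0

/-- `γ diag(q, 1)` is an Atkin-Lehner matrix at `q`, `γ ∈ Γ₁(M)` -/
structure AL1 (M q : ℕ) (γ : SL(2, ℤ)) : Prop where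
  c : (M : ℤ) ∣ γ 1 0
  d : (M : ℤ) ∣ γ 1 1 - 1
  q : (q : ℤ) ∣ γ 1 1

/-- the representatives of `U_q` and `W_q` for `Γ₀(q) ∩ Γ₁(M)` -/
def REPU : Prop := ∀ (M q : ℕ), q.Prime → ¬ q ∣ 2 * M → ∀ (a : ℕ) (γ : SL(2, ℤ)), AL1 M q γ →
  Rep (rho (Gm (M * q) M)) (fun j : Fin q => alp a q γ (some j)) ∧
  Rep (rho (Gm (M * q) M)) (fun _ : Unit => alp a q γ none) ∧
  ∀ (a' : ℕ) (γ' : SL(2, ℤ)), AL1 M q γ' →
    (∀ k : Fin q, ∃ (i : Fin q) (δ : Gm (M * q) M),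
      alp a' q γ' (some k) = rho _ δ * alp a q γ (some i)) ∧
    ∃ δ : Gm (M * q) M, alp a' q γ' none = rho _ δ * alp a q γ none

/-- `U_q`, `W_q` and the trace on forms -/
def TRC : Prop := ∀ (M q : ℕ) [NeZero (M * q)] (hq : q.Prime), ¬ q ∣ 2 * M → ∀ γ : SL(2, ℤ),
  AL1 M q γ → ∀ w : ℕ, ∃ U W : MF (M * q) (w + 1 + 1) → MF (M * q) (w + 1 + 1),
  ∀ f, Inv (M * q) M f →
    (U f : ℍ → ℂ) = ∑ j : Fin q, (f : ℍ → ℂ) ∣[((w + 1 + 1 : ℕ) : ℤ)]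
      H227.gl (alp 0 q γ (some j)) (H227.det_alp_pos hq.pos γ (some j)) ∧
    (W f : ℍ → ℂ) = (f : ℍ → ℂ) ∣[((w + 1 + 1 : ℕ) : ℤ)]
      H227.gl (alp 0 q γ none) (H227.det_alp_pos hq.pos γ none) ∧
    Inv M M (((q : ℂ) ^ w) • f + U (W f)) ∧
    ∀ Q, sg (M * q) (w + 1) Q (U f) = U (sg (M * q) (w + 1) Q f) ∧
      sg (M * q) (w + 1) Q (W f) = W (sg (M * q) (w + 1) Q f)

end Vale.Agent.P022D.G
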