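import Vale.Agent.P022D.G.Rows
import Vale.Agent.P022D.G.TrcA

/-! # P022 route D, block G, row 7409: `U_q`, `W_q` and the trace on forms -/

set_option linter.all false

open scoped MatrixGroups ModularForm Manifold
open UpperHalfPlane CongruenceSubgroup

noncomputable section

namespace Vale.Agent.P022D.Trc

open Vale.Agent.P022 Vale.Agent.P022.H227
open Vale.Agent.P022.H231.L3 (al IsDel exists_coset coset_unique det_al prim_col)

theorem tc_scal (w : ℕ) (f : ℍ → ℂ) {q : ℕ} (hq : 0 < q) :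
    sz ((w + 1 + 1 : ℕ) : ℤ) f !![(q : ℤ), 0; 0, (q : ℤ)] = ((q : ℂ) ^ w) • f := by
  have h : 0 < (!![(q : ℤ), 0; 0, (q : ℤ)] : M2).det := by
    simp [Matrix.det_fin_two, hq]
  have hq0 : (q : ℂ) ≠ 0 := by exact_mod_cast hq.ne'
  have h' : 0 < (gl _ h).det.val := gl_det_pos _ h
  rw [sz_eq _ _ h]
  funext τ
  have hd : denom (gl _ h) τ = (q : ℂ) := by
    simp [denom, gl_val]
  have hn : num (gl _ h) τ = (q : ℂ) * τ := by
    simp [num, gl_val]
  have hs : (gl _ h) • τ = τ := by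
    apply UpperHalfPlane.ext
    rw [coe_smul_of_det_pos h', hd, hn]
    field_simp
  have hdet : (gl _ h).det.val = (q : ℝ) ^ 2 := by
    have := gl_det _ h
    rw [Matrix.GeneralLinearGroup.val_det_apply, this]
    simp [Matrix.det_fin_two, sq]
  rw [ModularForm.slash_apply, σ, if_pos h', hs, hd, hdet]
  have e1 : ((w + 1 + 1 : ℕ) : ℤ) - 1 = ((w + 1 : ℕ) : ℤ) := by push_cast; ring
  rw [e1, zpow_neg, zpow_natCast, zpow_natCast, abs_of_nonneg (by positivity)]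
  simp only [Pi.smul_apply, smul_eq_mul, ContinuousAlgEquiv.refl_apply]
  push_cast
  field_simp
  ring

/-- a finite sum of slashes which is invariant is a modular form -/
theorem tc_form {N k : ℕ} [NeZero N] (f : MF N k) {ι : Type} [Fintype ι] (A : ι → M2)
    (hA : ∀ i, 0 < (A i).det)
    (hi : ∀ γ ∈ Gamma1 N, (∑ i, sz k f (A i)) ∣[(k : ℤ)] γ = ∑ i, sz k f (A i)) :
    ∃ g : MF N k, (g : ℍ → ℂ) = ∑ i, sz k f (A i) := by
  have hr : ∀ i, ∃ β : GL (Fin 2) ℚ, gl (A i) (hA i) = β.map (algebraMap ℚ ℝ) := by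
    intro i
    refine ⟨Matrix.GeneralLinearGroup.mkOfDetNeZero ((A i).map (Int.castRingHom ℚ)) (by
      rw [← RingHom.mapMatrix_apply, ← RingHom.map_det]
      simpa using (hA i).ne'), ?_⟩
    ext a b
    simp [gl_val, Matrix.GeneralLinearGroup.mkOfDetNeZero]
  choose β hβ using hr
  have e : ∑ i, sz k f (A i) = ∑ i, (f : ℍ → ℂ) ∣[(k : ℤ)] ((β i).map (algebraMap ℚ ℝ)) :=
    Finset.sum_congr rfl fun i _ => by rw [sz_eq _ _ (hA i), hβ i]
  rw [e] at hi ⊢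
  exact ⟨{ toFun := ∑ i, (f : ℍ → ℂ) ∣[(k : ℤ)] ((β i).map (algebraMap ℚ ℝ))
           slash_action_eq' := by
             rintro _ ⟨γ, hγ, rfl⟩
             exact hi γ hγ
           holo' := by
             refine MDifferentiable.sum fun i _ => ?_
             exact f.holo'.slash (k : ℤ) _
           bdd_at_cusps' := fun {c} hc => by
             intro γ hγ
             rw [IsBoundedAtImInfty, Filter.BoundedAtFilter, SlashAction.sum_slash]
             have h2 : ∀ i ∈ (Finset.univ : Finset ι),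
                 (((f : ℍ → ℂ) ∣[(k : ℤ)] ((β i).map (algebraMap ℚ ℝ))) ∣[(k : ℤ)] γ)
                   =O[atImInfty] (1 : ℍ → ℝ) := by
               intro i _
               have h1 := f.bdd_at_cusps' (P004H.H181.isCusp_smul_rat hc (β i))
               exact OnePoint.IsBoundedAt.smul_iff.1 h1 γ hγ
             exact Asymptotics.IsBigO.sum h2 }, rfl⟩

section comm

variable {M q : ℕ} {ι : Type} [Fintype ι] {α : ι → M2} {n a : ℤ} {d : SL(2, ℤ)} {k : ℤ}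
  {f : ℍ → ℂ}

theorem tc_al1 (h : (q : ℤ) ∣ d 1 1) : AL 1 q d :=
  ⟨⟨by simp, one_dvd _, by simp⟩, h⟩

theorem tc_some (hq : q.Prime) (h : (q : ℤ) ∣ d 1 1) {A : M2} (hA : Lo q A)
    (h0 : ¬ (q : ℤ) ∣ A 0 0) : ∃ j, ∃ C : M2, A = C * al 1 q d (some j) := by
  obtain ⟨i, C, e⟩ := ex_lo hq (tc_al1 h) hA
  cases i with
  | some j => exact ⟨j, C, e⟩
  | none =>
    refine absurd ?_ h0
    rw [e, mul00, w00, w10]
    exact dvd_add ((dvd_mul_left _ _).mul_left _) ((dvd_mul_left _ _).mul_left _)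

theorem tc_upU (j : Fin q) : Up M 1 (al 1 q d (some j)) := ⟨by simp [al], by simp [al]⟩

theorem tc_upW (h : d ∈ Gamma1 M) : Up M q (al 1 q d none) := by
  obtain ⟨h1, h2⟩ := mem_G1.1 h
  refine ⟨by rw [w10]; exact h1.mul_right _, ?_⟩
  rw [w00]
  obtain ⟨x, hx⟩ := h2
  exact ⟨x * q, by linear_combination (q : ℤ) * hx⟩

theorem tc_w_comm (F : Fam M q α n a) (hq : q.Prime) (hM : ¬ q ∣ M) (h1 : d ∈ Gamma1 M)
    (h2 : (q : ℤ) ∣ d 1 1) (hf : ∀ γ ∈ Gq M q, f ∣[k] γ = f) :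
    ∑ i, sz k (sz k f (al 1 q d none)) (α i) = sz k (∑ i, sz k f (α i)) (al 1 q d none) := by
  have h := tc_al1 h2
  have hp : ∀ i, 0 < (α i).det := fun i => (F.det i).symm ▸ F.pos
  have hw : 0 < (al 1 q d none).det := by rw [det_al]; exact_mod_cast hq.pos
  rw [sz_sum _ _ hw]
  simp only [← sz_mul k f (hp _) hw, ← sz_mul k f hw (hp _)]
  refine sum_eq hf (fun i => by rw [Matrix.det_mul]; exact mul_pos (hp i) hw) (fun i => ?_)
    fun i j g e => ?_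
  · obtain ⟨C, hC⟩ := ex_none hq h (A := al 1 q d none * α i)
      (by rw [mul00, w00]
          exact dvd_add ((dvd_mul_left _ _).mul_right _) ((F.lo i).mul_left _))
      ((lo_al h none).mul_right _).1
    obtain ⟨j, g, e⟩ := F.ex C (det_left hq hC (by rw [Matrix.det_mul, det_al, F.det])
      (det_al _ _ _ _))
    rw [e, Matrix.mul_assoc] at hC
    refine ⟨j, g, mem_of (a := a * q) (B := α j * al 1 q d none) hq hM F.cop F.cq
      (by rw [Matrix.det_mul, det_al, F.det, mul_comm]) ?_ ?_ ?_ ?_, hC⟩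
    · rw [← hC, mul_comm a]; exact (tc_upW h1).mul (F.up i)
    · exact (F.up j).mul (tc_upW h1)
    · rw [← hC]; exact (lo_al h none).mul_right _
    · exact Lo.mul_left (F.lo j) (lo_al h none)
  · rw [← Matrix.mul_assoc] at e
    exact F.un _ _ i j e (by rw [Matrix.det_mul, g.det_coe, one_mul, det_al]; exact F.cq.symm)

theorem tc_u_comm (F : Fam M q α n a) (hq : q.Prime) (hM : ¬ q ∣ M)
    (h2 : (q : ℤ) ∣ d 1 1) (hf : ∀ γ ∈ Gq M q, f ∣[k] γ = f) :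
    ∑ j, sz k (∑ i : Fin q, sz k f (al 1 q d (some i))) (α j) =
      ∑ i : Fin q, sz k (∑ j, sz k f (α j)) (al 1 q d (some i)) := by
  have h := tc_al1 h2
  have hp : ∀ i, 0 < (α i).det := fun i => (F.det i).symm ▸ F.pos
  have hw : ∀ i, 0 < (al 1 q d i).det := fun i => by rw [det_al]; exact_mod_cast hq.pos
  simp only [sz_sum _ _ (hw _), sz_sum _ _ (hp _), ← sz_mul k f (hp _) (hw _),
    ← sz_mul k f (hw _) (hp _)]
  rw [Finset.sum_comm (f := fun (i : Fin q) j => sz k f (α j * al 1 q d (some i))),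
    ← Fintype.sum_prod_type', ← Fintype.sum_prod_type']
  refine sum_eq (A := fun x : ι × Fin q => al 1 q d (some x.2) * α x.1)
    (B := fun x : ι × Fin q => α x.1 * al 1 q d (some x.2)) hf
    (fun x => by rw [Matrix.det_mul]; exact mul_pos (hp _) (hw _)) ?_ ?_
  · rintro ⟨j, i⟩
    have h0 : ¬ (q : ℤ) ∣ (al 1 q d (some i) * α j) 0 0 := by
      intro h0
      rw [mul00] at h0
      have h3 : (q : ℤ) ∣ α j 0 0 := by
        have := (dvd_add_left ((F.lo j).mul_left _)).1 h0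
        simpa [al] using this
      have h4 : (q : ℤ) ∣ n := by
        rw [← F.det j, Matrix.det_fin_two]
        exact dvd_sub (h3.mul_right _) ((F.lo j).mul_left _)
      exact (Nat.prime_iff_prime_int.1 hq).not_unit (F.cq.isUnit_of_dvd' h4 dvd_rfl)
    obtain ⟨i', C, hC⟩ := tc_some hq h2 ((lo_al h (some i)).mul_right (α j)) h0
    obtain ⟨j', g, e⟩ := F.ex C (det_left hq hC (by rw [Matrix.det_mul, det_al, F.det])
      (det_al _ _ _ _))
    rw [e, Matrix.mul_assoc] at hC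
    refine ⟨(j', i'), g, mem_of (a := a) (B := α j' * al 1 q d (some i')) hq hM F.cop F.cq
      (by rw [Matrix.det_mul, det_al, F.det, mul_comm]) ?_ ?_ ?_ ?_, hC⟩
    · rw [← hC]; simpa using (tc_upU i).mul (F.up j)
    · simpa using (F.up j').mul (tc_upU i')
    · rw [← hC]; exact (lo_al h _).mul_right _
    · exact Lo.mul_left (F.lo j') (lo_al h _)
  · rintro ⟨j, i⟩ ⟨j', i'⟩ g e
    simp only [← Matrix.mul_assoc] at e
    obtain rfl := F.un _ _ j j' e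
      (by rw [Matrix.det_mul, g.det_coe, one_mul, det_al]; exact F.cq.symm)
    have e' := cancel (hp j).ne' e
    have : some i = some i' := un_al hq isCoprime_one_right (X := 1)
      (by rw [Matrix.one_mul]; exact e') (by rw [g.det_coe]; exact isCoprime_one_left)
    rw [Option.some_injective _ this]

theorem tc_Gq (hq : q.Prime) (hM : ¬ q ∣ M) {γ : SL(2, ℤ)} (h : γ ∈ Gq M q) :
    ((M * q : ℕ) : ℤ) ∣ γ 1 0 := by
  obtain ⟨⟨h1, -⟩, h2⟩ := mem_Gq.1 h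
  push_cast
  exact (cop_q hq hM).symm.mul_dvd h1 h2

/-- the trace of `f` through `U W` -/
theorem tc_tr (w : ℕ) (hq : q.Prime) (hM : ¬ q ∣ M) (h1 : d ∈ Gamma1 M) (h2 : (q : ℤ) ∣ d 1 1)
    (hf : ∀ γ ∈ Gq M q, f ∣[((w + 1 + 1 : ℕ) : ℤ)] γ = f)
    (hW : ∀ γ ∈ Gq M q, (sz ((w + 1 + 1 : ℕ) : ℤ) f (al 1 q d none)) ∣[((w + 1 + 1 : ℕ) : ℤ)] γ =
      sz ((w + 1 + 1 : ℕ) : ℤ) f (al 1 q d none)) :
    ∀ γ ∈ Gamma1 M, (((q : ℂ) ^ w) • f + ∑ j : Fin q, sz ((w + 1 + 1 : ℕ) : ℤ)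
      (sz ((w + 1 + 1 : ℕ) : ℤ) f (al 1 q d none)) (al 1 q d (some j))) ∣[((w + 1 + 1 : ℕ) : ℤ)] γ =
      ((q : ℂ) ^ w) • f + ∑ j : Fin q, sz ((w + 1 + 1 : ℕ) : ℤ)
        (sz ((w + 1 + 1 : ℕ) : ℤ) f (al 1 q d none)) (al 1 q d (some j)) := by
  obtain ⟨x, y, hxy⟩ := cop_q hq hM
  let d' : SL(2, ℤ) := ⟨!![x, -y; (M : ℤ), (q : ℤ)], by
    rw [Matrix.det_fin_two_of]; linear_combination hxy⟩
  let e : SL(2, ℤ) := ⟨!![x * q, -y; (M : ℤ), 1], by
    rw [Matrix.det_fin_two_of]; linear_combination hxy⟩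
  have hd' : AL M q d' := ⟨⟨dvd_refl (M : ℤ), one_dvd _, by
    show (M : ℤ) ∣ (q : ℤ) - q
    simp⟩, dvd_refl (q : ℤ)⟩
  have he : e ∈ Gamma1 M := mem_G1.2 ⟨dvd_refl (M : ℤ), ⟨-y, by
    show x * q - 1 = (M : ℤ) * -y
    linear_combination hxy⟩⟩
  have hde : d * e ∈ Gq M q := by
    refine ⟨(Gamma1 M).mul_mem h1 he, Gamma0_mem.2 ((ZMod.intCast_zmod_eq_zero_iff_dvd _ _).2 ?_)⟩
    show (q : ℤ) ∣ ((d : M2) * (e : M2)) 1 0
    rw [mul10]
    exact dvd_add (Dvd.dvd.mul_left (dvd_mul_left (q : ℤ) x) _) (h2.mul_right _)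
  have hw : ∀ (c : SL(2, ℤ)) i, 0 < (al 1 q c i).det := fun c i => by
    rw [det_al]; exact_mod_cast hq.pos
  have hs : 0 < (!![(q : ℤ), 0; 0, (q : ℤ)] : M2).det := by
    simp [Matrix.det_fin_two, hq.pos]
  have em : al 1 q d none * al 1 q d' none =
      ((d * e : SL(2, ℤ)) : M2) * !![(q : ℤ), 0; 0, (q : ℤ)] := by
    rw [Matrix.SpecialLinearGroup.coe_mul]
    simp only [al, Matrix.mul_assoc]
    congr 1
    ext i j
    fin_cases i <;> fin_cases j <;> simp [d', e, Matrix.mul_apply, Fin.sum_univ_two] <;> ring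
  have e1 : sz ((w + 1 + 1 : ℕ) : ℤ) (sz ((w + 1 + 1 : ℕ) : ℤ) f (al 1 q d none))
      (al 1 q d' none) = ((q : ℂ) ^ w) • f := by
    rw [← sz_mul _ f (hw _ _) (hw _ _), em, sz_mul _ f (SL_pos _) hs, sz_SL, hf _ hde,
      tc_scal w f hq.pos]
  have key := tr_inv hq hM hd' hW
  rw [Fintype.sum_option, e1] at key
  exact key

end comm

end Vale.Agent.P022D.Trc

namespace Vale.Agent.P022D.G

open Vale.Agent.P022 Vale.Agent.P022.L3 Vale.Agent.P022D.Trc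
open Vale.Agent.P022.H231.L3 (al det_al)
open Vale.Agent.P022.H227 (M2)

theorem trh_G1 {M : ℕ} {γ : SL(2, ℤ)} :
    γ ∈ Gamma1 M ↔ (M : ℤ) ∣ γ 1 0 ∧ (M : ℤ) ∣ γ 1 1 - 1 := by
  rw [← mem_Gm' (dvd_refl M)]
  exact ⟨fun h => ⟨Gamma1_in_Gamma0 M h, h⟩, fun h => h.2⟩

theorem trh_inv {M q N k : ℕ} (hq : q.Prime) (hM : ¬ q ∣ M) (f : MF N k) :
    Inv (M * q) M f ↔ ∀ γ ∈ Gq M q, (f : ℍ → ℂ) ∣[(k : ℤ)] γ = f := by
  constructor
  · intro h γ hγ
    exact h γ (tc_Gq hq hM hγ) (trh_G1.1 hγ.1).2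
  · intro h γ h1 h2
    push_cast at h1
    exact h γ ⟨trh_G1.2 ⟨(dvd_mul_right _ _).trans h1, h2⟩,
      Gamma0_mem.2 ((ZMod.intCast_zmod_eq_zero_iff_dvd _ _).2 ((dvd_mul_left _ _).trans h1))⟩

theorem trh_alp (l : ℕ) (d : SL(2, ℤ)) (i : Option (Fin l)) : alp 0 l d i = al 1 l d i := by
  cases i with
  | none => rfl
  | some j => simp [alp, al]

theorem trh_sz (k : ℤ) (f : ℍ → ℂ) {l : ℕ} (hl : 0 < l) (d : SL(2, ℤ)) (i : Option (Fin l)) :
    f ∣[k] H227.gl (alp 0 l d i) (H227.det_alp_pos hl d i) = sz k f (al 1 l d i) := by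
  rw [← sz_eq, trh_alp]

/-- every letter acts through a family -/
theorem trh_letter {M q : ℕ} [NeZero (M * q)] (i : ℕ) (s : Gen (M * q)) :
    ∃ (ι : Type) (_ : Fintype ι) (α : ι → M2) (n a : ℤ) (c : ℂ), Trc.Fam M q α n a ∧
      ∀ f : MF (M * q) (i + 1), (gHk (M * q) s i f : ℍ → ℂ) =
        c • ∑ j, sz ((i + 1 : ℕ) : ℤ) f (α j) := by
  rcases s with ℓ | ℓ
  · obtain ⟨δ, hδ⟩ := ex_del ℓ 0
    refine ⟨Option (Fin ℓ.1), inferInstance, al 1 ℓ.1 δ, ℓ.1, 1, 1,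
      fam_al ℓ.2.1 isCoprime_one_right (cop ℓ).symm ⟨?_, one_dvd _, ?_⟩, fun f => ?_⟩
    · simpa using hδ.1
    · simpa using hδ.2.2
    · rw [one_smul]
      show (H783.Tl (i + 1) ℓ f : ℍ → ℂ) = _
      rw [H227.Tl_alp ℓ hδ f]
      exact Finset.sum_congr rfl fun j _ => trh_sz _ _ ℓ.2.1.pos _ _
  · obtain ⟨δ, hδ⟩ := ex_del ℓ 0
    refine ⟨Unit, inferInstance, fun _ => (δ : M2), 1, δ 0 0, (ℓ.1 : ℂ) ^ i,
      fam_dia (by simpa using hδ.1), fun f => ?_⟩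
    show ((((ℓ.1 : ℂ) ^ i) • H783.dia (i + 1) ℓ f : MF (M * q) (i + 1)) : ℍ → ℂ) = _
    rw [ModularForm.IsGLPos.coe_smul, H227.dia_isDel ℓ hδ f]
    simp only [Finset.univ_unique, Finset.sum_singleton, sz_SL]

/-- an operator given by a family which commutes with all the Hecke families -/
theorem trh_op {M q : ℕ} [NeZero (M * q)] (hq : q.Prime) (hM : ¬ q ∣ M) (i : ℕ) {κ : Type}
    [Fintype κ] (A : κ → M2) (hA : ∀ j, 0 < (A j).det)
    (hc : ∀ (ι : Type) [Fintype ι] (α : ι → M2) (n a : ℤ), Trc.Fam M q α n a → ∀ f : ℍ → ℂ,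
      (∀ γ ∈ Gq M q, f ∣[((i + 1 : ℕ) : ℤ)] γ = f) →
      ∑ x, sz ((i + 1 : ℕ) : ℤ) (∑ j, sz ((i + 1 : ℕ) : ℤ) f (A j)) (α x) =
        ∑ j, sz ((i + 1 : ℕ) : ℤ) (∑ x, sz ((i + 1 : ℕ) : ℤ) f (α x)) (A j)) :
    ∃ O : MF (M * q) (i + 1) → MF (M * q) (i + 1), ∀ f, Inv (M * q) M f →
      (O f : ℍ → ℂ) = ∑ j, sz ((i + 1 : ℕ) : ℤ) f (A j) ∧ Inv (M * q) M (O f) ∧
      ∀ Q, sg (M * q) i Q (O f) = O (sg (M * q) i Q f) := by
  have hinv : ∀ f : ℍ → ℂ, (∀ γ ∈ Gq M q, f ∣[((i + 1 : ℕ) : ℤ)] γ = f) → ∀ γ ∈ Gq M q,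
      (∑ j, sz ((i + 1 : ℕ) : ℤ) f (A j)) ∣[((i + 1 : ℕ) : ℤ)] γ =
        ∑ j, sz ((i + 1 : ℕ) : ℤ) f (A j) := by
    intro f hf γ hγ
    have := hc Unit (fun _ => (γ : M2)) 1 (γ 0 0) (fam_dia (tc_Gq hq hM hγ)) f hf
    simp only [Finset.univ_unique, Finset.sum_singleton, sz_SL, hf γ hγ] at this
    exact this
  have hsub : ∀ γ ∈ Gamma1 (M * q), γ ∈ Gq M q := by
    intro γ hγ
    obtain ⟨h1, h2⟩ := mem_G1.1 hγ
    push_cast at h1 h2
    exact mem_Gq.2 ⟨⟨(dvd_mul_right _ _).trans h1, (dvd_mul_right _ _).trans h2⟩,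
      (dvd_mul_left _ _).trans h1⟩
  have hex : ∀ f : MF (M * q) (i + 1), ∃ g : MF (M * q) (i + 1), Inv (M * q) M f →
      (g : ℍ → ℂ) = ∑ j, sz ((i + 1 : ℕ) : ℤ) f (A j) := by
    intro f
    by_cases hf : Inv (M * q) M f
    · obtain ⟨g, hg⟩ := tc_form f A hA fun γ hγ =>
        hinv f ((trh_inv hq hM f).1 hf) γ (hsub γ hγ)
      exact ⟨g, fun _ => hg⟩
    · exact ⟨0, fun h => absurd h hf⟩
  choose O hO using hex
  have hOi : ∀ f, Inv (M * q) M f → Inv (M * q) M (O f) := by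
    intro f hf
    rw [trh_inv hq hM, hO f hf]
    exact hinv f ((trh_inv hq hM f).1 hf)
  have hsm : ∀ (c : ℂ) (f : MF (M * q) (i + 1)), Inv (M * q) M f → Inv (M * q) M (c • f) := by
    intro c f hf γ h1 h2
    rw [ModularForm.IsGLPos.coe_smul, ← sz_SL, sz_smul _ _ _ (SL_pos γ), sz_SL, hf γ h1 h2]
  have had : ∀ f g : MF (M * q) (i + 1), Inv (M * q) M f → Inv (M * q) M g →
      Inv (M * q) M (f + g) := by
    intro f g hf hg γ h1 h2
    rw [ModularForm.coe_add, SlashAction.add_slash, hf γ h1 h2, hg γ h1 h2]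
  have key : ∀ Q : Wd (M * q), ∀ f, Inv (M * q) M f → Inv (M * q) M (sg (M * q) i Q f) ∧
      sg (M * q) i Q (O f) = O (sg (M * q) i Q f) := by
    intro Q
    induction Q using FreeAlgebra.induction with
    | grade0 r =>
      intro f hf
      have e : ∀ g : MF (M * q) (i + 1), sg (M * q) i (algebraMap ℤ _ r) g = (r : ℂ) • g := by
        intro g
        rw [AlgHom.commutes, Module.algebraMap_end_apply, Int.cast_smul_eq_zsmul]
      rw [e, e]
      refine ⟨hsm _ f hf, DFunLike.coe_injective ?_⟩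
      show (((r : ℂ) • O f : MF (M * q) (i + 1)) : ℍ → ℂ) = (O ((r : ℂ) • f) : ℍ → ℂ)
      rw [hO _ (hsm _ f hf), ModularForm.IsGLPos.coe_smul, ModularForm.IsGLPos.coe_smul, hO f hf,
        Finset.smul_sum]
      exact Finset.sum_congr rfl fun j _ => (sz_smul _ _ _ (hA j)).symm
    | grade1 s =>
      intro f hf
      have e : sg (M * q) i (FreeAlgebra.ι ℤ s) = gHk (M * q) s i := by
        rw [sg, FreeAlgebra.lift_ι_apply]
      obtain ⟨ι, _, α, n, a, c, F, hF⟩ := trh_letter (M := M) (q := q) i s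
      have hf' := (trh_inv hq hM f).1 hf
      have hI : Inv (M * q) M (gHk (M * q) s i f) := by
        rw [trh_inv hq hM, hF]
        intro γ hγ
        rw [← sz_SL, sz_smul _ _ _ (SL_pos γ), sz_SL, F.inv hf' γ hγ]
      rw [e]
      refine ⟨hI, DFunLike.coe_injective ?_⟩
      show (gHk (M * q) s i (O f) : ℍ → ℂ) = (O (gHk (M * q) s i f) : ℍ → ℂ)
      rw [hO _ hI, hF, hF, hO f hf, hc ι α n a F f hf', Finset.smul_sum]
      exact Finset.sum_congr rfl fun j _ => (sz_smul _ _ _ (hA j)).symm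
    | mul P Q hP hQ =>
      intro f hf
      rw [map_mul, Module.End.mul_apply, Module.End.mul_apply, (hQ f hf).2]
      exact hP _ (hQ f hf).1
    | add P Q hP hQ =>
      intro f hf
      have hI := had _ _ (hP f hf).1 (hQ f hf).1
      rw [map_add, LinearMap.add_apply, LinearMap.add_apply, (hP f hf).2, (hQ f hf).2]
      refine ⟨hI, DFunLike.coe_injective ?_⟩
      show ((O (sg (M * q) i P f) + O (sg (M * q) i Q f) : MF (M * q) (i + 1)) : ℍ → ℂ) =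
        (O (sg (M * q) i P f + sg (M * q) i Q f) : ℍ → ℂ)
      rw [hO _ hI, ModularForm.coe_add, ModularForm.coe_add, hO _ (hP f hf).1, hO _ (hQ f hf).1,
        ← Finset.sum_add_distrib]
      exact Finset.sum_congr rfl fun j _ => (sz_add _ _ _ (hA j)).symm
  exact ⟨O, fun f hf => ⟨hO f hf, hOi f hf, fun Q => (key Q f hf).2⟩⟩

theorem trc0 : TRC := by
  intro M q _ hq hM2 γ hγ w
  have hM : ¬ q ∣ M := fun h => hM2 (h.mul_left 2)
  have h1 : γ ∈ Gamma1 M := trh_G1.2 ⟨hγ.c, hγ.d⟩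
  have hw : ∀ i, 0 < (al 1 q γ i).det := fun i => by rw [det_al]; exact_mod_cast hq.pos
  obtain ⟨U, hU⟩ := trh_op hq hM (w + 1) (fun j : Fin q => al 1 q γ (some j)) (fun j => hw _)
    fun ι _ α n a F f hf => tc_u_comm F hq hM hγ.q hf
  obtain ⟨W, hW⟩ := trh_op hq hM (w + 1) (fun _ : Unit => al 1 q γ none) (fun _ => hw _)
    fun ι _ α n a F f hf => by
      simp only [Finset.univ_unique, Finset.sum_singleton]
      exact tc_w_comm F hq hM h1 hγ.q hf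
  refine ⟨U, W, fun f hf => ?_⟩
  obtain ⟨u1, -, u3⟩ := hU f hf
  obtain ⟨w1, w2, w3⟩ := hW f hf
  simp only [Finset.univ_unique, Finset.sum_singleton] at w1
  refine ⟨?_, ?_, ?_, fun Q => ⟨u3 Q, w3 Q⟩⟩
  · rw [u1]
    exact Finset.sum_congr rfl fun j _ => (trh_sz _ _ hq.pos _ _).symm
  · rw [w1]
    exact (trh_sz _ _ hq.pos _ _).symm
  · intro δ a b
    have w2' := (trh_inv hq hM _).1 w2
    rw [w1] at w2'
    rw [ModularForm.coe_add, ModularForm.IsGLPos.coe_smul, (hU _ w2).1, w1]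
    exact tc_tr w hq hM h1 hγ.q ((trh_inv hq hM f).1 hf) w2' δ (trh_G1.2 ⟨a, b⟩)

end Vale.Agent.P022D.G
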