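import Vale.Agent.P022D.G.Defs
import Vale.Agent.P022.H420.L3.Wd
import Vale.Agent.P022.H227.PhiD
import Vale.Agent.P022.H527.L3.Grp

/-! # P022 route D, block G: representatives for `Γ₀(N) ∩ Γ₁(N₀)`, words on cocycles -/

set_option linter.all false

open scoped MatrixGroups ModularForm
open UpperHalfPlane CongruenceSubgroup

noncomputable section

namespace Vale.Agent.P022D.G

open Vale.Agent.P022 Vale.Agent.P022.H161.CLat Vale.Agent.P022.H161.COp Vale.Agent.P022.L3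
open Vale.Agent.P022.H527.L3 hiding M2
open Vale.Agent.P022.H420.L3 (M2 Pw act act_mul act_one hc_cob_of_ex det_alp alp_eq_al cast_iff
  coe_mul word_gen)

/-- congruence conditions on the four entries -/
structure Cls (n p r a d : ℤ) (A : M2) : Prop where
  h10 : n ∣ A 1 0
  h01 : p ∣ A 0 1
  h00 : r ∣ A 0 0 - a
  h11 : r ∣ A 1 1 - d

theorem Cls.mul {n p r a d a' d' : ℤ} {A B : M2} (hA : Cls n p r a d A) (hB : Cls n p r a' d' B)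
    (hr : r ∣ n) : Cls n p r (a * a') (d * d') (A * B) := by
  constructor
  · rw [Matrix.mul_apply, Fin.sum_univ_two]
    exact dvd_add (hA.h10.mul_right _) (hB.h10.mul_left _)
  · rw [Matrix.mul_apply, Fin.sum_univ_two]
    exact dvd_add (hB.h01.mul_left _) (hA.h01.mul_right _)
  · rw [Matrix.mul_apply, Fin.sum_univ_two]
    obtain ⟨x, hx⟩ := hA.h00
    obtain ⟨y, hy⟩ := hB.h00
    obtain ⟨z, hz⟩ := hr.trans hB.h10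
    exact ⟨x * B 0 0 + a * y + A 0 1 * z, by
      rw [hz]; linear_combination hx * B 0 0 + a * hy⟩
  · rw [Matrix.mul_apply, Fin.sum_univ_two]
    obtain ⟨x, hx⟩ := hA.h11
    obtain ⟨y, hy⟩ := hB.h11
    obtain ⟨z, hz⟩ := hr.trans hA.h10
    exact ⟨x * B 1 1 + d * y + B 0 1 * z, by
      rw [hz]; linear_combination hx * B 1 1 + d * hy⟩

theorem Cls.mul_one {n p r a d : ℤ} {A B : M2} (hA : Cls n p r a d A) (hB : Cls n p r 1 1 B)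
    (hr : r ∣ n) : Cls n p r a d (A * B) := by
  have := hA.mul hB hr
  rwa [_root_.mul_one, _root_.mul_one] at this

theorem Cls.cancel {n p r a d : ℤ} {A B ω : M2} (hA : Cls n p r a d A) (hB : Cls n p r a d B)
    (hr : r ∣ n) (hp : p ∣ n) (hc : IsCoprime n B.det) (e : A = ω * B) : Cls n p r 1 1 ω := by
  have ee : ∀ i j, A i j = ω i 0 * B 0 j + ω i 1 * B 1 j := fun i j => by
    rw [e, Matrix.mul_apply, Fin.sum_univ_two]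
  obtain ⟨y, hy⟩ := hB.h10
  obtain ⟨s, t, hst⟩ := hc
  rw [Matrix.det_fin_two, hy] at hst
  have c0 : IsCoprime n (B 0 0) := ⟨s - t * B 0 1 * y, t * B 1 1, by linear_combination hst⟩
  have c1 : IsCoprime n (B 1 1) := ⟨s - t * B 0 1 * y, t * B 0 0, by linear_combination hst⟩
  have r10 : n ∣ ω 1 0 := by
    obtain ⟨x, hx⟩ := hA.h10
    exact c0.dvd_of_dvd_mul_right ⟨x - ω 1 1 * y, by linear_combination hx - ee 1 0 - ω 1 1 * hy⟩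
  refine ⟨r10, ?_, ?_, ?_⟩
  · obtain ⟨x, hx⟩ := hA.h01
    obtain ⟨z, hz⟩ := hB.h01
    exact (c1.of_isCoprime_of_dvd_left hp).dvd_of_dvd_mul_right
      ⟨x - ω 0 0 * z, by linear_combination hx - ee 0 1 - ω 0 0 * hz⟩
  · obtain ⟨x, hx⟩ := hA.h00
    obtain ⟨z, hz⟩ := hB.h00
    obtain ⟨k, hk⟩ := hr.trans hB.h10
    exact (c0.of_isCoprime_of_dvd_left hr).dvd_of_dvd_mul_right
      ⟨x - z - ω 0 1 * k, by linear_combination hx - hz - ee 0 0 - ω 0 1 * hk⟩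
  · obtain ⟨x, hx⟩ := hA.h11
    obtain ⟨z, hz⟩ := hB.h11
    obtain ⟨k, hk⟩ := hr.trans r10
    exact (c1.of_isCoprime_of_dvd_left hr).dvd_of_dvd_mul_right
      ⟨x - z - B 0 1 * k, by linear_combination hx - hz - ee 1 1 - B 0 1 * hk⟩

theorem Cls.mono {n p r a d n' p' r' : ℤ} {A : M2} (h : Cls n p r a d A) (h1 : n' ∣ n) (h2 : p' ∣ p)
    (h3 : r' ∣ r) : Cls n' p' r' a d A :=
  ⟨h1.trans h.h10, h2.trans h.h01, h3.trans h.h00, h3.trans h.h11⟩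

/-- `Γ₀(N) ∩ Γ₁(N₀)` -/
abbrev Gm (N N₀ : ℕ) : Subgroup SL(2, ℤ) := Gamma0 N ⊓ Gamma1 N₀

theorem mem_Gm {N N₀ : ℕ} (h : N₀ ∣ N) {γ : SL(2, ℤ)} :
    γ ∈ Gm N N₀ ↔ Cls N 1 N₀ 1 1 (γ : M2) := by
  rw [Subgroup.mem_inf, Gamma0_mem, Gamma1_mem]
  constructor
  · rintro ⟨h1, h2, h3, -⟩
    exact ⟨(ZMod.intCast_zmod_eq_zero_iff_dvd _ _).1 h1, one_dvd _,
      (cast_iff _ _ _).1 (by rw [h2, Int.cast_one]), (cast_iff _ _ _).1 (by rw [h3, Int.cast_one])⟩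
  · intro c
    have h0 := (cast_iff N₀ _ _).2 c.h00
    have h1 := (cast_iff N₀ _ _).2 c.h11
    rw [Int.cast_one] at h0 h1
    exact ⟨(ZMod.intCast_zmod_eq_zero_iff_dvd _ _).2 c.h10, h0, h1,
      (ZMod.intCast_zmod_eq_zero_iff_dvd _ _).2 ((Int.natCast_dvd_natCast.2 h).trans c.h10)⟩

theorem mem_Gm' {N N₀ : ℕ} (h : N₀ ∣ N) {γ : SL(2, ℤ)} :
    γ ∈ Gm N N₀ ↔ (N : ℤ) ∣ γ 1 0 ∧ (N₀ : ℤ) ∣ γ 1 1 - 1 := by
  rw [mem_Gm h]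
  refine ⟨fun c => ⟨c.h10, c.h11⟩, fun ⟨h1, h2⟩ => ⟨h1, one_dvd _, ?_, h2⟩⟩
  obtain ⟨x, hx⟩ := (Int.natCast_dvd_natCast.2 h).trans h1
  obtain ⟨y, hy⟩ := h2
  exact ⟨-(γ 0 0 * y) + γ 0 1 * x, by linear_combination det_eq γ + γ 0 1 * hx - γ 0 0 * hy⟩

section rep

variable {N N₀ : ℕ} (hN : N₀ ∣ N) {ι : Type} {α : ι → M2} {a d D : ℤ}
include hN

theorem equiv_of (hα : ∀ i, Cls N 1 N₀ a d (α i)) (hdet : ∀ i, (α i).det = D) (hD : D ≠ 0)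
    (hc : IsCoprime (N : ℤ) D) (fac : ∀ ω : M2, ω.det = D → ∃ i ω', ω = ω' * α i) {B : M2}
    (hB : Cls N 1 N₀ a d B) (hBd : B.det = D) : ∃ i, ∃ δ : Gm N N₀, B = rho (Gm N N₀) δ * α i := by
  obtain ⟨i, ω', hω⟩ := fac B hBd
  have hd1 : ω'.det = 1 := by
    have := congrArg Matrix.det hω
    rw [Matrix.det_mul, hdet, hBd] at this
    exact (mul_right_cancel₀ hD (by rw [one_mul]; exact this)).symm
  exact ⟨i, ⟨⟨ω', hd1⟩, (mem_Gm hN).2 (hB.cancel (hα i) (Int.natCast_dvd_natCast.2 hN) (one_dvd _)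
    (by rw [hdet]; exact hc) hω)⟩, hω⟩

theorem rep_of (hα : ∀ i, Cls N 1 N₀ a d (α i)) (hdet : ∀ i, (α i).det = D) (hD : D ≠ 0)
    (hc : IsCoprime (N : ℤ) D) (fac : ∀ ω : M2, ω.det = D → ∃ i ω', ω = ω' * α i)
    (inj : ∀ i j, ∀ ω ω' : M2, ω.det = 1 → ω * α i = ω' * α j → i = j) :
    Rep (rho (Gm N N₀)) α where
  ex i γ := equiv_of hN hα hdet hD hc fac
    ((hα i).mul_one ((mem_Gm hN).1 γ.2) (Int.natCast_dvd_natCast.2 hN)) (by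
      rw [Matrix.det_mul, hdet i, rho_apply, Matrix.SpecialLinearGroup.det_coe, mul_one])
  inj i j γ γ' e := by
    have hij : i = j := inj i j _ _ (by rw [rho_apply, Matrix.SpecialLinearGroup.det_coe]) e
    subst hij
    exact ⟨rfl, Subtype.ext (Subtype.ext (cancel_right (by rw [hdet]; exact hD) e))⟩

end rep

theorem del_cls {N M : ℕ} {a : ℤ} {δ : SL(2, ℤ)} (h : IsDel N M a δ) :
    ((N * 2 ^ M : ℕ) : ℤ) ∣ a * δ 0 0 - 1 := by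
  obtain ⟨⟨x, hx⟩, _, ⟨y, hy⟩⟩ := h
  exact ⟨-(δ 0 0 * y) + δ 0 1 * x, by linear_combination det_eq δ + δ 0 1 * hx - δ 0 0 * hy⟩

theorem alp_none (M ℓ : ℕ) (δ : SL(2, ℤ)) :
    alp M ℓ δ none = !![δ 0 0 * ℓ, δ 0 1; δ 1 0 * ℓ, δ 1 1] := by
  rw [alp]
  ext i j
  fin_cases i <;> fin_cases j <;> simp [Matrix.mul_apply, Fin.sum_univ_two]

theorem cls_alp {N M ℓ : ℕ} {δ : SL(2, ℤ)} (hδ : IsDel N M ℓ δ) (i : Option (Fin ℓ)) :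
    Cls (N * 2 ^ M : ℕ) (2 ^ M : ℕ) (N * 2 ^ M : ℕ) 1 ℓ (alp M ℓ δ i) := by
  cases i with
  | some j => constructor <;> simp [alp]
  | none =>
    rw [alp_none]
    refine ⟨hδ.1.mul_right _, hδ.2.1, ?_, hδ.2.2⟩
    have := del_cls hδ
    rw [mul_comm (ℓ : ℤ)] at this
    exact this

theorem cls_del {N M : ℕ} {a : ℤ} {δ : SL(2, ℤ)} (h : IsDel N M a δ) :
    Cls (N * 2 ^ M : ℕ) (2 ^ M : ℕ) (N * 2 ^ M : ℕ) (δ 0 0) a (δ : M2) :=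
  ⟨h.1, h.2.1, by simp, h.2.2⟩

theorem dl (N M : ℕ) : (N : ℤ) ∣ ((N * 2 ^ M : ℕ) : ℤ) := by exact_mod_cast Dvd.intro _ rfl

theorem dr (N M : ℕ) : ((2 ^ M : ℕ) : ℤ) ∣ ((N * 2 ^ M : ℕ) : ℤ) := by
  exact_mod_cast Dvd.intro_left N rfl

theorem Cls.low {N N₀ M : ℕ} (hN : N₀ ∣ N) {a d : ℤ} {A : M2}
    (h : Cls (N * 2 ^ M : ℕ) (2 ^ M : ℕ) (N * 2 ^ M : ℕ) a d A) : Cls N 1 N₀ a d A :=
  h.mono (dl N M) (one_dvd _) ((Int.natCast_dvd_natCast.2 hN).trans (dl N M))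

/-- diagonal modulo `2 ^ M` -/
abbrev Dg (M : ℕ) (a d : ℤ) (A : M2) : Prop := Cls (2 ^ M : ℕ) (2 ^ M : ℕ) (2 ^ M : ℕ) a d A

theorem Cls.dg {N M : ℕ} {a d : ℤ} {A : M2}
    (h : Cls (N * 2 ^ M : ℕ) (2 ^ M : ℕ) (N * 2 ^ M : ℕ) a d A) : Dg M a d A :=
  h.mono (dr N M) dvd_rfl (dr N M)

theorem fam_alp {N M : ℕ} (ℓ : PA N) {δ : SL(2, ℤ)} (hδ : IsDel N M ℓ.1 δ) :
    Fam (2 ^ M) !![1, 0; 0, (ℓ.1 : ℤ)] (alp M ℓ.1 δ) := by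
  rw [alp_eq_al]
  have h2 : ¬ ℓ.1 ∣ 2 := fun h => ℓ.2.2 (h.mul_right N)
  refine fam_al (2 ^ M) ℓ.1 ℓ.2.1 (fun h => h2 (ℓ.2.1.dvd_of_dvd_pow h)) δ ?_ ?_ ?_ ?_
  · have := (dr N M).trans (del_cls hδ)
    rw [← ZMod.intCast_zmod_eq_zero_iff_dvd] at this
    push_cast at this ⊢
    exact sub_eq_zero.1 this
  · exact (ZMod.intCast_zmod_eq_zero_iff_dvd _ _).2 ((dr N M).trans hδ.1)
  · exact (ZMod.intCast_zmod_eq_zero_iff_dvd _ _).2 hδ.2.1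
  · have := (dr N M).trans hδ.2.2
    rw [← ZMod.intCast_zmod_eq_zero_iff_dvd] at this
    push_cast at this ⊢
    exact sub_eq_zero.1 this

theorem cop {N : ℕ} (ℓ : PA N) : IsCoprime (N : ℤ) (ℓ.1 : ℤ) :=
  Nat.isCoprime_iff_coprime.2 ℓ.coprime.symm

theorem cop2 {N : ℕ} (ℓ : PA N) (M : ℕ) : IsCoprime ((2 ^ M : ℕ) : ℤ) (ℓ.1 : ℤ) :=
  Nat.isCoprime_iff_coprime.2 (((Nat.Prime.coprime_iff_not_dvd ℓ.2.1).2
    fun h => ℓ.2.2 (h.mul_right N)).symm.pow_left M)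

theorem ex_del {N : ℕ} (ℓ : PA N) (M : ℕ) : ∃ δ, IsDel N M ℓ.1 δ :=
  exists_isDel N M _ (by rw [Nat.cast_mul]; exact ((cop ℓ).mul_left (cop2 ℓ M)).symm)

section fam

variable {N N₀ : ℕ} (hN : N₀ ∣ N) (ℓ : PA N) {M M' : ℕ} {δ δ' : SL(2, ℤ)}
include hN

theorem repT (hδ : IsDel N M ℓ.1 δ) : Rep (rho (Gm N N₀)) (alp M ℓ.1 δ) :=
  rep_of hN (fun i => (cls_alp hδ i).low hN) (det_alp M ℓ.1 δ) (by exact_mod_cast ℓ.2.1.ne_zero)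
    (cop ℓ) (fun ω hω => (fam_alp ℓ hδ).fac ω (by simp [Matrix.det_fin_two, hω]))
    fun i j ω ω' h1 e => (fam_alp ℓ hδ).inj i j ω ω' e (by rw [h1]; exact isCoprime_one_left)

theorem equivT (hδ : IsDel N M ℓ.1 δ) (hδ' : IsDel N M' ℓ.1 δ') (k : Option (Fin ℓ.1)) :
    ∃ i, ∃ ε : Gm N N₀, alp M' ℓ.1 δ' k = rho (Gm N N₀) ε * alp M ℓ.1 δ i :=
  equiv_of hN (fun i => (cls_alp hδ i).low hN) (det_alp M ℓ.1 δ) (by exact_mod_cast ℓ.2.1.ne_zero)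
    (cop ℓ) (fun ω hω => (fam_alp ℓ hδ).fac ω (by simp [Matrix.det_fin_two, hω]))
    ((cls_alp hδ' k).low hN) (det_alp M' ℓ.1 δ' k)

theorem facD (δ : SL(2, ℤ)) (ω : M2) : ∃ (_ : Unit) (ω' : M2), ω = ω' * (δ : M2) :=
  ⟨(), ω * ((δ⁻¹ : SL(2, ℤ)) : M2), by
    rw [mul_assoc, ← coe_mul, inv_mul_cancel, Matrix.SpecialLinearGroup.coe_one, mul_one]⟩

theorem repD {a : ℤ} (h : IsDel N M a δ) : Rep (rho (Gm N N₀)) (fun _ : Unit => (δ : M2)) :=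
  rep_of (D := 1) hN (fun _ => (cls_del h).low hN) (fun _ => δ.det_coe) one_ne_zero
    isCoprime_one_right (fun ω _ => facD hN δ ω) fun _ _ _ _ _ _ => rfl

theorem equivD {a : ℤ} (h : IsDel N M a δ) (h' : IsDel N M' a δ') (k : Unit) :
    ∃ _ : Unit, ∃ ε : Gm N N₀, (δ' : M2) = rho (Gm N N₀) ε * (δ : M2) := by
  refine equiv_of (α := fun _ : Unit => (δ : M2)) (D := 1) hN (fun _ => (cls_del h).low hN)
    (fun _ => δ.det_coe) one_ne_zero isCoprime_one_right (fun ω _ => facD hN δ ω) ?_ δ'.det_coe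
  have c := (cls_del h').low hN
  refine ⟨c.h10, c.h01, (Int.natCast_dvd_natCast.2 hN).trans ?_, c.h11⟩
  obtain ⟨x, hx⟩ := (dl N M).trans (del_cls h)
  obtain ⟨y, hy⟩ := (dl N M').trans (del_cls h')
  exact ⟨δ 0 0 * y - δ' 0 0 * x, by linear_combination δ 0 0 * hy - δ' 0 0 * hx⟩

end fam

/-! ### operators on cocycles -/

section op

variable {Γ : Subgroup SL(2, ℤ)} {ι κ : Type} [Fintype ι] [Fintype κ] {α : ι → M2} {β : κ → M2}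

/-- the operator of a family on integral cocycles -/
def opZ (r : Rep (rho Γ) α) (w : ℕ) : AddMonoid.End (ZC Γ w) :=
  TR (X := Unit) (ι := fun _ => ι) (α := fun _ => α) (fun _ => r) ℤ w ()

theorem opZ_coe (r : Rep (rho Γ) α) (w : ℕ) (u : ZC Γ w) :
    ((opZ r w u : ZC Γ w) : Γ → Fin (w + 1) → ℤ) = r.hc (act w) (u : Γ → Fin (w + 1) → ℤ) := rfl

/-- the operator of a family on complex functions -/
def opC (r : Rep (rho Γ) α) (w : ℕ) : Module.End ℂ (Γ → Fin (w + 1) → ℂ) :=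
  TK (X := Unit) (ι := fun _ => ι) (α := fun _ => α) (fun _ => r) ℂ w ()

theorem opC_apply (r : Rep (rho Γ) α) (w : ℕ) (u : Γ → Fin (w + 1) → ℂ) :
    opC r w u = r.hc (act w) u := rfl

theorem coc {w : ℕ} (u : ZC Γ w) (g h : Γ) : (u : Γ → Fin (w + 1) → ℤ) (g * h) =
    act w (rho Γ h) ((u : Γ → Fin (w + 1) → ℤ) g) + (u : Γ → Fin (w + 1) → ℤ) h := by
  have := u.2 g h
  rwa [actM_eq] at this

/-- the coboundaries among the cocycles -/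
def BZ (Γ : Subgroup SL(2, ℤ)) (w : ℕ) : AddSubgroup (ZC Γ w) :=
  (B1 (actM ℤ (AA Γ w))).addSubgroupOf (ZC Γ w)

theorem mem_BZ {w : ℕ} {u : ZC Γ w} : u ∈ BZ Γ w ↔
    ∃ p, ∀ g, (u : Γ → Fin (w + 1) → ℤ) g = act w (rho Γ g) p - p := by
  rw [BZ, AddSubgroup.mem_addSubgroupOf, mem_B1]
  simp only [actM_eq]

theorem BZ_le {w : ℕ} {u : ZC Γ w} (h : u ∈ BZ Γ w) : u ∈ Bsat (AA Γ w) :=
  ⟨1, one_ne_zero, by rw [one_smul]; exact h⟩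

theorem opZ_BZ (r : Rep (rho Γ) α) {w : ℕ} {u : ZC Γ w} (h : u ∈ BZ Γ w) : opZ r w u ∈ BZ Γ w := by
  obtain ⟨p, hp⟩ := mem_BZ.1 h
  exact mem_BZ.2 ⟨∑ i, act w (α i) p, fun g =>
    r.hc_cob (P := Fin (w + 1) → ℤ) (act w) (act_mul w) p _ hp g⟩

theorem opZ_equiv (r : Rep (rho Γ) α) (r' : Rep (rho Γ) β)
    (h1 : ∀ k, ∃ i δ, β k = rho Γ δ * α i) (h2 : ∀ i, ∃ k δ, α i = rho Γ δ * β k) {w : ℕ}
    (u : ZC Γ w) : opZ r' w u - opZ r w u ∈ BZ Γ w := by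
  obtain ⟨b, hb⟩ := hc_cob_of_ex (P := Fin (w + 1) → ℤ) (act w) r r' (act_mul w) (act_one w) h1 h2 _
    (coc u)
  refine mem_BZ.2 ⟨b, fun g => ?_⟩
  rw [AddSubgroup.coe_sub, Pi.sub_apply, opZ_coe, opZ_coe, hb, add_sub_cancel_left]

end op

/-- a chosen diamond matrix -/
def dm {N : ℕ} (ℓ : PA N) (M : ℕ) : SL(2, ℤ) := (ex_del ℓ M).choose

theorem dm_spec {N : ℕ} (ℓ : PA N) (M : ℕ) : IsDel N M ℓ.1 (dm ℓ M) := (ex_del ℓ M).choose_spec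

/-- words on integral cocycles -/
def rW {N N₀ : ℕ} (hN : N₀ ∣ N) (w : ℕ) : Wd N →ₐ[ℤ] AddMonoid.End (ZC (Gm N N₀) w) :=
  FreeAlgebra.lift ℤ (Sum.elim (fun ℓ => opZ (repT hN ℓ (dm_spec ℓ 0)) w)
    fun ℓ => (ℓ.1 ^ (w + 1)) • opZ (repD hN (dm_spec ℓ 0)) w)

theorem rW_T {N N₀ : ℕ} (hN : N₀ ∣ N) (w : ℕ) (ℓ : PA N) :
    rW hN w (wT ℓ) = opZ (repT hN ℓ (dm_spec ℓ 0)) w := by
  rw [rW, wT, FreeAlgebra.lift_ι_apply]; rfl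

theorem rW_S {N N₀ : ℕ} (hN : N₀ ∣ N) (w : ℕ) (ℓ : PA N) :
    rW hN w (wS ℓ) = (ℓ.1 ^ (w + 1)) • opZ (repD hN (dm_spec ℓ 0)) w := by
  rw [rW, wS, FreeAlgebra.lift_ι_apply]; rfl

end Vale.Agent.P022D.G
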